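import Vale.Agent.P140.Renorm.Defs

/-!
# Free transport on phase space and the renormalization `z ↦ z / (1 + z)`
-/

open MeasureTheory Real
open scoped RealInnerProductSpace ENNReal

namespace Vale.Agent.P140.Renorm

open Vale.Agent.P140

lemma M0_pos (v : V3) : 0 < M0 v := maxwellian_pos one_pos one_pos v

lemma continuous_M0 : Continuous M0 := continuous_maxwellian

lemma integrable_M0 : Integrable M0 := integrable_maxwellian one_pos

@[fun_prop]
lemma measurable_M0 : Measurable M0 := continuous_M0.measurable

lemma toT3_add (y w : V3) : toT3 (y + w) = toT3 y + toT3 w := by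
  funext i; simp [toT3]

lemma toT3_zero : toT3 0 = 0 := by
  funext i; simp [toT3]

@[fun_prop]
lemma continuous_toT3 : Continuous toT3 :=
  continuous_pi fun i => (AddCircle.continuous_mk' 1).comp (PiLp.continuous_apply 2 _ i)

@[fun_prop]
lemma continuous_shift : Continuous (fun p : ℝ × Omega => shift p.1 p.2) := by
  unfold shift; fun_prop

lemma measurable_shift' : Measurable (fun p : ℝ × Omega => shift p.1 p.2) :=
  continuous_shift.measurable

lemma measurable_shift (t : ℝ) : Measurable (shift t) := by
  unfold shift; fun_prop

lemma shift_shift (s t : ℝ) (z : Omega) : shift s (shift t z) = shift (t + s) z := by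
  simp [shift, add_smul, toT3_add, add_assoc]

lemma shift_zero (z : Omega) : shift 0 z = z := by simp [shift, toT3_zero]

@[simp] lemma shift_snd (t : ℝ) (z : Omega) : (shift t z).2 = z.2 := rfl

lemma measurePreserving_shift (t : ℝ) :
    MeasurePreserving (shift t) (volume : Measure Omega) volume := by
  have h : MeasurePreserving (fun p : V3 × T3 => (p.1, p.2 + toT3 (t • p.1)))
      ((volume : Measure V3).prod (volume : Measure T3))
      ((volume : Measure V3).prod (volume : Measure T3)) := by
    refine MeasurePreserving.skew_product (f := id) (g := fun v x => x + toT3 (t • v))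
      (MeasurePreserving.id _) (by fun_prop) (Filter.Eventually.of_forall fun v => ?_)
    exact (measurePreserving_add_right (volume : Measure T3) (toT3 (t • v))).map_eq
  have hs := Measure.measurePreserving_swap (μ := (volume : Measure V3)) (ν := (volume : Measure T3))
  have hs' := Measure.measurePreserving_swap (μ := (volume : Measure T3)) (ν := (volume : Measure V3))
  exact (hs.comp h).comp hs'

/-- `M β₁(F / M)` for `β₁ z = z / (1 + z)`. -/
noncomputable def beta1 (F : Omega → ℝ) (z : Omega) : ℝ :=
  F z * M0 z.2 / (M0 z.2 + F z)

/-- `β₁'(G) Q(F,F)` along free transport. -/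
noncomputable def betaRate (F : ℝ → Omega → ℝ) (s : ℝ) (z : Omega) : ℝ :=
  Qcoll (F s) (shift s z) * (M0 z.2 / (M0 z.2 + F s (shift s z))) ^ 2

end Vale.Agent.P140.Renorm
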