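import Vale.Agent.P140.Renorm.Basic

/-!
# The chain rule for `(g - ψ(h))₊` along one characteristic

`ψ h = M h / (M - h)` inverts `y ↦ M y / (M + y)`; it is cut off below `M`.
-/

open MeasureTheory Real Set
open scoped NNReal

namespace Vale.Agent.P140.Renorm

/-- `ψ` cut off at the level `c < M`. -/
noncomputable def unrenorm (M c h : ℝ) : ℝ := M * min h c / (M - min h c)

variable {M B : ℝ}

/-- The cut level `B M / (M + B)`. -/
noncomputable def level (M B : ℝ) : ℝ := B * M / (M + B)

lemma level_lt (hM : 0 < M) (hB : 0 ≤ B) : level M B < M := by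
  rw [level, div_lt_iff₀ (by positivity)]; nlinarith

lemma unrenorm_level (hM : 0 < M) (hB : 0 ≤ B) {h : ℝ} (hh : level M B ≤ h) :
    unrenorm M (level M B) h = B := by
  have h1 : M + B ≠ 0 := by positivity
  rw [unrenorm, min_eq_right hh]
  have h2 : M - level M B = M * M / (M + B) := by rw [level]; field_simp; ring
  rw [h2, level]
  field_simp

lemma unrenorm_sub_le (hM : 0 < M) (hB : 0 ≤ B) (h₁ h₂ : ℝ) :
    |unrenorm M (level M B) h₁ - unrenorm M (level M B) h₂| ≤
      M * M / (M - level M B) ^ 2 * |h₁ - h₂| := by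
  set c := level M B
  have hc : c < M := level_lt hM hB
  set x := min h₁ c
  set y := min h₂ c
  have hx : M - c ≤ M - x := by linarith [min_le_right h₁ c]
  have hy : M - c ≤ M - y := by linarith [min_le_right h₂ c]
  have hc0 : 0 < M - c := by linarith
  have hx0 : 0 < M - x := hc0.trans_le hx
  have hy0 : 0 < M - y := hc0.trans_le hy
  have hxy : |x - y| ≤ |h₁ - h₂| := abs_min_sub_min_le_max h₁ c h₂ c |>.trans (by simp)
  have e : M * x / (M - x) - M * y / (M - y) = M * M * (x - y) / ((M - x) * (M - y)) := by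
    field_simp; ring
  show |M * x / (M - x) - M * y / (M - y)| ≤ _
  rw [e, abs_div, abs_mul, abs_of_pos (mul_pos hx0 hy0), abs_of_nonneg (mul_self_nonneg M),
    div_mul_eq_mul_div, sq]
  exact div_le_div₀ (by positivity) (mul_le_mul_of_nonneg_left hxy (mul_self_nonneg M))
    (mul_pos hc0 hc0) (mul_le_mul hx hy hc0.le hx0.le)

lemma absolutelyContinuous_of_dist_le {f G H : ℝ → ℝ} {a b K : ℝ}
    (hG : AbsolutelyContinuousOnInterval G a b) (hH : AbsolutelyContinuousOnInterval H a b)
    (hK : 0 ≤ K) (hf : ∀ x y, |f x - f y| ≤ |G x - G y| + K * |H x - H y|) :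
    AbsolutelyContinuousOnInterval f a b := by
  rw [absolutelyContinuousOnInterval_iff] at hG hH ⊢
  intro ε hε
  obtain ⟨δ₁, hδ₁, h1⟩ := hG (ε / 2) (by positivity)
  obtain ⟨δ₂, hδ₂, h2⟩ := hH (ε / (2 * (K + 1))) (by positivity)
  refine ⟨min δ₁ δ₂, lt_min hδ₁ hδ₂, fun E hE hlt => ?_⟩
  have e1 := h1 E hE (hlt.trans_le (min_le_left _ _))
  have e2 := h2 E hE (hlt.trans_le (min_le_right _ _))
  simp only [Real.dist_eq] at e1 e2 ⊢
  calc ∑ i ∈ Finset.range E.1, |f (E.2 i).1 - f (E.2 i).2|
      ≤ ∑ i ∈ Finset.range E.1,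
          (|G (E.2 i).1 - G (E.2 i).2| + K * |H (E.2 i).1 - H (E.2 i).2|) :=
        Finset.sum_le_sum fun i _ => hf _ _
    _ = _ := Finset.sum_add_distrib
    _ < ε := by
      rw [← Finset.mul_sum]
      have : K * (ε / (2 * (K + 1))) ≤ ε / 2 := by
        rw [← mul_div_assoc, div_le_div_iff₀ (by positivity) two_pos]; nlinarith
      nlinarith [mul_le_mul_of_nonneg_left e2.le hK]

/-- The derivative of `(G - ψ(H))₊` for two primitives `G` and `H`. -/
theorem pos_part_chain {G H g' q : ℝ → ℝ} {T g₀ h₀ : ℝ} (hM : 0 < M) (hB : 0 ≤ B) (hT : 0 ≤ T)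
    (hg' : IntervalIntegrable g' volume 0 T) (hq : IntervalIntegrable q volume 0 T)
    (hG : ∀ t, G t = g₀ + ∫ s in (0 : ℝ)..t, g' s)
    (hH : ∀ t, H t = h₀ + ∫ s in (0 : ℝ)..t, q s)
    (hGB : ∀ t ∈ Icc 0 T, G t < B) :
    let N := fun t => max (G t - unrenorm M (level M B) (H t)) 0
    (∀ t ∈ Icc 0 T, IntervalIntegrable (deriv N) volume 0 t ∧
      N t = N 0 + ∫ s in (0 : ℝ)..t, deriv N s) ∧
    ∀ᵐ s, s ∈ Ioo 0 T → (N s = 0 → deriv N s = 0) ∧
      (0 < N s → H s < level M B ∧ deriv N s = g' s - q s * (M / (M - H s)) ^ 2) := by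
  intro N
  set c := level M B with hc
  set K := M * M / (M - c) ^ 2 with hK
  have hGac : AbsolutelyContinuousOnInterval G 0 T := by
    rw [funext hG]
    exact (LipschitzOnWith.absolutelyContinuousOnInterval (K := 0)
      ((LipschitzWith.const g₀).lipschitzOnWith)).add
      (hg'.absolutelyContinuousOnInterval_intervalIntegral left_mem_uIcc)
  have hHac : AbsolutelyContinuousOnInterval H 0 T := by
    rw [funext hH]
    exact (LipschitzOnWith.absolutelyContinuousOnInterval (K := 0)
      ((LipschitzWith.const h₀).lipschitzOnWith)).add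
      (hq.absolutelyContinuousOnInterval_intervalIntegral left_mem_uIcc)
  have hNac : AbsolutelyContinuousOnInterval N 0 T := by
    refine absolutelyContinuous_of_dist_le hGac hHac (K := K) (by positivity) fun x y => ?_
    refine (abs_max_sub_max_le_abs _ _ _).trans ?_
    have := unrenorm_sub_le hM hB (H x) (H y)
    calc |G x - unrenorm M c (H x) - (G y - unrenorm M c (H y))|
        = |(G x - G y) - (unrenorm M c (H x) - unrenorm M c (H y))| := by ring_nf
      _ ≤ _ := (abs_sub _ _).trans (by rw [hK]; exact add_le_add_right this _)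
  refine ⟨fun t ht => ?_, ?_⟩
  · have h := hNac.mono (c := 0) (d := t)
      (uIcc_subset_uIcc left_mem_uIcc (by rw [uIcc_of_le hT]; exact ht))
    exact ⟨h.intervalIntegrable_deriv, by rw [h.integral_deriv_eq_sub]; ring⟩
  · filter_upwards [hg'.ae_hasDerivAt_integral, hq.ae_hasDerivAt_integral] with s hs1 hs2 hs
    have hs' : s ∈ uIcc 0 T := by rw [uIcc_of_le hT]; exact ⟨hs.1.le, hs.2.le⟩
    have dG : HasDerivAt G (g' s) s := by
      rw [funext hG]; exact (hs1 hs' 0 left_mem_uIcc).const_add g₀
    have dH : HasDerivAt H (q s) s := by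
      rw [funext hH]; exact (hs2 hs' 0 left_mem_uIcc).const_add h₀
    refine ⟨fun h0 => ?_, fun hpos => ?_⟩
    · have : IsLocalMin N s := Filter.Eventually.of_forall fun x => by
        rw [h0]; exact le_max_right _ _
      exact this.deriv_eq_zero
    · have hHc : H s < c := by
        by_contra hle
        have : N s = 0 := max_eq_right (by
          rw [unrenorm_level hM hB (not_lt.1 hle)]
          linarith [hGB s ⟨hs.1.le, hs.2.le⟩])
        exact hpos.ne' this
      have hlt : c < M := level_lt hM hB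
      have hne : M - H s ≠ 0 := by linarith
      have dpsi : HasDerivAt (fun t => M * H t / (M - H t)) (q s * (M / (M - H s)) ^ 2) s := by
        refine ((dH.const_mul M).div (dH.const_sub M) hne).congr_deriv ?_
        field_simp; ring
      have hpos' : 0 < G s - M * H s / (M - H s) := by
        have h : 0 < max (G s - unrenorm M c (H s)) 0 := hpos
        rw [unrenorm, min_eq_left hHc.le] at h
        exact lt_of_not_ge fun hle => h.ne' (max_eq_right hle)
      have hev : N =ᶠ[nhds s] fun t => G t - M * H t / (M - H t) := by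
        filter_upwards [dH.continuousAt.eventually_lt continuousAt_const hHc,
          (dG.sub dpsi).continuousAt.eventually_const_lt hpos'] with t h1 h2
        have e : unrenorm M c (H t) = M * H t / (M - H t) := by
          rw [unrenorm, min_eq_left h1.le]
        change max (G t - unrenorm M c (H t)) 0 = _
        rw [e]; exact max_eq_left h2.le
      exact ⟨hHc, ((dG.sub dpsi).congr_of_eventuallyEq hev).deriv⟩

end Vale.Agent.P140.Renorm
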