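import Vale.Agent.P140.Renorm.Basic

/-!
# Collision changes of variables and Gaussian bounds
-/

open MeasureTheory Real
open scoped RealInnerProductSpace ENNReal

namespace Vale.Agent.P140.Renorm

open Vale.Agent.P140

instance : IsFiniteMeasure surface := by unfold surface; infer_instance

@[fun_prop]
lemma measurable_impact : Measurable (fun q : V3 × V3 × S2 => impact q.1 q.2) := by
  unfold impact; fun_prop

@[fun_prop]
lemma measurable_postV : Measurable (fun q : V3 × V3 × S2 => postV q.1 q.2) := by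
  unfold postV impact; fun_prop

@[fun_prop]
lemma measurable_postW : Measurable (fun q : V3 × V3 × S2 => postW q.1 q.2) := by
  unfold postW impact; fun_prop

lemma norm_omega (ω : S2) : ‖(ω : V3)‖ = 1 := by
  simp

lemma inner_omega (ω : S2) : ⟪(ω : V3), (ω : V3)⟫ = 1 := by
  rw [real_inner_self_eq_norm_sq, norm_omega]; norm_num

lemma impact_post (v : V3) (p : V3 × S2) :
    impact (postV v p) (postW v p, p.2) = -impact v p := by
  simp only [impact, postV, postW, inner_sub_left, inner_add_left, real_inner_smul_left,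
    inner_omega]; ring

lemma postV_post (v : V3) (p : V3 × S2) : postV (postV v p) (postW v p, p.2) = v := by
  rw [postV, impact_post, postV]; module

lemma postW_post (v : V3) (p : V3 × S2) : postW (postV v p) (postW v p, p.2) = p.1 := by
  rw [postW, impact_post, postW]; module

lemma impact_swap (v : V3) (p : V3 × S2) : impact p.1 (v, p.2) = -impact v p := by
  simp only [impact, ← inner_neg_left, neg_sub]

lemma postV_swap (v : V3) (p : V3 × S2) : postV p.1 (v, p.2) = postW v p := by
  rw [postV, impact_swap, postW]; module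

lemma postW_swap (v : V3) (p : V3 × S2) : postW p.1 (v, p.2) = postV v p := by
  rw [postW, impact_swap, postV]; module

lemma energy_post (v : V3) (p : V3 × S2) :
    ‖postV v p‖ ^ 2 + ‖postW v p‖ ^ 2 = ‖v‖ ^ 2 + ‖p.1‖ ^ 2 := by
  have ha : impact v p = ⟪v, (p.2 : V3)⟫ - ⟪p.1, (p.2 : V3)⟫ := by
    simp [impact, inner_sub_left]
  rw [postV, postW, norm_sub_sq_real, norm_add_sq_real, norm_smul, real_inner_smul_right,
    real_inner_smul_right, norm_omega, mul_one, Real.norm_eq_abs, sq_abs, ha]
  ring

/-- The collision map of velocity pairs for a fixed direction. -/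
noncomputable def collisionMap (ω : S2) : V3 × V3 →ₗ[ℝ] V3 × V3 where
  toFun q := (postV q.1 (q.2, ω), postW q.1 (q.2, ω))
  map_add' q r := by
    simp only [postV, postW, impact, Prod.fst_add, Prod.snd_add, Prod.mk_add_mk, inner_sub_left,
      inner_add_left, Prod.mk.injEq]
    constructor <;> module
  map_smul' c q := by
    simp only [postV, postW, impact, Prod.smul_fst, Prod.smul_snd, Prod.smul_mk, inner_sub_left,
      real_inner_smul_left, RingHom.id_apply, Prod.mk.injEq]
    constructor <;> module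

lemma measurePreserving_collision (ω : S2) :
    MeasurePreserving (collisionMap ω)
      ((volume : Measure V3).prod (volume : Measure V3)) ((volume : Measure V3).prod volume) := by
  have hinv : (collisionMap ω).comp (collisionMap ω) = LinearMap.id := by
    refine LinearMap.ext fun q => ?_
    exact Prod.ext (postV_post q.1 (q.2, ω)) (postW_post q.1 (q.2, ω))
  have hd : LinearMap.det (collisionMap ω) * LinearMap.det (collisionMap ω) = 1 := by
    rw [← LinearMap.det_comp, hinv, LinearMap.det_id]
  refine ⟨(collisionMap ω).continuous_of_finiteDimensional.measurable, ?_⟩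
  have hne : LinearMap.det (collisionMap ω) ≠ 0 := left_ne_zero_of_mul_eq_one hd
  rw [Measure.map_linearMap_addHaar_eq_smul_addHaar _ hne]
  rcases mul_self_eq_one_iff.1 hd with h | h <;> simp [h]

lemma lintegral_collision {f : V3 → V3 × S2 → ℝ≥0∞} (hf : Measurable (Function.uncurry f)) :
    ∫⁻ v, ∫⁻ p, f (postV v p) (postW v p, p.2) ∂((volume : Measure V3).prod surface) =
      ∫⁻ v, ∫⁻ p, f v p ∂((volume : Measure V3).prod surface) := by
  have key : ∀ g : V3 × V3 × S2 → ℝ≥0∞, Measurable g →
      ∫⁻ v, ∫⁻ p, g (v, p) ∂((volume : Measure V3).prod surface) =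
        ∫⁻ ω, ∫⁻ q : V3 × V3, g (q.1, q.2, ω) ∂((volume : Measure V3).prod volume) ∂surface := by
    intro g hg
    have h1 : ∀ v, ∫⁻ p, g (v, p) ∂((volume : Measure V3).prod surface) =
        ∫⁻ ω, (∫⁻ w, g (v, w, ω)) ∂surface := by
      intro v; exact lintegral_prod_symm' _ (by fun_prop)
    simp_rw [h1]
    rw [lintegral_lintegral_swap]
    · refine lintegral_congr fun ω => ?_
      exact (lintegral_prod (fun q : V3 × V3 => g (q.1, q.2, ω)) (by fun_prop)).symm
    · exact (Measurable.lintegral_prod_right'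
        (f := fun r : (V3 × S2) × V3 => g (r.1.1, r.2, r.1.2)) (by fun_prop)).aemeasurable
  rw [key (fun q => f (postV q.1 q.2) (postW q.1 q.2, q.2.2)) (by fun_prop),
    key (fun q => f q.1 q.2) hf]
  refine lintegral_congr fun ω => ?_
  exact (measurePreserving_collision ω).lintegral_comp
    (f := fun q : V3 × V3 => f q.1 (q.2, ω)) (by fun_prop)

lemma lintegral_swap_velocities {f : V3 → V3 × S2 → ℝ≥0∞} (hf : Measurable (Function.uncurry f)) :
    ∫⁻ v, ∫⁻ p, f p.1 (v, p.2) ∂((volume : Measure V3).prod surface) =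
      ∫⁻ v, ∫⁻ p, f v p ∂((volume : Measure V3).prod surface) := by
  have h1 : ∀ v, ∫⁻ p, f p.1 (v, p.2) ∂((volume : Measure V3).prod surface) =
      ∫⁻ w, ∫⁻ ω, f w (v, ω) ∂surface := fun v => lintegral_prod _ (by fun_prop)
  have h2 : ∀ v, ∫⁻ p, f v p ∂((volume : Measure V3).prod surface) =
      ∫⁻ w, ∫⁻ ω, f v (w, ω) ∂surface := fun v => lintegral_prod _ (by fun_prop)
  simp_rw [h1, h2]
  exact lintegral_lintegral_swap
    (Measurable.lintegral_prod_right' (f := fun r : (V3 × V3) × S2 => f r.1.2 (r.1.1, r.2))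
      (by fun_prop)).aemeasurable

@[fun_prop]
lemma measurable_gain {f h : V3 → ℝ≥0∞} (hf : Measurable f) (hh : Measurable h) :
    Measurable (gain f h) :=
  Measurable.lintegral_prod_right' (f := fun q : V3 × V3 × S2 =>
    ENNReal.ofReal |impact q.1 q.2| * f (postV q.1 q.2) * h (postW q.1 q.2)) (by fun_prop)

@[fun_prop]
lemma measurable_lossRate {f : V3 → ℝ≥0∞} (hf : Measurable f) : Measurable (lossRate f) :=
  Measurable.lintegral_prod_right' (f := fun q : V3 × V3 × S2 =>
    ENNReal.ofReal |impact q.1 q.2| * f q.2.1) (by fun_prop)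

/-- Weak form of the gain term. -/
lemma lintegral_mul_gain {f h ψ : V3 → ℝ≥0∞} (hf : Measurable f) (hh : Measurable h)
    (hψ : Measurable ψ) :
    ∫⁻ v, ψ v * gain f h v = ∫⁻ v, ∫⁻ p,
      ψ (postV v p) * (ENNReal.ofReal |impact v p| * f v * h p.1)
        ∂((volume : Measure V3).prod surface) := by
  rw [← lintegral_collision (f := fun v p =>
      ψ (postV v p) * (ENNReal.ofReal |impact v p| * f v * h p.1)) (by fun_prop)]
  simp only [postV_post, impact_post, abs_neg, gain]
  exact lintegral_congr fun v => (lintegral_const_mul _ (by fun_prop)).symm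

lemma lintegral_gain {f h : V3 → ℝ≥0∞} (hf : Measurable f) (hh : Measurable h) :
    ∫⁻ v, gain f h v = ∫⁻ v, f v * lossRate h v := by
  have := lintegral_mul_gain hf hh (ψ := fun _ => 1) (by fun_prop)
  simp only [one_mul] at this
  rw [this]
  refine lintegral_congr fun v => ?_
  rw [lossRate, ← lintegral_const_mul _ (by fun_prop)]
  exact lintegral_congr fun p => by ring

lemma lintegral_mul_lossRate_comm {f h : V3 → ℝ≥0∞} (hf : Measurable f) (hh : Measurable h) :
    ∫⁻ v, f v * lossRate h v = ∫⁻ v, h v * lossRate f v := by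
  have e : ∀ (a b : V3 → ℝ≥0∞), Measurable b → ∀ v, a v * lossRate b v =
      ∫⁻ p, ENNReal.ofReal |impact v p| * a v * b p.1 ∂((volume : Measure V3).prod surface) := by
    intro a b hb v
    rw [lossRate, ← lintegral_const_mul _ (by fun_prop)]
    exact lintegral_congr fun p => by ring
  simp_rw [e f h hh, e h f hf]
  rw [← lintegral_swap_velocities (f := fun v p => ENNReal.ofReal |impact v p| * f v * h p.1)
    (by fun_prop)]
  refine lintegral_congr fun v => lintegral_congr fun p => ?_
  rw [impact_swap, abs_neg]; ring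

/-- Conservation of mass and energy by `Q(f,f)`. -/
lemma lintegral_sq_mul_gain {f : V3 → ℝ≥0∞} (hf : Measurable f) :
    ∫⁻ v, ENNReal.ofReal (‖v‖ ^ 2) * gain f f v =
      ∫⁻ v, ENNReal.ofReal (‖v‖ ^ 2) * (f v * lossRate f v) := by
  set e : V3 → ℝ≥0∞ := fun v => ENNReal.ofReal (‖v‖ ^ 2) with he
  set k : V3 → V3 × S2 → ℝ≥0∞ := fun v p => ENNReal.ofReal |impact v p| * f v * f p.1 with hk
  have hem : Measurable e := by rw [he]; fun_prop
  have hA : Measurable (Function.uncurry fun v p => e (postV v p) * k v p) := by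
    simp only [hk]; fun_prop
  have hA' : Measurable (Function.uncurry fun v p => e v * k v p) := by
    simp only [hk]; fun_prop
  have hkswap : ∀ v (p : V3 × S2), k p.1 (v, p.2) = k v p := by
    intro v p; simp only [hk, impact_swap, abs_neg]; ring
  have hA2 := lintegral_swap_velocities hA
  simp only [postV_swap, hkswap] at hA2
  have hB2 := lintegral_swap_velocities hA'
  simp only [hkswap] at hB2
  change ∫⁻ v, e v * gain f f v = ∫⁻ v, e v * (f v * lossRate f v)
  rw [lintegral_mul_gain hf hf hem]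
  have hr : ∀ v, e v * (f v * lossRate f v) =
      ∫⁻ p, e v * k v p ∂((volume : Measure V3).prod surface) := by
    intro v
    rw [lossRate, ← lintegral_const_mul _ (by fun_prop), ← lintegral_const_mul _ (by fun_prop)]
    exact lintegral_congr fun p => by simp only [hk]; ring
  simp_rw [hr]
  have hdouble : ∀ x y : ℝ≥0∞, x + x = y + y → x = y := fun x y hxy => by
    rw [← two_mul, ← two_mul] at hxy
    exact (ENNReal.mul_right_inj two_ne_zero ENNReal.ofNat_ne_top).1 hxy
  refine hdouble _ _ ?_
  have hm1 : Measurable fun v => ∫⁻ p, e (postV v p) * k v p ∂((volume : Measure V3).prod surface) :=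
    Measurable.lintegral_prod_right hA
  have hm2 : Measurable fun v => ∫⁻ p, e v * k v p ∂((volume : Measure V3).prod surface) :=
    Measurable.lintegral_prod_right hA'
  calc _ = (∫⁻ v, ∫⁻ p, e (postV v p) * k v p ∂((volume : Measure V3).prod surface)) +
        ∫⁻ v, ∫⁻ p, e (postW v p) * k v p ∂((volume : Measure V3).prod surface) := by rw [hA2]
    _ = (∫⁻ v, ∫⁻ p, e v * k v p ∂((volume : Measure V3).prod surface)) +
        ∫⁻ v, ∫⁻ p, e p.1 * k v p ∂((volume : Measure V3).prod surface) := by
      rw [← lintegral_add_left hm1, ← lintegral_add_left hm2]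
      refine lintegral_congr fun v => ?_
      rw [← lintegral_add_left (by simp only [hk]; fun_prop),
        ← lintegral_add_left (by simp only [hk]; fun_prop)]
      refine lintegral_congr fun p => ?_
      simp only [he]
      rw [← add_mul, ← add_mul, ← ENNReal.ofReal_add (sq_nonneg _) (sq_nonneg _),
        ← ENNReal.ofReal_add (sq_nonneg _) (sq_nonneg _), energy_post]
    _ = _ := by rw [hB2]

/-- The Gaussian profile `C exp (-a |v|²)`. -/
noncomputable def gauss (C a : ℝ) (v : V3) : ℝ≥0∞ := ENNReal.ofReal (C * exp (-a * ‖v‖ ^ 2))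

lemma measurable_gauss (C a : ℝ) : Measurable (gauss C a) := by unfold gauss; fun_prop

/-- `|S²| ∫ (1 + |v|) exp (-a |v|²) dv`. -/
noncomputable def gaussRate (a : ℝ) : ℝ :=
  (surface Set.univ).toReal * ∫ v : V3, (1 + ‖v‖) * exp (-a * ‖v‖ ^ 2)

lemma integrable_one_add_norm_exp {a : ℝ} (ha : 0 < a) :
    Integrable (fun v : V3 => (1 + ‖v‖) * exp (-a * ‖v‖ ^ 2)) := by
  have h := integrable_exp_sq (a / 2) (by positivity) 0
  simp only [sub_zero] at h
  refine (h.const_mul (2 + 2 / a)).mono'
    (Continuous.aestronglyMeasurable (by fun_prop)) (Filter.Eventually.of_forall fun v => ?_)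
  set s := a / 2 * ‖v‖ ^ 2 with hs
  have he : exp (-a * ‖v‖ ^ 2) = exp (-s) * exp (-s) := by
    rw [← exp_add]; congr 1; rw [hs]; ring
  have he' : exp (-(a / 2) * ‖v‖ ^ 2) = exp (-s) := by congr 1; rw [hs]; ring
  rw [Real.norm_eq_abs, abs_of_nonneg (by positivity), he, he', ← mul_assoc]
  gcongr
  have h1 : exp (-s) ≤ 1 := exp_le_one_iff.2 (by simp only [hs]; nlinarith [norm_nonneg v])
  have hse : s * exp (-s) ≤ 1 := by
    rw [exp_neg, ← div_eq_mul_inv, div_le_one (exp_pos s)]
    linarith [add_one_le_exp s]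
  have hv : 1 + ‖v‖ ≤ 2 + 2 / a * s := by
    rw [hs]; field_simp; nlinarith [sq_nonneg (‖v‖ - 1/2)]
  calc (1 + ‖v‖) * exp (-s) ≤ (2 + 2 / a * s) * exp (-s) := by gcongr
    _ = 2 * exp (-s) + 2 / a * (s * exp (-s)) := by ring
    _ ≤ 2 * 1 + 2 / a * 1 := by gcongr
    _ = _ := by ring

lemma gaussRate_nonneg (a : ℝ) : 0 ≤ gaussRate a :=
  mul_nonneg ENNReal.toReal_nonneg (integral_nonneg fun v => by positivity)

lemma abs_impact_le (v : V3) (p : V3 × S2) : |impact v p| ≤ (1 + ‖v‖) * (1 + ‖p.1‖) := by
  calc |impact v p| ≤ ‖v - p.1‖ * ‖(p.2 : V3)‖ := abs_real_inner_le_norm _ _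
    _ ≤ ‖v‖ + ‖p.1‖ := by rw [norm_omega, mul_one]; exact norm_sub_le _ _
    _ ≤ _ := by nlinarith [norm_nonneg v, norm_nonneg p.1]

lemma lossRate_gauss_le {C a : ℝ} (hC : 0 ≤ C) (ha : 0 < a) (v : V3) :
    lossRate (gauss C a) v ≤ ENNReal.ofReal (C * gaussRate a * (1 + ‖v‖)) := by
  set c := C * (1 + ‖v‖) with hc
  calc lossRate (gauss C a) v
      ≤ ∫⁻ p : V3 × S2, ENNReal.ofReal (c * ((1 + ‖p.1‖) * exp (-a * ‖p.1‖ ^ 2)))
          ∂((volume : Measure V3).prod surface) := by
        refine lintegral_mono fun p => ?_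
        rw [gauss, ← ENNReal.ofReal_mul (abs_nonneg _)]
        refine ENNReal.ofReal_le_ofReal ?_
        calc |impact v p| * (C * exp (-a * ‖p.1‖ ^ 2))
            ≤ (1 + ‖v‖) * (1 + ‖p.1‖) * (C * exp (-a * ‖p.1‖ ^ 2)) := by
              gcongr; exact abs_impact_le v p
          _ = _ := by rw [hc]; ring
    _ = ENNReal.ofReal (C * gaussRate a * (1 + ‖v‖)) := by
      rw [lintegral_prod _ (by fun_prop)]
      simp only [lintegral_const]
      rw [lintegral_mul_const' _ _ (measure_ne_top _ _), ← ofReal_integral_eq_lintegral_ofReal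
        ((integrable_one_add_norm_exp ha).const_mul c)
        (Filter.Eventually.of_forall fun w => by rw [hc]; positivity),
        ← ENNReal.ofReal_toReal (measure_ne_top surface Set.univ),
        ← ENNReal.ofReal_mul' ENNReal.toReal_nonneg, integral_const_mul, gaussRate, hc]
      congr 1; ring

lemma gain_mono {f f' h h' : V3 → ℝ≥0∞} (hf : f ≤ f') (hh : h ≤ h') (v : V3) :
    gain f h v ≤ gain f' h' v :=
  lintegral_mono fun p => mul_le_mul' (mul_le_mul' le_rfl (hf _)) (hh _)

lemma lossRate_mono {f f' : V3 → ℝ≥0∞} (hf : f ≤ f') (v : V3) : lossRate f v ≤ lossRate f' v :=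
  lintegral_mono fun _ => mul_le_mul' le_rfl (hf _)

lemma lossRate_add {f h : V3 → ℝ≥0∞} (hf : Measurable f) (v : V3) :
    lossRate (fun w => f w + h w) v = lossRate f v + lossRate h v := by
  simp only [lossRate, mul_add]
  exact lintegral_add_left (by fun_prop) _

/-- The gain of two equal Gaussians is again Gaussian, times the collision frequency. -/
lemma gain_gauss_eq {C D a : ℝ} (hC : 0 ≤ C) (hD : 0 ≤ D) (v : V3) :
    gain (gauss C a) (gauss D a) v = gauss C a v * lossRate (gauss D a) v := by
  rw [gain, lossRate, ← lintegral_const_mul _ (by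
    have := measurable_gauss D a; fun_prop)]
  refine lintegral_congr fun p => ?_
  have h := energy_post v p
  have hexp : exp (-a * ‖postV v p‖ ^ 2) * exp (-a * ‖postW v p‖ ^ 2) =
      exp (-a * ‖v‖ ^ 2) * exp (-a * ‖p.1‖ ^ 2) := by
    rw [← exp_add, ← exp_add]; congr 1; linear_combination (-a) * h
  simp only [gauss, ENNReal.ofReal_mul hC, ENNReal.ofReal_mul hD]
  have hexp' : ENNReal.ofReal (exp (-a * ‖postV v p‖ ^ 2)) *
      ENNReal.ofReal (exp (-a * ‖postW v p‖ ^ 2)) =
      ENNReal.ofReal (exp (-a * ‖v‖ ^ 2)) * ENNReal.ofReal (exp (-a * ‖p.1‖ ^ 2)) := by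
    rw [← ENNReal.ofReal_mul (exp_pos _).le, hexp, ENNReal.ofReal_mul (exp_pos _).le]
  calc _ = ENNReal.ofReal |impact v p| * ENNReal.ofReal C * ENNReal.ofReal D *
        (ENNReal.ofReal (exp (-a * ‖postV v p‖ ^ 2)) *
          ENNReal.ofReal (exp (-a * ‖postW v p‖ ^ 2))) := by ring
    _ = _ := by rw [hexp']; ring

lemma gain_gauss_le {C D a : ℝ} (hC : 0 ≤ C) (hD : 0 ≤ D) (ha : 0 < a) (v : V3) :
    gain (gauss C a) (gauss D a) v ≤
      ENNReal.ofReal (C * D * gaussRate a * (1 + ‖v‖) * exp (-a * ‖v‖ ^ 2)) := by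
  rw [gain_gauss_eq hC hD]
  refine (mul_le_mul' le_rfl (lossRate_gauss_le hD ha v)).trans_eq ?_
  rw [gauss, ← ENNReal.ofReal_mul (by positivity)]
  congr 1; ring

/-- The splitting behind the linear inequality: no quadratic term in `n` appears. -/
lemma gain_le_add {g m n : V3 → ℝ≥0∞} (hg : Measurable g) (hm : Measurable m) (hn : Measurable n)
    (hsplit : g ≤ m + n) (hle : m ≤ g) (v : V3) :
    gain g g v ≤ gain m m v + (gain n g v + gain g n v) := by
  simp only [gain]
  rw [← lintegral_add_left (by fun_prop), ← lintegral_add_left (by fun_prop)]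
  refine lintegral_mono fun p => ?_
  simp only [mul_assoc, ← mul_add]
  refine mul_le_mul' le_rfl ?_
  have h1 := hsplit (postV v p)
  have h2 := hsplit (postW v p)
  have h3 := hle (postV v p)
  simp only [Pi.add_apply] at h1 h2
  calc g (postV v p) * g (postW v p)
      ≤ (m (postV v p) + n (postV v p)) * g (postW v p) := mul_le_mul' h1 le_rfl
    _ = m (postV v p) * g (postW v p) + n (postV v p) * g (postW v p) := add_mul _ _ _
    _ ≤ m (postV v p) * (m (postW v p) + n (postW v p)) + n (postV v p) * g (postW v p) := by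
      gcongr
    _ = m (postV v p) * m (postW v p) +
        (m (postV v p) * n (postW v p) + n (postV v p) * g (postW v p)) := by ring
    _ ≤ _ := by
      rw [add_comm (n (postV v p) * g (postW v p))]
      gcongr

end Vale.Agent.P140.Renorm
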