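import Vale.Agent.P140.Equilibrium

/-!
# Renormalized solutions of the periodic hard-sphere Boltzmann equation: definitions

Collision operators act on nonnegative extended-real profiles, so that no integrability is needed
to state them. The transport derivative of a test function is the derivative along the line
`s ↦ (t + s, x + s v, v)`.
-/

open MeasureTheory Real
open scoped RealInnerProductSpace ENNReal

namespace Vale.Agent.P140.Renorm

open Vale.Agent.P140

/-- The unit sphere of velocity space. -/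
abbrev S2 := Metric.sphere (0 : V3) 1

/-- The surface measure of the unit sphere. -/
noncomputable def surface : Measure S2 := (volume : Measure V3).toSphere

/-- `a = (v - vₛ) ⬝ ω`. -/
noncomputable def impact (v : V3) (p : V3 × S2) : ℝ := ⟪v - p.1, (p.2 : V3)⟫

/-- `v' = v - a ω`. -/
noncomputable def postV (v : V3) (p : V3 × S2) : V3 := v - impact v p • (p.2 : V3)

/-- `vₛ' = vₛ + a ω`. -/
noncomputable def postW (v : V3) (p : V3 × S2) : V3 := p.1 + impact v p • (p.2 : V3)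

/-- The bilinear hard-sphere gain term `∫ |a| f(v') h(vₛ') dvₛ dω`. -/
noncomputable def gain (f h : V3 → ℝ≥0∞) (v : V3) : ℝ≥0∞ :=
  ∫⁻ p : V3 × S2, ENNReal.ofReal |impact v p| * f (postV v p) * h (postW v p)
    ∂((volume : Measure V3).prod surface)

/-- The collision frequency `∫ |a| f(vₛ) dvₛ dω`. -/
noncomputable def lossRate (f : V3 → ℝ≥0∞) (v : V3) : ℝ≥0∞ :=
  ∫⁻ p : V3 × S2, ENNReal.ofReal |impact v p| * f p.1 ∂((volume : Measure V3).prod surface)

/-- The velocity profile of a real phase-space function at a point of space. -/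
noncomputable def slice (F : Omega → ℝ) (x : T3) : V3 → ℝ≥0∞ :=
  fun v => ENNReal.ofReal (F (x, v))

/-- `Q⁺(F,F)`. -/
noncomputable def Qplus (F : Omega → ℝ) (z : Omega) : ℝ≥0∞ :=
  gain (slice F z.1) (slice F z.1) z.2

/-- `Q⁻(F,F)`. -/
noncomputable def Qminus (F : Omega → ℝ) (z : Omega) : ℝ≥0∞ :=
  ENNReal.ofReal (F z) * lossRate (slice F z.1) z.2

/-- `Q(F,F) = Q⁺ - Q⁻`, meaningful where both terms are finite. -/
noncomputable def Qcoll (F : Omega → ℝ) (z : Omega) : ℝ :=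
  (Qplus F z).toReal - (Qminus F z).toReal

/-- The standard Maxwellian `M`. -/
noncomputable def M0 : V3 → ℝ := maxwellian 1 0 1

/-- The projection of `ℝ³` onto the periodic box. -/
noncomputable def toT3 (y : V3) : T3 := fun i => (y i : UnitAddCircle)

/-- Free transport for a time `t`. -/
noncomputable def shift (t : ℝ) (z : Omega) : Omega := (z.1 + toT3 (t • z.2), z.2)

/-- Smooth test functions on `[0,∞) × 𝕋³ × ℝ³`: periodic, compactly supported in time and
velocity. -/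
def IsTest (φ : ℝ → Omega → ℝ) : Prop :=
  ContDiff ℝ (⊤ : ℕ∞) (fun w : ℝ × V3 × V3 => φ w.1 (toT3 w.2.1, w.2.2)) ∧
    ∃ R : ℝ, ∀ t z, R < |t| ∨ R < ‖z.2‖ → φ t z = 0

/-- `(∂ₜ + v ⬝ ∇ₓ) φ`. -/
noncomputable def transport (φ : ℝ → Omega → ℝ) (t : ℝ) (z : Omega) : ℝ :=
  deriv (fun s : ℝ => φ (t + s) (shift s z)) 0

/-- The parts of the definition of a renormalized entropy solution with datum `F₀` that the
uniqueness argument uses. The entropy inequality and the momentum law are not required. -/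
structure IsRenormSolution (F₀ : Omega → ℝ) (F : ℝ → Omega → ℝ) : Prop where
  measurable : Measurable (Function.uncurry F)
  nonneg : ∀ t z, 0 ≤ F t z
  integrable : ∀ t, 0 ≤ t → Integrable (F t) ∧ Integrable (fun z : Omega => F t z * ‖z.2‖ ^ 2)
  datum : F 0 =ᵐ[volume] F₀
  weakCont : ∀ g : Omega → ℝ, Measurable g → (∃ C, ∀ z, |g z| ≤ C) →
    ContinuousOn (fun t => ∫ z, g z * F t z) (Set.Ici 0)
  massBalance : ∀ ψ : ℝ → ℝ, ContDiff ℝ (⊤ : ℕ∞) ψ → HasCompactSupport ψ →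
    (∫ t in Set.Ioi (0 : ℝ), deriv ψ t * ∫ z, F t z) + ψ 0 * (∫ z, F₀ z) = 0
  energy : ∀ t, 0 ≤ t → ∫ z : Omega, F t z * ‖z.2‖ ^ 2 ≤ ∫ z : Omega, F₀ z * ‖z.2‖ ^ 2
  finiteColl : ∀ T : ℝ, 0 ≤ T →
    (∫⁻ t in Set.Icc 0 T, ∫⁻ z : Omega,
      Qplus (F t) z / ENNReal.ofReal (1 + F t z / M0 z.2)) < ⊤ ∧
    (∫⁻ t in Set.Icc 0 T, ∫⁻ z : Omega,
      Qminus (F t) z / ENNReal.ofReal (1 + F t z / M0 z.2)) < ⊤
  renormalized : ∀ β : ℝ → ℝ, ContDiffOn ℝ 1 β (Set.Ici 0) → β 0 = 0 →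
    (∃ C, ∀ y, 0 ≤ y → |derivWithin β (Set.Ici 0) y| ≤ C / (1 + y)) →
    ∀ φ, IsTest φ →
      (∫ t in Set.Ioi (0 : ℝ), ∫ z : Omega,
          M0 z.2 * β (F t z / M0 z.2) * transport φ t z) +
        (∫ z : Omega, M0 z.2 * β (F₀ z / M0 z.2) * φ 0 z) +
        (∫ t in Set.Ioi (0 : ℝ), ∫ z : Omega,
          derivWithin β (Set.Ici 0) (F t z / M0 z.2) * Qcoll (F t) z * φ t z) = 0

/-- A nonnegative velocity profile with a finite exponential moment of rate `a`. -/
structure HasExpMoment (a : ℝ) (m : V3 → ℝ) : Prop where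
  measurable : Measurable m
  nonneg : ∀ v, 0 ≤ m v
  integrable : Integrable (fun v => m v * exp (a * ‖v‖))

/-- A mild solution on `[0,T]` below the velocity profile `m`. -/
structure IsProfileMild (T : ℝ) (m : V3 → ℝ) (g : ℝ → Omega → ℝ) : Prop where
  measurable : Measurable (Function.uncurry g)
  bounds : ∀ t ∈ Set.Icc 0 T, ∀ z : Omega, 0 ≤ g t z ∧ g t z ≤ m z.2
  mild : ∀ᵐ z : Omega, ∀ t ∈ Set.Icc 0 T,
    g t (shift t z) = g 0 z + ∫ s in (0 : ℝ)..t, Qcoll (g s) (shift s z)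

/-- A mild solution on `[0,T]` whose third velocity moment is bounded uniformly in time and
space. -/
structure IsMomentMild (T C : ℝ) (g : ℝ → Omega → ℝ) : Prop where
  measurable : Measurable (Function.uncurry g)
  nonneg : ∀ t ∈ Set.Icc 0 T, ∀ z : Omega, 0 ≤ g t z
  moment : ∀ t ∈ Set.Icc 0 T, ∀ x : T3,
    ∫⁻ v : V3, ENNReal.ofReal ((1 + ‖v‖) ^ 3) * slice (g t) x v ≤ ENNReal.ofReal C
  mild : ∀ᵐ z : Omega, ∀ t ∈ Set.Icc 0 T,
    g t (shift t z) = g 0 z + ∫ s in (0 : ℝ)..t, Qcoll (g s) (shift s z)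

end Vale.Agent.P140.Renorm
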