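import Vale.Agent.P140.Renorm.Moments

/-!
# The linear collision estimate, the tail estimate and the integral Gronwall bound
-/

open MeasureTheory Real Set
open scoped RealInnerProductSpace ENNReal

namespace Vale.Agent.P140.Renorm

open Vale.Agent.P140

/-- The majorant of `Q(g,g) - Q(F,F)` where `F < g`: it is linear in `(g-F)₊` and `(F-g)₊`. -/
noncomputable def majorant (F g : Omega → ℝ) (z : Omega) : ℝ≥0∞ :=
  slice g z.1 z.2 * lossRate (slice (fun w => F w - g w) z.1) z.2 +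
    (gain (slice (fun w => g w - F w) z.1) (slice g z.1) z.2 +
      gain (slice g z.1) (slice (fun w => g w - F w) z.1) z.2)

lemma Qdiff_le_majorant {F g : Omega → ℝ} (hF : Measurable F) (hg : Measurable g)
    (z : Omega) (hlt : F z ≤ g z)
    (hgN : Qminus g z ≠ ⊤) (hFP : Qplus F z ≠ ⊤) :
    ENNReal.ofReal (Qcoll g z - Qcoll F z) ≤ majorant F g z := by
  set G := slice g z.1 with hG
  set n := slice (fun w => g w - F w) z.1 with hn
  set p := slice (fun w => F w - g w) z.1 with hp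
  set m := slice (fun w => min (F w) (g w)) z.1 with hm
  set A := gain n G z.2 + gain G n z.2 with hA
  set B := G z.2 * lossRate p z.2 with hB
  change _ ≤ B + A
  rcases eq_or_ne (B + A) ⊤ with htop | htop
  · rw [htop]; exact le_top
  obtain ⟨hBt, hAt⟩ := ENNReal.add_ne_top.1 htop
  have hGm : Measurable G := measurable_slice hg _
  have hnm : Measurable n := measurable_slice (hg.sub hF) _
  have hmm : Measurable m := measurable_slice (hF.min hg) _
  have hsplit : G ≤ m + n := fun v => by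
    simp only [hG, hm, hn, Pi.add_apply, slice]
    rcases le_total (F (z.1, v)) (g (z.1, v)) with h | h
    · rw [min_eq_left h]
      exact le_trans (le_of_eq (by ring_nf)) ENNReal.ofReal_add_le
    · rw [min_eq_right h]; exact le_self_add
  have hmle : m ≤ G := fun v => ENNReal.ofReal_le_ofReal (min_le_right _ _)
  have hP : Qplus g z ≤ Qplus F z + A :=
    (gain_le_add hGm hmm hnm hsplit hmle z.2).trans (add_le_add
      (gain_mono (fun v => ENNReal.ofReal_le_ofReal (min_le_left _ _))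
        (fun v => ENNReal.ofReal_le_ofReal (min_le_left _ _)) _) le_rfl)
  have hN : Qminus F z ≤ Qminus g z + B := by
    calc Qminus F z ≤ G z.2 * lossRate (slice F z.1) z.2 :=
          mul_le_mul' (ENNReal.ofReal_le_ofReal hlt) le_rfl
      _ ≤ G z.2 * lossRate (fun w => G w + p w) z.2 := by
          refine mul_le_mul' le_rfl (lossRate_mono (fun v => ?_) _)
          simp only [hG, hp, slice]
          exact le_trans (le_of_eq (by ring_nf)) ENNReal.ofReal_add_le
      _ = Qminus g z + B := by rw [lossRate_add hGm, mul_add]; rfl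
  have h1 := ENNReal.toReal_mono (ENNReal.add_ne_top.2 ⟨hFP, hAt⟩) hP
  have h2 := ENNReal.toReal_mono (ENNReal.add_ne_top.2 ⟨hgN, hBt⟩) hN
  rw [ENNReal.toReal_add hFP hAt] at h1
  rw [ENNReal.toReal_add hgN hBt] at h2
  calc ENNReal.ofReal (Qcoll g z - Qcoll F z)
      ≤ ENNReal.ofReal (A.toReal + B.toReal) :=
        ENNReal.ofReal_le_ofReal (by unfold Qcoll; linarith)
    _ = _ := by
      rw [ENNReal.ofReal_add ENNReal.toReal_nonneg ENNReal.toReal_nonneg,
        ENNReal.ofReal_toReal hAt, ENNReal.ofReal_toReal hBt, add_comm]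

/-- `∫ (1 + |v|) u₊`. -/
noncomputable def weightedMass (u : Omega → ℝ) : ℝ≥0∞ :=
  ∫⁻ z : Omega, ENNReal.ofReal (1 + ‖z.2‖) * ENNReal.ofReal (u z)

lemma measurable_gain_slices {u w : Omega → ℝ} (hu : Measurable u) (hw : Measurable w) :
    Measurable (fun z : Omega => gain (slice u z.1) (slice w z.1) z.2) := by
  unfold gain slice
  exact Measurable.lintegral_prod_right' (f := fun q : Omega × (V3 × S2) =>
    ENNReal.ofReal |impact q.1.2 q.2| * ENNReal.ofReal (u (q.1.1, postV q.1.2 q.2)) *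
      ENNReal.ofReal (w (q.1.1, postW q.1.2 q.2))) (by fun_prop)

lemma measurable_lossRate_slices {u : Omega → ℝ} (hu : Measurable u) :
    Measurable (fun z : Omega => lossRate (slice u z.1) z.2) := by
  unfold lossRate slice
  exact Measurable.lintegral_prod_right' (f := fun q : Omega × (V3 × S2) =>
    ENNReal.ofReal |impact q.1.2 q.2| * ENNReal.ofReal (u (q.1.1, q.2.1))) (by fun_prop)

lemma measurable_majorant {F g : Omega → ℝ} (hF : Measurable F) (hg : Measurable g) :
    Measurable (majorant F g) := by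
  have hgF : Measurable (fun w => g w - F w) := hg.sub hF
  exact (hg.ennreal_ofReal.mul (measurable_lossRate_slices (hF.sub hg))).add
    ((measurable_gain_slices hgF hg).add (measurable_gain_slices hg hgF))

lemma lintegral_majorant_le {F g : Omega → ℝ} {a : ℝ} {m : V3 → ℝ} (hF : Measurable F)
    (hg : Measurable g) (hm : HasExpMoment a m) (ha : 0 < a) (hb : ∀ z : Omega, g z ≤ m z.2) :
    ∫⁻ z, majorant F g z ≤ ENNReal.ofReal (profileRate m) *
      (weightedMass (fun z => F z - g z) + (weightedMass (fun z => g z - F z) +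
        weightedMass (fun z => g z - F z))) := by
  set K := ENNReal.ofReal (profileRate m)
  have hR : Measurable (majorant F g) := measurable_majorant hF hg
  have hW : ∀ u : Omega → ℝ, Measurable u →
      ∫⁻ x : T3, ∫⁻ v : V3, slice u x v * (K * ENNReal.ofReal (1 + ‖v‖)) = K * weightedMass u := by
    intro u hu
    have hm : Measurable fun z : Omega => ENNReal.ofReal (1 + ‖z.2‖) * ENNReal.ofReal (u z) := by
      fun_prop
    rw [weightedMass, Measure.volume_eq_prod, ← lintegral_const_mul K hm,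
      lintegral_prod _ (hm.const_mul K).aemeasurable]
    exact lintegral_congr fun x => lintegral_congr fun v => by simp only [slice]; ring
  have hWm : ∀ u : Omega → ℝ, Measurable u → Measurable fun x : T3 =>
      ∫⁻ v : V3, slice u x v * (K * ENNReal.ofReal (1 + ‖v‖)) := fun u hu =>
    Measurable.lintegral_prod_right' (f := fun q : T3 × V3 =>
      ENNReal.ofReal (u (q.1, q.2)) * (K * ENNReal.ofReal (1 + ‖q.2‖))) (by fun_prop)
  rw [mul_add, mul_add, ← hW (fun z => F z - g z) (hF.sub hg),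
    ← hW (fun z => g z - F z) (hg.sub hF),
    ← lintegral_add_left (hWm (fun z => g z - F z) (hg.sub hF)),
    ← lintegral_add_left (hWm (fun z => F z - g z) (hF.sub hg)),
    Measure.volume_eq_prod, lintegral_prod _ hR.aemeasurable]
  refine lintegral_mono fun x => ?_
  have hG : Measurable (slice g x) := measurable_slice hg x
  have hn : Measurable (slice (fun w => g w - F w) x) := measurable_slice (hg.sub hF) x
  have hp : Measurable (slice (fun w => F w - g w) x) := measurable_slice (hF.sub hg) x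
  have hL : ∀ v, lossRate (slice g x) v ≤ K * ENNReal.ofReal (1 + ‖v‖) := fun v => by
    refine ((lossRate_mono (fun w => ENNReal.ofReal_le_ofReal (hb (x, w))) v).trans
      (lossRate_profile_le hm ha v)).trans_eq ?_
    rw [← ENNReal.ofReal_mul (profileRate_nonneg hm)]
  simp only [majorant]
  rw [lintegral_add_left (by fun_prop), lintegral_add_left (by fun_prop)]
  refine add_le_add ?_ (add_le_add ?_ ?_)
  · rw [lintegral_mul_lossRate_comm hG hp]
    exact lintegral_mono fun v => mul_le_mul' le_rfl (hL v)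
  · rw [lintegral_gain hn hG]
    exact lintegral_mono fun v => mul_le_mul' le_rfl (hL v)
  · rw [lintegral_gain hG hn, lintegral_mul_lossRate_comm hG hn]
    exact lintegral_mono fun v => mul_le_mul' le_rfl (hL v)

/-- `∫_{|v| > R} |v|² u₊`. -/
noncomputable def tailEnergy (R : ℝ) (u : Omega → ℝ) : ℝ≥0∞ :=
  ∫⁻ z : Omega, {z : Omega | R < ‖z.2‖}.indicator
    (fun z => ENNReal.ofReal (‖z.2‖ ^ 2) * ENNReal.ofReal (u z)) z

lemma measurableSet_far (R : ℝ) : MeasurableSet {z : Omega | R < ‖z.2‖} :=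
  measurableSet_lt measurable_const (by fun_prop)

lemma weightedMass_le {u : Omega → ℝ} (hu : Measurable u) {R : ℝ} (hR : 1 ≤ R) :
    weightedMass u ≤ ENNReal.ofReal (1 + R) * (∫⁻ z, ENNReal.ofReal (u z)) +
      ENNReal.ofReal R⁻¹ * tailEnergy R u := by
  have hS := measurableSet_far R
  have hm : Measurable fun z : Omega => {z : Omega | R < ‖z.2‖}.indicator
      (fun z => ENNReal.ofReal (‖z.2‖ ^ 2) * ENNReal.ofReal (u z)) z :=
    (by fun_prop : Measurable fun z : Omega =>
      ENNReal.ofReal (‖z.2‖ ^ 2) * ENNReal.ofReal (u z)).indicator hS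
  rw [weightedMass, tailEnergy, ← lintegral_const_mul _ hu.ennreal_ofReal,
    ← lintegral_const_mul _ hm, ← lintegral_add_left (hu.ennreal_ofReal.const_mul _)]
  refine lintegral_mono fun z => ?_
  by_cases hz : R < ‖z.2‖
  · rw [indicator_of_mem (show z ∈ {z : Omega | R < ‖z.2‖} from hz), ← mul_assoc, ← add_mul,
      ← ENNReal.ofReal_mul (p := R⁻¹) (by positivity),
      ← ENNReal.ofReal_add (by linarith) (by positivity)]
    refine mul_le_mul' (ENNReal.ofReal_le_ofReal ?_) le_rfl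
    have : ‖z.2‖ ≤ R⁻¹ * ‖z.2‖ ^ 2 := by
      rw [← div_eq_inv_mul, le_div_iff₀ (by linarith)]; nlinarith [norm_nonneg z.2]
    linarith
  · rw [indicator_of_notMem (show z ∉ {z : Omega | R < ‖z.2‖} from hz), mul_zero, add_zero]
    exact mul_le_mul' (ENNReal.ofReal_le_ofReal (by linarith [not_lt.1 hz])) le_rfl

lemma tailEnergy_le_of_energy {F g : Omega → ℝ} (hF : Measurable F) (hg : Measurable g)
    {R : ℝ} (hR : 0 ≤ R)
    (hfin : ∫⁻ z : Omega, ENNReal.ofReal (‖z.2‖ ^ 2) * ENNReal.ofReal (g z) ≠ ⊤)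
    (hen : ∫⁻ z : Omega, ENNReal.ofReal (‖z.2‖ ^ 2) * ENNReal.ofReal (F z) ≤
      ∫⁻ z : Omega, ENNReal.ofReal (‖z.2‖ ^ 2) * ENNReal.ofReal (g z)) :
    tailEnergy R F ≤ tailEnergy R g +
      ENNReal.ofReal (R ^ 2) * ∫⁻ z, ENNReal.ofReal (g z - F z) := by
  set S := {z : Omega | R < ‖z.2‖}
  have hS : MeasurableSet S := measurableSet_far R
  set e := fun (u : Omega → ℝ) (z : Omega) => ENNReal.ofReal (‖z.2‖ ^ 2) * ENNReal.ofReal (u z)
  have hem : ∀ u : Omega → ℝ, Measurable u → Measurable (e u) := fun u hu => by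
    simp only [e]; fun_prop
  have hT : ∀ u : Omega → ℝ, tailEnergy R u = ∫⁻ z in S, e u z := fun u => lintegral_indicator hS _
  rw [hT, hT]
  have hgc : ∫⁻ z in Sᶜ, e g z ≠ ⊤ := ne_top_of_le_ne_top hfin (setLIntegral_le_lintegral _ _)
  refine ENNReal.le_of_add_le_add_right hgc ?_
  have h1 : ∫⁻ z in Sᶜ, e g z ≤ (∫⁻ z in Sᶜ, e F z) +
      ENNReal.ofReal (R ^ 2) * ∫⁻ z, ENNReal.ofReal (g z - F z) := by
    calc ∫⁻ z in Sᶜ, e g z ≤ ∫⁻ z in Sᶜ,
          (e F z + ENNReal.ofReal (R ^ 2) * ENNReal.ofReal (g z - F z)) := by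
          refine setLIntegral_mono ((hem F hF).add (by fun_prop)) fun z hz => ?_
          have hz' : ‖z.2‖ ≤ R := not_lt.1 hz
          calc e g z ≤ ENNReal.ofReal (‖z.2‖ ^ 2) *
                (ENNReal.ofReal (F z) + ENNReal.ofReal (g z - F z)) :=
                mul_le_mul' le_rfl (le_trans (le_of_eq (by ring_nf)) ENNReal.ofReal_add_le)
            _ ≤ _ := by
              rw [mul_add]
              exact add_le_add le_rfl (mul_le_mul' (ENNReal.ofReal_le_ofReal
                (by nlinarith [norm_nonneg z.2])) le_rfl)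
      _ ≤ _ := by
          rw [lintegral_add_left (hem F hF), lintegral_const_mul' _ _ ENNReal.ofReal_ne_top]
          exact add_le_add le_rfl (mul_le_mul' le_rfl (setLIntegral_le_lintegral _ _))
  calc (∫⁻ z in S, e F z) + ∫⁻ z in Sᶜ, e g z
      ≤ (∫⁻ z in S, e F z) + ((∫⁻ z in Sᶜ, e F z) +
          ENNReal.ofReal (R ^ 2) * ∫⁻ z, ENNReal.ofReal (g z - F z)) := add_le_add le_rfl h1
    _ = (∫⁻ z, e F z) + ENNReal.ofReal (R ^ 2) * ∫⁻ z, ENNReal.ofReal (g z - F z) := by
        rw [← add_assoc, lintegral_add_compl _ hS]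
    _ ≤ ((∫⁻ z in S, e g z) + ∫⁻ z in Sᶜ, e g z) +
          ENNReal.ofReal (R ^ 2) * ∫⁻ z, ENNReal.ofReal (g z - F z) := by
        rw [lintegral_add_compl _ hS]; exact add_le_add hen le_rfl
    _ = _ := by rw [add_right_comm]

/-- `∫ |v|² m exp((a/2)|v|)`. -/
noncomputable def tailConst (m : V3 → ℝ) (a : ℝ) : ℝ :=
  ∫ z : Omega, ‖z.2‖ ^ 2 * m z.2 * exp (a / 2 * ‖z.2‖)

lemma integrable_tail {m : V3 → ℝ} {a : ℝ} (hm : HasExpMoment a m) (ha : 0 < a) :
    Integrable (fun z : Omega => ‖z.2‖ ^ 2 * m z.2 * exp (a / 2 * ‖z.2‖)) := by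
  have hmeas := hm.measurable
  refine (integrable_snd (hm.integrable.const_mul (32 / a ^ 2))).mono'
    (by fun_prop : Measurable fun z : Omega =>
      ‖z.2‖ ^ 2 * m z.2 * exp (a / 2 * ‖z.2‖)).aestronglyMeasurable
    (Filter.Eventually.of_forall fun z => ?_)
  rw [Real.norm_eq_abs, abs_of_nonneg
    (mul_nonneg (mul_nonneg (sq_nonneg _) (hm.nonneg _)) (exp_pos _).le)]
  have h := quadratic_le_exp_of_nonneg (show 0 ≤ a / 2 * ‖z.2‖ by positivity)
  have h2 : ‖z.2‖ ^ 2 ≤ 32 / a ^ 2 * exp (a / 2 * ‖z.2‖) := by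
    rw [div_mul_eq_mul_div, le_div_iff₀ (by positivity)]
    nlinarith [exp_pos (a / 2 * ‖z.2‖), norm_nonneg z.2]
  have he : exp (a * ‖z.2‖) = exp (a / 2 * ‖z.2‖) * exp (a / 2 * ‖z.2‖) := by
    rw [← exp_add]; congr 1; ring
  calc ‖z.2‖ ^ 2 * m z.2 * exp (a / 2 * ‖z.2‖)
      ≤ 32 / a ^ 2 * exp (a / 2 * ‖z.2‖) * m z.2 * exp (a / 2 * ‖z.2‖) :=
        mul_le_mul_of_nonneg_right (mul_le_mul_of_nonneg_right h2 (hm.nonneg _)) (exp_pos _).le
    _ = _ := by rw [he]; ring

lemma tailEnergy_profile_le {g : Omega → ℝ} {m : V3 → ℝ} {a R : ℝ} (hm : HasExpMoment a m)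
    (ha : 0 < a) (hb : ∀ z : Omega, g z ≤ m z.2) :
    tailEnergy R g ≤ ENNReal.ofReal (exp (-(a / 2) * R) * tailConst m a) := by
  have hn : ∀ z : Omega, 0 ≤ ‖z.2‖ ^ 2 * m z.2 * exp (a / 2 * ‖z.2‖) := fun z =>
    mul_nonneg (mul_nonneg (sq_nonneg _) (hm.nonneg _)) (exp_pos _).le
  rw [tailEnergy, tailConst, ← integral_const_mul, ofReal_integral_eq_lintegral_ofReal
    ((integrable_tail hm ha).const_mul _)
    (Filter.Eventually.of_forall fun z => mul_nonneg (exp_pos _).le (hn z))]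
  refine lintegral_mono fun z => ?_
  by_cases hz : R < ‖z.2‖
  · rw [indicator_of_mem (show z ∈ {z : Omega | R < ‖z.2‖} from hz),
      ← ENNReal.ofReal_mul (by positivity)]
    refine ENNReal.ofReal_le_ofReal ?_
    have h1 : (1 : ℝ) ≤ exp (-(a / 2) * R) * exp (a / 2 * ‖z.2‖) := by
      rw [← exp_add]; exact one_le_exp (by nlinarith)
    have h2 : 0 ≤ ‖z.2‖ ^ 2 * m z.2 := mul_nonneg (sq_nonneg _) (hm.nonneg _)
    calc ‖z.2‖ ^ 2 * g z ≤ ‖z.2‖ ^ 2 * m z.2 * 1 := by
          rw [mul_one]; exact mul_le_mul_of_nonneg_left (hb z) (sq_nonneg _)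
      _ ≤ _ := mul_le_mul_of_nonneg_left h1 h2
      _ = _ := by ring
  · rw [indicator_of_notMem (show z ∉ {z : Omega | R < ‖z.2‖} from hz)]
    exact zero_le

/-- Gronwall for an integral inequality, with no regularity of the unknown. -/
lemma gronwall_bound {y : ℝ → ℝ≥0∞} {t₀ T b c : ℝ} {B : ℝ≥0∞} (hT : t₀ ≤ T) (hb : 0 ≤ b) (hc : 0 ≤ c)
    (hB : B ≠ ⊤) (hyB : ∀ t ∈ Ioc t₀ T, y t ≤ B)
    (hy : ∀ᵐ t ∂(volume.restrict (Ioc t₀ T)),
      y t ≤ ∫⁻ s in Ioc t₀ t, (ENNReal.ofReal b * y s + ENNReal.ofReal c)) :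
    ∀ᵐ t ∂(volume.restrict (Ioc t₀ T)),
      y t ≤ ENNReal.ofReal (2 * c * (T - t₀) * exp (2 * b * (T - t₀))) := by
  set Y := fun t => ∫⁻ s in Ioc t₀ t, (ENNReal.ofReal b * y s + ENNReal.ofReal c) with hY
  set S := ⨆ t ∈ Icc t₀ T, Y t * ENNReal.ofReal (exp (-(2 * b * (t - t₀)))) with hS
  have hYB : ∀ t ∈ Icc t₀ T, Y t ≤ (ENNReal.ofReal b * B + ENNReal.ofReal c) * ENNReal.ofReal (T - t₀) := by
    intro t ht
    calc Y t ≤ ∫⁻ _ in Ioc t₀ t, (ENNReal.ofReal b * B + ENNReal.ofReal c) := by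
          refine lintegral_mono_ae ((ae_restrict_iff' measurableSet_Ioc).2
            (Filter.Eventually.of_forall fun s hs => ?_))
          exact add_le_add (mul_le_mul' le_rfl (hyB s ⟨hs.1, hs.2.trans ht.2⟩)) le_rfl
      _ ≤ _ := by
          rw [setLIntegral_const, Real.volume_Ioc]
          exact mul_le_mul' le_rfl (ENNReal.ofReal_le_ofReal (by linarith [ht.2]))
  have hStop : S ≠ ⊤ := by
    refine ne_top_of_le_ne_top ?_ (iSup₂_le fun t ht => (mul_le_mul' (hYB t ht)
      (ENNReal.ofReal_le_one.2 (exp_le_one_iff.2 (by nlinarith [ht.1])))).trans_eq (mul_one _))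
    exact ENNReal.mul_ne_top (ENNReal.add_ne_top.2
      ⟨ENNReal.mul_ne_top ENNReal.ofReal_ne_top hB, ENNReal.ofReal_ne_top⟩) ENNReal.ofReal_ne_top
  have hYS : ∀ s ∈ Icc t₀ T, Y s ≤ S * ENNReal.ofReal (exp (2 * b * (s - t₀))) := by
    intro s hs
    have h : Y s * ENNReal.ofReal (exp (-(2 * b * (s - t₀)))) ≤ S :=
      le_iSup₂_of_le (f := fun t (_ : t ∈ Icc t₀ T) => Y t * ENNReal.ofReal (exp (-(2 * b * (t - t₀)))))
        s hs le_rfl
    have := mul_le_mul' h (le_refl (ENNReal.ofReal (exp (2 * b * (s - t₀)))))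
    rwa [mul_assoc, ← ENNReal.ofReal_mul (exp_pos _).le, ← exp_add, neg_add_cancel, exp_zero,
      ENNReal.ofReal_one, mul_one] at this
  set σ := S.toReal with hσ
  have hStep : ∀ t ∈ Icc t₀ T,
      Y t * ENNReal.ofReal (exp (-(2 * b * (t - t₀)))) ≤ ENNReal.ofReal (c * (T - t₀) + σ / 2) := by
    intro t ht
    have hsub : ∀ᵐ s ∂(volume.restrict (Ioc t₀ t)),
        ENNReal.ofReal b * y s + ENNReal.ofReal c ≤
          ENNReal.ofReal (b * σ * exp (2 * b * (s - t₀)) + c) := by
      have hy' : ∀ᵐ s ∂(volume.restrict (Ioc t₀ t)), y s ≤ Y s :=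
        ae_restrict_of_ae_restrict_of_subset (Ioc_subset_Ioc_right ht.2) hy
      filter_upwards [hy', ae_restrict_mem measurableSet_Ioc] with s hs hmem
      have hbσ : 0 ≤ b * σ := mul_nonneg hb ENNReal.toReal_nonneg
      rw [ENNReal.ofReal_add (by positivity) hc, ENNReal.ofReal_mul hbσ, ENNReal.ofReal_mul hb,
        hσ, ENNReal.ofReal_toReal hStop, mul_assoc]
      exact add_le_add (mul_le_mul' le_rfl
        (hs.trans (hYS s ⟨hmem.1.le, hmem.2.trans ht.2⟩))) le_rfl
    set f := fun s => b * σ * exp (2 * b * (s - t₀)) + c with hf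
    have hfc : Continuous f := by simp only [hf]; fun_prop
    have hint : ∫ s in t₀..t, f s = σ / 2 * exp (2 * b * (t - t₀)) + c * (t - t₀) - σ / 2 := by
      rw [intervalIntegral.integral_eq_sub_of_hasDerivAt
        (f := fun s => σ / 2 * exp (2 * b * (s - t₀)) + c * (s - t₀)) (fun s _ => ?_) (hfc.intervalIntegrable _ _)]
      · simp
      · refine (((((hasDerivAt_id s).sub_const t₀).const_mul (2 * b)).exp.const_mul (σ / 2)).add
          (((hasDerivAt_id s).sub_const t₀).const_mul c)).congr_deriv ?_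
        simp only [hf, id]; ring
    have h1 : Y t ≤ ENNReal.ofReal (σ / 2 * exp (2 * b * (t - t₀)) + c * (t - t₀) - σ / 2) := by
      refine (lintegral_mono_ae hsub).trans_eq ?_
      rw [← ofReal_integral_eq_lintegral_ofReal (hfc.integrableOn_Ioc)
        (Filter.Eventually.of_forall fun s => by
          have : 0 ≤ σ := ENNReal.toReal_nonneg
          simp only [Pi.zero_apply]; positivity), ← intervalIntegral.integral_of_le ht.1, hint]
    refine (mul_le_mul' h1 le_rfl).trans ?_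
    rw [← ENNReal.ofReal_mul' (exp_pos _).le]
    refine ENNReal.ofReal_le_ofReal ?_
    have hσ0 : 0 ≤ σ := ENNReal.toReal_nonneg
    have he : exp (2 * b * (t - t₀)) * exp (-(2 * b * (t - t₀))) = 1 := by rw [← exp_add, add_neg_cancel, exp_zero]
    have hle : exp (-(2 * b * (t - t₀))) ≤ 1 := exp_le_one_iff.2 (by nlinarith [ht.1])
    have := mul_le_mul_of_nonneg_left hle (mul_nonneg hc (sub_nonneg.2 ht.1))
    nlinarith [exp_pos (-(2 * b * (t - t₀))), mul_nonneg hσ0 (exp_pos (-(2 * b * (t - t₀)))).le,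
      mul_le_mul_of_nonneg_left (sub_le_sub_right ht.2 t₀) hc]
  have hσ2 : σ ≤ 2 * c * (T - t₀) := by
    have h : S ≤ ENNReal.ofReal (c * (T - t₀) + σ / 2) := iSup₂_le hStep
    have := ENNReal.toReal_mono ENNReal.ofReal_ne_top h
    rw [ENNReal.toReal_ofReal (by have : 0 ≤ σ := ENNReal.toReal_nonneg; positivity)] at this
    linarith
  filter_upwards [hy, ae_restrict_mem measurableSet_Ioc] with t ht hmem
  refine ht.trans ((hYS t ⟨hmem.1.le, hmem.2⟩).trans ?_)
  rw [← ENNReal.ofReal_toReal hStop, ← ENNReal.ofReal_mul ENNReal.toReal_nonneg]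
  refine ENNReal.ofReal_le_ofReal (mul_le_mul hσ2 (exp_le_exp.2 ?_) (exp_pos _).le (by positivity))
  nlinarith [hmem.2]

end Vale.Agent.P140.Renorm
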