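import Vale.Agent.P140.Renorm.Collision

/-!
# Short-time mild solutions below a velocity profile with an exponential moment

Picard iteration along free transport in the weight `exp ((a - b t) |v|)`, `b = a / (2 T)`. The
iterates are controlled by majorising velocity profiles `G₀ = 0`, `Gₙ₊₁ = c + κ B(Gₙ, Gₙ)`, which
increase with bounded mass, so that successive differences telescope. Velocities where the limit
profile is infinite form a null set, on which the solution is put equal to zero.
-/

open MeasureTheory Real Filter Set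
open scoped RealInnerProductSpace ENNReal Topology

namespace Vale.Agent.P140.Renorm

open Vale.Agent.P140

namespace Picard

/-- The collision measure on `(vₛ, ω)`. -/
noncomputable abbrev colMeas : Measure (V3 × S2) := (volume : Measure V3).prod surface

/-- The measure on times in `(0,t]` and collision parameters. -/
noncomputable abbrev lineMeas (t : ℝ) : Measure (ℝ × V3 × S2) :=
  (volume.restrict (Ioc 0 t)).prod colMeas

/-- The integrand of the gain term on positive parts. -/
noncomputable def kplus (h : Omega → ℝ) (z : Omega) (p : V3 × S2) : ℝ :=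
  |impact z.2 p| * (max (h (z.1, postV z.2 p)) 0 * max (h (z.1, postW z.2 p)) 0)

/-- The integrand of the collision frequency on positive parts. -/
noncomputable def kloss (h : Omega → ℝ) (z : Omega) (p : V3 × S2) : ℝ :=
  |impact z.2 p| * max (h (z.1, p.1)) 0

/-- The collision operator with positive parts in the gain and in the collision frequency. -/
noncomputable def Qsigned (h : Omega → ℝ) (z : Omega) : ℝ :=
  (∫ p, kplus h z p ∂colMeas) - h z * ∫ p, kloss h z p ∂colMeas

lemma kplus_nonneg (h : Omega → ℝ) (z : Omega) (p : V3 × S2) : 0 ≤ kplus h z p := by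
  unfold kplus; positivity

lemma kloss_nonneg (h : Omega → ℝ) (z : Omega) (p : V3 × S2) : 0 ≤ kloss h z p := by
  unfold kloss; positivity

lemma measurable_section {g : Omega → ℝ} (hg : Measurable g) (z : Omega) :
    Measurable (kplus g z) ∧ Measurable (kloss g z) := by
  constructor
  · unfold kplus; fun_prop
  · unfold kloss; fun_prop

lemma Qcoll_eq_Qsigned {h : Omega → ℝ} (hm : Measurable h) (h0 : ∀ y, 0 ≤ h y) (z : Omega) :
    Qcoll h z = Qsigned h z := by
  obtain ⟨hp, hl⟩ := measurable_section hm z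
  have e1 : (Qplus h z).toReal = ∫ p, kplus h z p ∂colMeas := by
    rw [integral_eq_lintegral_of_nonneg_ae (Eventually.of_forall fun p => kplus_nonneg h z p)
      hp.aestronglyMeasurable]
    unfold Qplus gain
    congr 1
    refine lintegral_congr fun p => ?_
    simp only [slice, kplus, max_eq_left (h0 _)]
    rw [ENNReal.ofReal_mul (abs_nonneg _), ENNReal.ofReal_mul (h0 _), mul_assoc]
  have e2 : (lossRate (slice h z.1) z.2).toReal = ∫ p, kloss h z p ∂colMeas := by
    rw [integral_eq_lintegral_of_nonneg_ae (Eventually.of_forall fun p => kloss_nonneg h z p)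
      hl.aestronglyMeasurable]
    unfold lossRate
    congr 1
    refine lintegral_congr fun p => ?_
    simp only [slice, kloss, max_eq_left (h0 _)]
    rw [ENNReal.ofReal_mul (abs_nonneg _)]
  unfold Qcoll Qsigned
  rw [e1]
  unfold Qminus
  rw [ENNReal.toReal_mul, ENNReal.toReal_ofReal (h0 z), e2]

/-- The exponent `a - a s / (2 T)` of the weight. -/
noncomputable def expo (a T s : ℝ) : ℝ := a - a / (2 * T) * s

/-- The weight `exp (expo s |v|)`. -/
noncomputable def weight (a T s : ℝ) (v : V3) : ℝ := exp (expo a T s * ‖v‖)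

lemma weight_pos (a T s : ℝ) (v : V3) : 0 < weight a T s v := exp_pos _

lemma half_le_expo {a T s : ℝ} (ha : 0 < a) (hT : 0 < T) (hs : s ≤ T) :
    a / 2 ≤ expo a T s := by
  have h : a / (2 * T) * s ≤ a / (2 * T) * T := mul_le_mul_of_nonneg_left hs (by positivity)
  have e : a / (2 * T) * T = a / 2 := by field_simp
  unfold expo; linarith

lemma weight_anti {a T t : ℝ} (ha : 0 < a) (hT : 0 < T) (ht : 0 ≤ t) (v : V3) :
    weight a T t v ≤ exp (a * ‖v‖) := by
  refine exp_le_exp.2 (mul_le_mul_of_nonneg_right ?_ (norm_nonneg v))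
  have : 0 ≤ a / (2 * T) * t := by positivity
  unfold expo; linarith

/-- The time integral of the gain of one velocity in the weight is `O(T)`. -/
lemma time_kernel {a T t r n A : ℝ} (ha : 0 < a) (hT : 0 < T) (ht : t ∈ Icc 0 T) (hr : 0 ≤ r)
    (hrn : r ≤ n) (hA : A ≤ n) :
    ∫⁻ s in Ioc 0 t, ENNReal.ofReal (exp (expo a T t * r) * A * exp (-expo a T s * n))
      ≤ ENNReal.ofReal (4 * T / a) := by
  set b := a / (2 * T) with hb
  have hb0 : 0 < b := by positivity
  set D := n - r with hD
  have hD0 : 0 ≤ D := by linarith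
  set e : ℝ → ℝ := fun s => exp (-(b * r) * (t - s)) with he
  have hd : ∀ s, HasDerivAt e (b * r * e s) s := by
    intro s
    have h2 : HasDerivAt (fun s => -(b * r) * (t - s)) (b * r) s := by
      simpa using ((hasDerivAt_id s).const_sub t).const_mul (-(b * r))
    simpa [he, mul_comm] using h2.exp
  have hc : Continuous e := continuous_iff_continuousAt.2 fun s => (hd s).continuousAt
  have hre : ∫ s in (0 : ℝ)..t, r * e s ≤ 1 / b := by
    have hint : ∫ s in (0 : ℝ)..t, b * r * e s = e t - e 0 :=
      intervalIntegral.integral_eq_sub_of_hasDerivAt (fun s _ => hd s)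
        ((continuous_const.mul hc).intervalIntegrable _ _)
    have h1 : ∫ s in (0 : ℝ)..t, r * e s = 1 / b * (e t - e 0) := by
      rw [← hint, ← intervalIntegral.integral_const_mul]
      refine intervalIntegral.integral_congr fun s _ => ?_
      field_simp
    have h2 : e t = 1 := by simp [he]
    rw [h1, h2]
    have h3 : 0 < e 0 := exp_pos _
    calc 1 / b * (1 - e 0) ≤ 1 / b * 1 :=
          mul_le_mul_of_nonneg_left (by linarith) (by positivity)
      _ = 1 / b := mul_one _
  have hpt : ∀ s ∈ Icc 0 t,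
      exp (expo a T t * r) * A * exp (-expo a T s * n) ≤ 2 / a + r * e s := by
    intro s hs
    have hα := half_le_expo ha hT (hs.2.trans ht.2)
    have he1 : e s ≤ 1 := exp_le_one_iff.2 (by nlinarith [mul_nonneg hb0.le hr, hs.2])
    have hsplit : exp (expo a T t * r) * exp (-expo a T s * n)
        = exp (-expo a T s * D) * e s := by
      rw [he, ← exp_add, ← exp_add]
      congr 1
      rw [hD]; unfold expo; rw [← hb]; ring
    have hDe : D * exp (-expo a T s * D) ≤ 2 / a := by
      have h1 : a / 2 * D * exp (-(a / 2 * D)) ≤ 1 := by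
        rw [exp_neg, ← div_eq_mul_inv, div_le_one (exp_pos _)]
        linarith [add_one_le_exp (a / 2 * D)]
      calc D * exp (-expo a T s * D) ≤ D * exp (-(a / 2 * D)) := by
            refine mul_le_mul_of_nonneg_left (exp_le_exp.2 ?_) hD0
            nlinarith
        _ ≤ 2 / a := by rw [le_div_iff₀ ha]; nlinarith
    have hE1 : exp (-expo a T s * D) ≤ 1 := exp_le_one_iff.2 (by nlinarith)
    calc exp (expo a T t * r) * A * exp (-expo a T s * n)
        = A * (exp (expo a T t * r) * exp (-expo a T s * n)) := by ring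
      _ ≤ (D + r) * (exp (-expo a T s * D) * e s) := by
          rw [hsplit]
          exact mul_le_mul_of_nonneg_right (by linarith) (by positivity)
      _ = D * exp (-expo a T s * D) * e s + r * exp (-expo a T s * D) * e s := by ring
      _ ≤ 2 / a * 1 + r * 1 * e s := by
          refine add_le_add (mul_le_mul hDe he1 (exp_pos _).le (by positivity)) ?_
          exact mul_le_mul_of_nonneg_right (mul_le_mul_of_nonneg_left hE1 hr) (exp_pos _).le
      _ = _ := by ring
  have hcont : Continuous fun s => 2 / a + r * e s := by fun_prop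
  calc ∫⁻ s in Ioc 0 t, ENNReal.ofReal (exp (expo a T t * r) * A * exp (-expo a T s * n))
      ≤ ∫⁻ s in Ioc 0 t, ENNReal.ofReal (2 / a + r * e s) :=
        setLIntegral_mono (by fun_prop)
          fun s hs => ENNReal.ofReal_le_ofReal (hpt s (Ioc_subset_Icc_self hs))
    _ = ENNReal.ofReal (∫ s in (0 : ℝ)..t, (2 / a + r * e s)) := by
        rw [intervalIntegral.integral_of_le ht.1, ofReal_integral_eq_lintegral_ofReal
          (hcont.integrableOn_Ioc) (Eventually.of_forall fun s => by
            have : 0 < e s := exp_pos _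
            positivity)]
    _ ≤ _ := by
        refine ENNReal.ofReal_le_ofReal ?_
        rw [intervalIntegral.integral_add intervalIntegrable_const
          ((continuous_const.fun_mul hc).intervalIntegrable _ _), intervalIntegral.integral_const]
        have h1 : 1 / b = 2 * T / a := by rw [hb]; field_simp
        have h2 : (t - 0) • (2 / a) ≤ 2 * T / a := by
          rw [smul_eq_mul, sub_zero, ← mul_div_assoc, div_le_div_iff_of_pos_right ha]
          linarith [ht.2]
        have h3 : 4 * T / a = 2 * T / a + 2 * T / a := by ring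
        rw [h3]
        exact add_le_add h2 (hre.trans_eq h1)

/-- `∫ f(v') h(vₛ')`. -/
noncomputable def pairPost (f h : V3 → ℝ≥0∞) (v : V3) : ℝ≥0∞ :=
  ∫⁻ p, f (postV v p) * h (postW v p) ∂colMeas

/-- `∫ f(vₛ)`. -/
noncomputable def total (f : V3 → ℝ≥0∞) : ℝ≥0∞ := ∫⁻ p : V3 × S2, f p.1 ∂colMeas

/-- The majorant of the gain and loss terms. -/
noncomputable def bilin (f h : V3 → ℝ≥0∞) (v : V3) : ℝ≥0∞ := pairPost f h v + f v * total h

/-- The majorising profiles. -/
noncomputable def profile (κ : ℝ≥0∞) (c : V3 → ℝ≥0∞) : ℕ → V3 → ℝ≥0∞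
  | 0 => fun _ => 0
  | n + 1 => fun v => c v + κ * bilin (profile κ c n) (profile κ c n) v

/-- The limit profile. -/
noncomputable def limProfile (κ : ℝ≥0∞) (c : V3 → ℝ≥0∞) (v : V3) : ℝ≥0∞ := ⨆ n, profile κ c n v

@[fun_prop]
lemma measurable_pairPost {f h : V3 → ℝ≥0∞} (hf : Measurable f) (hh : Measurable h) :
    Measurable (pairPost f h) :=
  Measurable.lintegral_prod_right' (f := fun q : V3 × V3 × S2 =>
    f (postV q.1 q.2) * h (postW q.1 q.2)) (by fun_prop)

@[fun_prop]
lemma measurable_bilin {f h : V3 → ℝ≥0∞} (hf : Measurable f) (hh : Measurable h) :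
    Measurable (bilin f h) := by unfold bilin; fun_prop

lemma bilin_mono {f f' h h' : V3 → ℝ≥0∞} (hf : f ≤ f') (hh : h ≤ h') (v : V3) :
    bilin f h v ≤ bilin f' h' v := by
  unfold bilin pairPost total
  gcongr with p p
  · exact hf _
  · exact hh _
  · exact hf v
  · exact hh _

lemma bilin_zero_left (h : V3 → ℝ≥0∞) (v : V3) : bilin (fun _ => 0) h v = 0 := by
  simp [bilin, pairPost]

/-- `B(h+e,h+e) = B(h,h) + B(e,h+e) + B(h,e)`. -/
lemma bilin_split {e h : V3 → ℝ≥0∞} (he : Measurable e) (hh : Measurable h) (v : V3) :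
    bilin (fun w => h w + e w) (fun w => h w + e w) v
      = bilin h h v + (bilin e (fun w => h w + e w) v + bilin h e v) := by
  have h1 : pairPost (fun w => h w + e w) (fun w => h w + e w) v
      = pairPost h h v + pairPost h e v + pairPost e (fun w => h w + e w) v := by
    simp only [pairPost]
    rw [← lintegral_add_left (by fun_prop), ← lintegral_add_left (by fun_prop)]
    exact lintegral_congr fun p => by ring
  have h2 : total (fun w => h w + e w) = total h + total e := lintegral_add_left (by fun_prop) _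
  simp only [bilin, h1, h2]; ring

lemma lintegral_bilin {f : V3 → ℝ≥0∞} (hf : Measurable f) :
    ∫⁻ v, bilin f f v = 2 * ((∫⁻ v, f v) * (∫⁻ v, f v) * surface Set.univ) := by
  have htot : total f = (∫⁻ v, f v) * surface Set.univ := by
    rw [total, lintegral_prod _ (by fun_prop)]
    simp only [lintegral_const]
    exact lintegral_mul_const _ hf
  have hP : ∫⁻ v, pairPost f f v = ∫⁻ v, f v * total f := by
    have h := lintegral_collision (f := fun v p => f v * f p.1) (by fun_prop)
    simp only at h
    refine h.trans (lintegral_congr fun v => ?_)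
    exact lintegral_const_mul _ (by fun_prop)
  simp only [bilin]
  rw [lintegral_add_left (measurable_pairPost hf hf), hP, lintegral_mul_const _ hf, htot]
  ring

lemma iSup_mul_iSup_le {f g : ℕ → ℝ≥0∞} (hf : Monotone f) (hg : Monotone g) :
    (⨆ n, f n) * (⨆ n, g n) ≤ ⨆ n, f n * g n := by
  rw [ENNReal.iSup_mul]
  refine iSup_le fun i => ?_
  rw [ENNReal.mul_iSup]
  exact iSup_le fun j => le_iSup_of_le (max i j)
    (mul_le_mul' (hf (le_max_left _ _)) (hg (le_max_right _ _)))

section profiles

variable {κ : ℝ≥0∞} {c : V3 → ℝ≥0∞}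

lemma measurable_profile (hc : Measurable c) : ∀ n, Measurable (profile κ c n)
  | 0 => measurable_const
  | n + 1 => by
    have := measurable_profile hc n
    simp only [profile]; fun_prop

lemma measurable_limProfile (hc : Measurable c) : Measurable (limProfile κ c) :=
  Measurable.iSup (measurable_profile hc)

lemma monotone_profile : Monotone (profile κ c) := by
  refine monotone_nat_of_le_succ fun n => ?_
  induction n with
  | zero => intro v; exact bot_le
  | succ n ih => intro v; exact add_le_add le_rfl (mul_le_mul' le_rfl (bilin_mono ih ih v))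

lemma profile_le_lim (n : ℕ) (v : V3) : profile κ c n v ≤ limProfile κ c v :=
  le_iSup (fun n => profile κ c n v) n

lemma lim_fixed (hc : Measurable c) (v : V3) :
    c v + κ * bilin (limProfile κ c) (limProfile κ c) v ≤ limProfile κ c v := by
  have hmono : ∀ w, Monotone fun n => profile κ c n w := fun w i j hij => monotone_profile hij w
  have hm := fun n => measurable_profile (κ := κ) hc n
  have hB : bilin (limProfile κ c) (limProfile κ c) v
      ≤ ⨆ n, bilin (profile κ c n) (profile κ c n) v := by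
    have hP : pairPost (limProfile κ c) (limProfile κ c) v
        ≤ ⨆ n, pairPost (profile κ c n) (profile κ c n) v := by
      refine le_of_le_of_eq (lintegral_mono fun p => iSup_mul_iSup_le (hmono _) (hmono _))
        (lintegral_iSup (fun n => by have := hm n; fun_prop) fun i j hij p => ?_)
      exact mul_le_mul' (hmono _ hij) (hmono _ hij)
    have hT : total (limProfile κ c) = ⨆ n, total (profile κ c n) :=
      lintegral_iSup (fun n => (hm n).comp measurable_fst) fun i j hij p => hmono _ hij
    have hQ : limProfile κ c v * total (limProfile κ c)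
        ≤ ⨆ n, profile κ c n v * total (profile κ c n) := by
      rw [hT]
      exact iSup_mul_iSup_le (hmono v) fun i j hij => lintegral_mono fun p => hmono _ hij
    calc bilin (limProfile κ c) (limProfile κ c) v
        ≤ (⨆ n, pairPost (profile κ c n) (profile κ c n) v)
          + ⨆ n, profile κ c n v * total (profile κ c n) := add_le_add hP hQ
      _ ≤ _ := by
        refine le_of_eq (ENNReal.iSup_add_iSup_of_monotone ?_ ?_)
        · exact fun i j hij => lintegral_mono fun p => mul_le_mul' (hmono _ hij) (hmono _ hij)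
        · exact fun i j hij => mul_le_mul' (hmono v hij) (lintegral_mono fun p => hmono _ hij)
  refine (add_le_add le_rfl (mul_le_mul' le_rfl hB)).trans ?_
  rw [ENNReal.mul_iSup, ENNReal.add_iSup]
  exact iSup_le fun n => profile_le_lim (n + 1) v

lemma lintegral_lim_le (hc : Measurable c) {M R : ℝ≥0∞} (hM : ∫⁻ v, c v ≤ M)
    (hR : M + κ * (2 * (R * R * surface Set.univ)) ≤ R) :
    ∫⁻ v, limProfile κ c v ≤ R := by
  have hn : ∀ n, ∫⁻ v, profile κ c n v ≤ R := by
    intro n
    induction n with
    | zero => simp [profile]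
    | succ n ih =>
      have := measurable_profile (κ := κ) hc n
      simp only [profile]
      rw [lintegral_add_left hc, lintegral_const_mul _ (by fun_prop), lintegral_bilin this]
      refine le_trans ?_ hR
      gcongr
  have e : ∫⁻ v, limProfile κ c v = ⨆ n, ∫⁻ v, profile κ c n v :=
    lintegral_iSup (measurable_profile hc) fun i j hij v => monotone_profile hij v
  rw [e]
  exact iSup_le hn

end profiles

/-- A profile written along free transport. -/
noncomputable def prof (u : ℝ → Omega → ℝ) (s : ℝ) (y : Omega) : ℝ := u s (shift (-s) y)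

/-- Time cut to `[0,T]`. -/
noncomputable def cut (T t : ℝ) : ℝ := max 0 (min t T)

/-- The collision rate along free transport. -/
noncomputable def rate (u : ℝ → Omega → ℝ) (s : ℝ) (z : Omega) : ℝ :=
  Qsigned (prof u s) (shift s z)

/-- The gain integrand along a characteristic. -/
noncomputable def gainLine (u : ℝ → Omega → ℝ) (z : Omega) (q : ℝ × V3 × S2) : ℝ :=
  kplus (prof u q.1) (shift q.1 z) q.2

/-- The loss integrand along a characteristic. -/
noncomputable def lossLine (u : ℝ → Omega → ℝ) (z : Omega) (q : ℝ × V3 × S2) : ℝ :=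
  prof u q.1 (shift q.1 z) * kloss (prof u q.1) (shift q.1 z) q.2

/-- The Picard map, put equal to zero off the velocity set `S`. -/
noncomputable def step (g0 : Omega → ℝ) (T : ℝ) (S : Set V3) (u : ℝ → Omega → ℝ) (t : ℝ)
    (z : Omega) : ℝ :=
  {z : Omega | z.2 ∈ S}.indicator (fun z => g0 z + ∫ s in (0 : ℝ)..cut T t, rate u s z) z

/-- The Picard iterates. -/
noncomputable def iter (g0 : Omega → ℝ) (T : ℝ) (S : Set V3) : ℕ → ℝ → Omega → ℝ
  | 0 => fun _ _ => 0
  | n + 1 => step g0 T S (iter g0 T S n)

/-- `u - w` is below the profile `e` in the weight on `[0,T]`. -/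
def Within (a T : ℝ) (e : V3 → ℝ≥0∞) (u w : ℝ → Omega → ℝ) : Prop :=
  ∀ s ∈ Icc 0 T, ∀ z : Omega, ENNReal.ofReal (|u s z - w s z| * weight a T s z.2) ≤ e z.2

/-- `u` is below the profile `f` in the weight on `[0,T]`. -/
def Maj (a T : ℝ) (f : V3 → ℝ≥0∞) (u : ℝ → Omega → ℝ) : Prop :=
  Within a T f u fun _ _ => 0

lemma maj_zero (a T : ℝ) (f : V3 → ℝ≥0∞) : Maj a T f (fun _ _ => 0) := fun s _ z => by simp

lemma cut_mem {T : ℝ} (hT : 0 ≤ T) (t : ℝ) : cut T t ∈ Icc 0 T :=
  ⟨le_max_left _ _, max_le hT (min_le_right _ _)⟩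

lemma cut_nonneg (T t : ℝ) : 0 ≤ cut T t := le_max_left _ _

lemma cut_of_mem {T t : ℝ} (ht : t ∈ Icc 0 T) : cut T t = t := by
  simp [cut, min_eq_left ht.2, max_eq_right ht.1]

lemma measurable_prof {u : ℝ → Omega → ℝ} (hu : Measurable (Function.uncurry u)) :
    Measurable (Function.uncurry (prof u)) :=
  hu.comp (measurable_fst.prodMk
    (measurable_shift'.comp ((measurable_fst.neg).prodMk measurable_snd)))

lemma measurable_time {u : ℝ → Omega → ℝ} (hu : Measurable (Function.uncurry u)) (s : ℝ) :
    Measurable (prof u s) :=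
  (measurable_prof hu).comp (measurable_const.prodMk measurable_id)

lemma prof_line (u : ℝ → Omega → ℝ) (s : ℝ) (z : Omega) : prof u s (shift s z) = u s z := by
  rw [prof, shift_shift, add_neg_cancel, shift_zero]

lemma measurable_lines {u : ℝ → Omega → ℝ} (hu : Measurable (Function.uncurry u)) :
    Measurable (fun q : (ℝ × Omega) × V3 × S2 => gainLine u q.1.2 (q.1.1, q.2)) ∧
    Measurable (fun q : (ℝ × Omega) × V3 × S2 => lossLine u q.1.2 (q.1.1, q.2)) := by
  have hs : Measurable (fun q : (ℝ × Omega) × V3 × S2 => shift q.1.1 q.1.2) :=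
    measurable_shift'.comp measurable_fst
  have hx : Measurable (fun q : (ℝ × Omega) × V3 × S2 => ((q.1.1), (shift q.1.1 q.1.2).1)) :=
    (measurable_fst.comp measurable_fst).prodMk (measurable_fst.comp hs)
  have hv : Measurable (fun q : (ℝ × Omega) × V3 × S2 => (q.1.2.2, q.2)) :=
    ((measurable_snd.comp measurable_snd).comp measurable_fst).prodMk measurable_snd
  have hi : Measurable (fun q : (ℝ × Omega) × V3 × S2 => |impact q.1.2.2 q.2|) :=
    (measurable_impact.comp hv).abs
  have hp := measurable_prof hu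
  have hat : ∀ pf : (ℝ × Omega) × V3 × S2 → V3, Measurable pf →
      Measurable fun q => max (prof u q.1.1 ((shift q.1.1 q.1.2).1, pf q)) 0 := fun pf hπ =>
    (hp.comp ((measurable_fst.comp hx).prodMk
      ((measurable_snd.comp hx).prodMk hπ))).max measurable_const
  refine ⟨hi.mul ((hat _ (measurable_postV.comp hv)).mul (hat _ (measurable_postW.comp hv))), ?_⟩
  exact ((hp.comp ((measurable_fst.comp measurable_fst).prodMk hs))).mul
    (hi.mul (hat _ (measurable_fst.comp measurable_snd)))

lemma measurable_rate {u : ℝ → Omega → ℝ} (hu : Measurable (Function.uncurry u)) :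
    Measurable (fun q : ℝ × Omega => rate u q.1 q.2) := by
  obtain ⟨hp, hl⟩ := measurable_lines hu
  have e : (fun q : ℝ × Omega => rate u q.1 q.2) = fun q =>
      (∫ p, gainLine u q.2 (q.1, p) ∂colMeas) - ∫ p, lossLine u q.2 (q.1, p) ∂colMeas := by
    funext q
    simp only [rate, Qsigned, gainLine, lossLine, integral_const_mul]
  rw [e]
  exact (hp.stronglyMeasurable.integral_prod_right' (ν := colMeas)).measurable.sub
    (hl.stronglyMeasurable.integral_prod_right' (ν := colMeas)).measurable

lemma measurable_step {g0 : Omega → ℝ} (hg : Measurable g0) (T : ℝ) {S : Set V3}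
    (hS : MeasurableSet S) {u : ℝ → Omega → ℝ} (hu : Measurable (Function.uncurry u)) :
    Measurable (Function.uncurry (step g0 T S u)) := by
  let F : (ℝ × Omega) × ℝ → ℝ :=
    {w : (ℝ × Omega) × ℝ | 0 < w.2 ∧ w.2 ≤ cut T w.1.1}.indicator fun w => rate u w.2 w.1.2
  have hF : Measurable F := by
    refine Measurable.indicator ((measurable_rate hu).comp
      (measurable_snd.prodMk (measurable_snd.comp measurable_fst))) ?_
    refine MeasurableSet.inter (measurableSet_lt measurable_const measurable_snd)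
      (measurableSet_le measurable_snd ?_)
    exact (measurable_const.max ((measurable_fst.comp measurable_fst).min measurable_const))
  have he : Function.uncurry (step g0 T S u)
      = {w : ℝ × Omega | w.2.2 ∈ S}.indicator fun w => g0 w.2 + ∫ s, F (w, s) := by
    funext w
    show step g0 T S u w.1 w.2 = _
    by_cases hw : w.2.2 ∈ S
    · rw [step, indicator_of_mem (show w.2 ∈ {z : Omega | z.2 ∈ S} from hw),
        indicator_of_mem (show w ∈ {w : ℝ × Omega | w.2.2 ∈ S} from hw),
        intervalIntegral.integral_of_le (cut_nonneg T w.1), ← integral_indicator measurableSet_Ioc]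
      congr 1
    · rw [step, indicator_of_notMem (show w.2 ∉ {z : Omega | z.2 ∈ S} from hw),
        indicator_of_notMem (show w ∉ {w : ℝ × Omega | w.2.2 ∈ S} from hw)]
  rw [he]
  exact ((hg.comp measurable_snd).add
    (hF.stronglyMeasurable.integral_prod_right' (ν := volume)).measurable).indicator
      ((measurable_snd.comp measurable_snd) hS)

/-- Weighted bound of a bilinear integrand over times and collision parameters. -/
lemma line_bound {a T t : ℝ} (ha : 0 < a) (hT : 0 < T) (ht : t ∈ Icc 0 T) {e f h : V3 → ℝ≥0∞}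
    (he : Measurable e) (hf : Measurable f) (hh : Measurable h) {u w : ℝ → Omega → ℝ}
    (hu : Maj a T f u) (hw : Maj a T h w) (hd : Within a T e u w) (z : Omega)
    {π₁ π₂ : V3 × S2 → V3} (h₁ : Measurable π₁) (h₂ : Measurable π₂)
    (hA : ∀ p, |impact z.2 p| ≤ ‖π₁ p‖ + ‖π₂ p‖) (hr : ∀ p, ‖z.2‖ ≤ ‖π₁ p‖ + ‖π₂ p‖)
    {Ku Kw : ℝ × V3 × S2 → ℝ}
    (hK : ∀ s p, |Ku (s, p) - Kw (s, p)| ≤ |impact z.2 p| *
      (|prof u s ((shift s z).1, π₁ p) - prof w s ((shift s z).1, π₁ p)| *
          |prof u s ((shift s z).1, π₂ p)| +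
        |prof w s ((shift s z).1, π₁ p)| *
          |prof u s ((shift s z).1, π₂ p) - prof w s ((shift s z).1, π₂ p)|)) :
    ∫⁻ q, ENNReal.ofReal (weight a T t z.2 * |Ku q - Kw q|) ∂(lineMeas t) ≤
      ENNReal.ofReal (4 * T / a) * ∫⁻ p, e (π₁ p) * f (π₂ p) + h (π₁ p) * e (π₂ p) ∂colMeas := by
  set F : V3 × S2 → ℝ≥0∞ := fun p => e (π₁ p) * f (π₂ p) + h (π₁ p) * e (π₂ p) with hFdef
  set K : ℝ × V3 × S2 → ℝ := fun q => exp (expo a T t * ‖z.2‖) * |impact z.2 q.2| *
    exp (-expo a T q.1 * (‖π₁ q.2‖ + ‖π₂ q.2‖)) with hKdef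
  have hFm : Measurable F := by rw [hFdef]; fun_prop
  have hKm : Measurable K := by
    rw [hKdef]; unfold expo
    fun_prop
  have hae : ∀ᵐ q ∂(lineMeas t), q.1 ∈ Ioc 0 t :=
    Measure.quasiMeasurePreserving_fst.ae (ae_restrict_mem measurableSet_Ioc)
  calc ∫⁻ q, ENNReal.ofReal (weight a T t z.2 * |Ku q - Kw q|) ∂(lineMeas t)
      ≤ ∫⁻ q, ENNReal.ofReal (K q) * F q.2 ∂(lineMeas t) := by
        refine lintegral_mono_ae ?_
        filter_upwards [hae] with q hq
        obtain ⟨s, p⟩ := q
        have hs : s ∈ Icc 0 T := ⟨hq.1.le, hq.2.trans ht.2⟩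
        set x := (shift s z).1
        set A := |prof u s (x, π₁ p) - prof w s (x, π₁ p)| with hAdef
        set B := |prof u s (x, π₂ p)| with hBdef
        set C := |prof w s (x, π₁ p)| with hCdef
        set D := |prof u s (x, π₂ p) - prof w s (x, π₂ p)| with hDdef
        set E₁ := weight a T s (π₁ p)
        set E₂ := weight a T s (π₂ p)
        have hE₁ : 0 < E₁ := exp_pos _
        have hE₂ : 0 < E₂ := exp_pos _
        have b1 : ENNReal.ofReal (A * E₁) ≤ e (π₁ p) := hd s hs (shift (-s) (x, π₁ p))
        have b2 : ENNReal.ofReal (B * E₂) ≤ f (π₂ p) := by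
          have := hu s hs (shift (-s) (x, π₂ p))
          rwa [sub_zero] at this
        have b3 : ENNReal.ofReal (C * E₁) ≤ h (π₁ p) := by
          have := hw s hs (shift (-s) (x, π₁ p))
          rwa [sub_zero] at this
        have b4 : ENNReal.ofReal (D * E₂) ≤ e (π₂ p) := hd s hs (shift (-s) (x, π₂ p))
        have hK0 : 0 ≤ K (s, p) := by positivity
        have key : weight a T t z.2 * |Ku (s, p) - Kw (s, p)|
            ≤ K (s, p) * (A * E₁ * (B * E₂) + C * E₁ * (D * E₂)) := by
          refine (mul_le_mul_of_nonneg_left (hK s p) (exp_pos _).le).trans_eq ?_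
          have hexp : exp (-expo a T s * (‖π₁ p‖ + ‖π₂ p‖)) * (E₁ * E₂) = 1 := by
            simp only [E₁, E₂, weight]
            rw [← exp_add, ← exp_add, ← exp_zero]
            congr 1; ring
          calc weight a T t z.2 * (|impact z.2 p| * (A * B + C * D))
              = weight a T t z.2 * |impact z.2 p| *
                  (exp (-expo a T s * (‖π₁ p‖ + ‖π₂ p‖)) * (E₁ * E₂)) * (A * B + C * D) := by
                rw [hexp]; ring
            _ = _ := by simp only [hKdef, weight]; ring
        refine (ENNReal.ofReal_le_ofReal key).trans ?_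
        rw [ENNReal.ofReal_mul hK0, ENNReal.ofReal_add (by positivity) (by positivity),
          ENNReal.ofReal_mul (show 0 ≤ A * E₁ by positivity),
          ENNReal.ofReal_mul (show 0 ≤ C * E₁ by positivity)]
        exact mul_le_mul' le_rfl (add_le_add (mul_le_mul' b1 b2) (mul_le_mul' b3 b4))
    _ = ∫⁻ p, (∫⁻ s in Ioc 0 t, ENNReal.ofReal (K (s, p))) * F p ∂colMeas := by
        rw [lintegral_prod_symm' _ (by fun_prop)]
        have hKp : ∀ p, Measurable fun s => ENNReal.ofReal (K (s, p)) := fun p =>
          (hKm.comp (measurable_id.prodMk measurable_const)).ennreal_ofReal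
        exact lintegral_congr fun p => lintegral_mul_const (F p) (hKp p)
    _ ≤ ∫⁻ p, ENNReal.ofReal (4 * T / a) * F p ∂colMeas := by
        refine lintegral_mono fun p => mul_le_mul' ?_ le_rfl
        exact time_kernel ha hT ht (norm_nonneg _) (hr p) (hA p)
    _ = _ := lintegral_const_mul _ hFm

lemma abs_max_mul_sub (x y x' y' : ℝ) :
    |max x 0 * max y 0 - max x' 0 * max y' 0| ≤ |x - x'| * |y| + |x'| * |y - y'| := by
  have m : ∀ u : ℝ, |max u 0| ≤ |u| := fun u => by
    rw [abs_of_nonneg (le_max_right _ _)]; exact max_le (le_abs_self u) (abs_nonneg u)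
  have e : max x 0 * max y 0 - max x' 0 * max y' 0
      = (max x 0 - max x' 0) * max y 0 + max x' 0 * (max y 0 - max y' 0) := by ring
  rw [e]
  refine (abs_add_le _ _).trans ?_
  rw [abs_mul, abs_mul]
  exact add_le_add (mul_le_mul (abs_max_sub_max_le_abs _ _ _) (m y) (abs_nonneg _) (abs_nonneg _))
    (mul_le_mul (m x') (abs_max_sub_max_le_abs _ _ _) (abs_nonneg _) (abs_nonneg _))

lemma abs_mul_max_sub (x y x' y' : ℝ) :
    |x * max y 0 - x' * max y' 0| ≤ |x - x'| * |y| + |x'| * |y - y'| := by
  have e : x * max y 0 - x' * max y' 0 = (x - x') * max y 0 + x' * (max y 0 - max y' 0) := by ring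
  rw [e]
  refine (abs_add_le _ _).trans ?_
  rw [abs_mul, abs_mul]
  refine add_le_add (mul_le_mul_of_nonneg_left ?_ (abs_nonneg _))
    (mul_le_mul_of_nonneg_left (abs_max_sub_max_le_abs _ _ _) (abs_nonneg _))
  rw [abs_of_nonneg (le_max_right _ _)]; exact max_le (le_abs_self y) (abs_nonneg y)

lemma abs_impact_post_le (v : V3) (p : V3 × S2) :
    |impact v p| ≤ ‖postV v p‖ + ‖postW v p‖ := by
  rw [← abs_neg, ← impact_post v p]
  refine (abs_real_inner_le_norm _ _).trans ?_
  rw [norm_omega, mul_one]
  exact norm_sub_le _ _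

lemma norm_le_post (v : V3) (p : V3 × S2) : ‖v‖ ≤ ‖postV v p‖ + ‖postW v p‖ := by
  nlinarith [energy_post v p, norm_nonneg (postV v p), norm_nonneg (postW v p), norm_nonneg v,
    sq_nonneg ‖p.1‖]

lemma abs_impact_pre_le (v : V3) (p : V3 × S2) : |impact v p| ≤ ‖v‖ + ‖p.1‖ := by
  refine (abs_real_inner_le_norm _ _).trans ?_
  rw [norm_omega, mul_one]
  exact norm_sub_le _ _

lemma gain_line_bound {a T t : ℝ} (ha : 0 < a) (hT : 0 < T) (ht : t ∈ Icc 0 T)
    {e f h : V3 → ℝ≥0∞} (he : Measurable e) (hf : Measurable f) (hh : Measurable h)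
    {u w : ℝ → Omega → ℝ} (hu : Maj a T f u) (hw : Maj a T h w) (hd : Within a T e u w)
    (z : Omega) :
    ∫⁻ q, ENNReal.ofReal (weight a T t z.2 * |gainLine u z q - gainLine w z q|) ∂(lineMeas t)
      ≤ ENNReal.ofReal (4 * T / a) * (pairPost e f z.2 + pairPost h e z.2) := by
  refine (line_bound ha hT ht he hf hh hu hw hd z (π₁ := postV z.2) (π₂ := postW z.2)
    (by fun_prop) (by fun_prop) (abs_impact_post_le _) (norm_le_post _) fun s p => ?_).trans_eq ?_
  · simp only [gainLine, kplus, shift_snd]
    rw [← mul_sub, abs_mul, abs_abs]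
    exact mul_le_mul_of_nonneg_left (abs_max_mul_sub _ _ _ _) (abs_nonneg _)
  · rw [pairPost, pairPost, ← lintegral_add_left (by fun_prop)]

lemma loss_line_bound {a T t : ℝ} (ha : 0 < a) (hT : 0 < T) (ht : t ∈ Icc 0 T)
    {e f h : V3 → ℝ≥0∞} (he : Measurable e) (hf : Measurable f) (hh : Measurable h)
    {u w : ℝ → Omega → ℝ} (hu : Maj a T f u) (hw : Maj a T h w) (hd : Within a T e u w)
    (z : Omega) :
    ∫⁻ q, ENNReal.ofReal (weight a T t z.2 * |lossLine u z q - lossLine w z q|) ∂(lineMeas t)
      ≤ ENNReal.ofReal (4 * T / a) * (e z.2 * total f + h z.2 * total e) := by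
  refine (line_bound ha hT ht he hf hh hu hw hd z (π₁ := fun _ => z.2) (π₂ := Prod.fst)
    measurable_const measurable_fst (abs_impact_pre_le _)
    (fun p => le_add_of_nonneg_right (norm_nonneg _)) fun s p => ?_).trans_eq ?_
  · simp only [lossLine, kloss, shift_snd]
    have e1 : ∀ v : ℝ → Omega → ℝ, prof v s ((shift s z).1, z.2) = prof v s (shift s z) :=
      fun v => rfl
    rw [e1, e1]
    calc |prof u s (shift s z) * (|impact z.2 p| * max (prof u s ((shift s z).1, p.1)) 0)
          - prof w s (shift s z) * (|impact z.2 p| * max (prof w s ((shift s z).1, p.1)) 0)|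
        = |impact z.2 p| * |prof u s (shift s z) * max (prof u s ((shift s z).1, p.1)) 0
          - prof w s (shift s z) * max (prof w s ((shift s z).1, p.1)) 0| := by
          rw [← abs_abs (impact z.2 p), ← abs_mul, abs_abs]; congr 1; ring
      _ ≤ _ := mul_le_mul_of_nonneg_left (abs_mul_max_sub _ _ _ _) (abs_nonneg _)
  · rw [total, total, lintegral_add_left (by fun_prop), lintegral_const_mul _ (by fun_prop),
      lintegral_const_mul _ (by fun_prop)]

/-- From a weighted bound to integrability. -/
lemma integrable_of_bound {X : Type*} [MeasurableSpace X] {μ : Measure X} {K : X → ℝ} {E : ℝ}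
    (hE : 0 < E) (hK : Measurable K) {B : ℝ≥0∞} (hB : B ≠ ⊤)
    (h : ∫⁻ q, ENNReal.ofReal (E * |K q|) ∂μ ≤ B) : Integrable K μ := by
  refine ⟨hK.aestronglyMeasurable, ?_⟩
  rw [hasFiniteIntegral_iff_norm]
  have e : ∀ q, ENNReal.ofReal (E * |K q|) = ENNReal.ofReal E * ENNReal.ofReal ‖K q‖ := fun q => by
    rw [Real.norm_eq_abs, ENNReal.ofReal_mul hE.le]
  simp only [e] at h
  rw [lintegral_const_mul _ (by fun_prop)] at h
  have hne : ENNReal.ofReal E * ∫⁻ q, ENNReal.ofReal ‖K q‖ ∂μ ≠ ⊤ := ne_top_of_le_ne_top hB h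
  refine lt_top_iff_ne_top.2 fun ht => hne ?_
  rw [ht, ENNReal.mul_top (by simpa using hE)]

/-- The weighted integral of a difference is below the weighted absolute difference. -/
lemma ofReal_abs_integral_sub_le {X : Type*} [MeasurableSpace X] {μ : Measure X} {K L : X → ℝ}
    {E : ℝ} (hE : 0 ≤ E) (hK : Integrable K μ) (hL : Integrable L μ) :
    ENNReal.ofReal (E * |(∫ q, K q ∂μ) - ∫ q, L q ∂μ|)
      ≤ ∫⁻ q, ENNReal.ofReal (E * |K q - L q|) ∂μ := by
  have hi : Integrable (fun q => E * |K q - L q|) μ := (hK.sub hL).abs.const_mul E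
  rw [← integral_sub hK hL, ← ofReal_integral_eq_lintegral_ofReal
    hi (Eventually.of_forall fun q => mul_nonneg hE (abs_nonneg _)),
    integral_const_mul]
  exact ENNReal.ofReal_le_ofReal (mul_le_mul_of_nonneg_left abs_integral_le_integral_abs hE)

lemma integrable_lines {a T t : ℝ} (ha : 0 < a) (hT : 0 < T) (ht : t ∈ Icc 0 T)
    {f : V3 → ℝ≥0∞} (hf : Measurable f) {u : ℝ → Omega → ℝ}
    (hum : Measurable (Function.uncurry u)) (hu : Maj a T f u) (z : Omega)
    (hfin : ENNReal.ofReal (4 * T / a) * bilin f f z.2 ≠ ⊤) :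
    Integrable (gainLine u z) (lineMeas t) ∧ Integrable (lossLine u z) (lineMeas t) := by
  have h0 := maj_zero a T (fun _ => 0)
  have hd : Within a T f u fun _ _ => (0 : ℝ) := hu
  obtain ⟨hp, hl⟩ := measurable_lines hum
  have hsec : Measurable fun q : ℝ × V3 × S2 => ((q.1, z), q.2) := by fun_prop
  have g1 := gain_line_bound ha hT ht hf hf measurable_const hu h0 hd z
  have g2 := loss_line_bound ha hT ht hf hf measurable_const hu h0 hd z
  have e1 : ∀ q, gainLine (fun _ _ => (0 : ℝ)) z q = 0 := fun q => by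
    simp [gainLine, kplus, prof]
  have e2 : ∀ q, lossLine (fun _ _ => (0 : ℝ)) z q = 0 := fun q => by simp [lossLine, prof]
  simp only [e1, e2, sub_zero, zero_mul, add_zero, show pairPost (fun _ => 0) f z.2 = 0 by
    simp [pairPost]] at g1 g2
  have hb : ∀ B, B ≤ bilin f f z.2 → ENNReal.ofReal (4 * T / a) * B ≠ ⊤ := fun B hB =>
    ne_top_of_le_ne_top hfin (mul_le_mul' le_rfl hB)
  have hpz : Measurable (gainLine u z) := by
    simpa only [Function.comp_def, Prod.mk.eta] using hp.comp hsec
  have hlz : Measurable (lossLine u z) := by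
    simpa only [Function.comp_def, Prod.mk.eta] using hl.comp hsec
  exact ⟨integrable_of_bound (weight_pos a T t z.2) hpz (hb _ le_self_add) g1,
    integrable_of_bound (weight_pos a T t z.2) hlz (hb _ le_add_self) g2⟩

lemma integral_rate {u : ℝ → Omega → ℝ} {t : ℝ} (ht : 0 ≤ t) {z : Omega}
    (hp : Integrable (gainLine u z) (lineMeas t)) (hl : Integrable (lossLine u z) (lineMeas t)) :
    IntervalIntegrable (fun s => rate u s z) volume 0 t ∧
    ∫ s in (0 : ℝ)..t, rate u s z
      = (∫ q, gainLine u z q ∂(lineMeas t)) - ∫ q, lossLine u z q ∂(lineMeas t) := by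
  have e : (fun s => rate u s z) = fun s =>
      (∫ p, gainLine u z (s, p) ∂colMeas) - ∫ p, lossLine u z (s, p) ∂colMeas := by
    funext s
    simp only [rate, Qsigned, gainLine, lossLine, integral_const_mul]
  refine ⟨(intervalIntegrable_iff_integrableOn_Ioc_of_le ht).2 ?_, ?_⟩
  · rw [e]; exact hp.integral_prod_left.sub hl.integral_prod_left
  · rw [intervalIntegral.integral_of_le ht, e, integral_sub hp.integral_prod_left
      hl.integral_prod_left, integral_prod _ hp, integral_prod _ hl]

lemma step_of_mem {g0 : Omega → ℝ} {T : ℝ} {S : Set V3} (u : ℝ → Omega → ℝ) {t : ℝ}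
    (ht : t ∈ Icc 0 T) {z : Omega} (hz : z.2 ∈ S) :
    step g0 T S u t z = g0 z + ∫ s in (0 : ℝ)..t, rate u s z := by
  rw [step, indicator_of_mem (show z ∈ {z : Omega | z.2 ∈ S} from hz), cut_of_mem ht]

lemma step_of_notMem {g0 : Omega → ℝ} {T : ℝ} {S : Set V3} (u : ℝ → Omega → ℝ) (t : ℝ)
    {z : Omega} (hz : z.2 ∉ S) : step g0 T S u t z = 0 := by
  rw [step, indicator_of_notMem (show z ∉ {z : Omega | z.2 ∈ S} from hz)]

lemma step_dist {a T t : ℝ} (ha : 0 < a) (hT : 0 < T) (ht : t ∈ Icc 0 T) {g0 : Omega → ℝ}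
    {S : Set V3} {e f h : V3 → ℝ≥0∞} (he : Measurable e) (hf : Measurable f) (hh : Measurable h)
    {u w : ℝ → Omega → ℝ} (hum : Measurable (Function.uncurry u))
    (hwm : Measurable (Function.uncurry w)) (hu : Maj a T f u) (hw : Maj a T h w)
    (hd : Within a T e u w) (z : Omega)
    (hfu : z.2 ∈ S → ENNReal.ofReal (4 * T / a) * bilin f f z.2 ≠ ⊤)
    (hfw : z.2 ∈ S → ENNReal.ofReal (4 * T / a) * bilin h h z.2 ≠ ⊤) :
    ENNReal.ofReal (|step g0 T S u t z - step g0 T S w t z| * weight a T t z.2)
      ≤ ENNReal.ofReal (4 * T / a) * (bilin e f z.2 + bilin h e z.2) := by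
  by_cases hz : z.2 ∈ S
  swap
  · simp [step_of_notMem, hz]
  obtain ⟨up, ul⟩ := integrable_lines ha hT ht hf hum hu z (hfu hz)
  obtain ⟨wp, wl⟩ := integrable_lines ha hT ht hh hwm hw z (hfw hz)
  rw [step_of_mem u ht hz, step_of_mem w ht hz, (integral_rate ht.1 up ul).2,
    (integral_rate ht.1 wp wl).2]
  set E := weight a T t z.2
  have hE : 0 ≤ E := (exp_pos _).le
  generalize hA : (∫ q, gainLine u z q ∂(lineMeas t)) = A
  generalize hB : (∫ q, lossLine u z q ∂(lineMeas t)) = B
  generalize hC : (∫ q, gainLine w z q ∂(lineMeas t)) = C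
  generalize hD : (∫ q, lossLine w z q ∂(lineMeas t)) = D
  have key : |g0 z + (A - B) - (g0 z + (C - D))| * E ≤ E * |A - C| + E * |B - D| := by
    rw [← mul_add, mul_comm E]
    refine mul_le_mul_of_nonneg_right ?_ hE
    rw [show g0 z + (A - B) - (g0 z + (C - D)) = (A - C) - (B - D) by ring]
    exact abs_sub _ _
  refine (ENNReal.ofReal_le_ofReal key).trans ?_
  rw [ENNReal.ofReal_add (by positivity) (by positivity)]
  have g1 := ofReal_abs_integral_sub_le hE up wp
  have g2 := ofReal_abs_integral_sub_le hE ul wl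
  rw [hA, hC] at g1
  rw [hB, hD] at g2
  refine (add_le_add (g1.trans (gain_line_bound ha hT ht he hf hh hu hw hd z))
    (g2.trans (loss_line_bound ha hT ht he hf hh hu hw hd z))).trans_eq ?_
  simp only [bilin]; ring

section iteration

variable {a T : ℝ} {g0 : Omega → ℝ} {c : V3 → ℝ≥0∞}

/-- The velocities where the limit profile is finite. -/
def finiteSet (κ : ℝ≥0∞) (c : V3 → ℝ≥0∞) : Set V3 := {v | limProfile κ c v ≠ ⊤}

lemma bilin_ne_top (ha : 0 < a) (hT : 0 < T) (hc : Measurable c) {f : V3 → ℝ≥0∞}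
    (hf : f ≤ limProfile (ENNReal.ofReal (4 * T / a)) c) {v : V3}
    (hv : v ∈ finiteSet (ENNReal.ofReal (4 * T / a)) c) :
    ENNReal.ofReal (4 * T / a) * bilin f f v ≠ ⊤ := by
  have := ha
  have := hT
  exact ne_top_of_le_ne_top hv
    ((mul_le_mul' le_rfl (bilin_mono hf hf v)).trans (le_add_self.trans (lim_fixed hc v)))

/-- One step keeps a majorised function below the majorant map. -/
lemma step_maj (ha : 0 < a) (hT : 0 < T) (hc : Measurable c)
    (hg : ∀ z, ENNReal.ofReal (|g0 z| * exp (a * ‖z.2‖)) ≤ c z.2) {f : V3 → ℝ≥0∞}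
    (hf : Measurable f) (hle : f ≤ limProfile (ENNReal.ofReal (4 * T / a)) c)
    {u : ℝ → Omega → ℝ} (hum : Measurable (Function.uncurry u)) (hu : Maj a T f u) :
    Maj a T (fun v => c v + ENNReal.ofReal (4 * T / a) * bilin f f v)
      (step g0 T (finiteSet (ENNReal.ofReal (4 * T / a)) c) u) := by
  intro t ht z
  simp only [sub_zero]
  set S := finiteSet (ENNReal.ofReal (4 * T / a)) c
  by_cases hz : z.2 ∈ S
  swap
  · simp [step_of_notMem, hz]
  have h0 := maj_zero a T (fun _ => 0)
  have hz0 : step g0 T S (fun _ _ => (0 : ℝ)) t z = g0 z := by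
    rw [step_of_mem _ ht hz]; simp [rate, prof, Qsigned, kplus]
  have hd := step_dist (g0 := g0) (S := S) ha hT ht hf hf measurable_const hum measurable_const hu
    h0 hu z (bilin_ne_top ha hT hc hle) fun hv => bilin_ne_top ha hT hc (fun _ => bot_le) hv
  rw [hz0, bilin_zero_left, add_zero] at hd
  have hg' : ENNReal.ofReal (|g0 z| * weight a T t z.2) ≤ c z.2 :=
    le_trans (ENNReal.ofReal_le_ofReal
      (mul_le_mul_of_nonneg_left (weight_anti ha hT ht.1 _) (abs_nonneg _))) (hg z)
  refine (ENNReal.ofReal_le_ofReal (?_ : |step g0 T S u t z| * weight a T t z.2 ≤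
    |g0 z| * weight a T t z.2 + |step g0 T S u t z - g0 z| * weight a T t z.2)).trans ?_
  · rw [← add_mul]
    refine mul_le_mul_of_nonneg_right ?_ (exp_pos _).le
    have := abs_add_le (g0 z) (step g0 T S u t z - g0 z)
    rwa [add_sub_cancel] at this
  · rw [ENNReal.ofReal_add (by have := weight_pos a T t z.2; positivity)
      (by have := weight_pos a T t z.2; positivity)]
    exact add_le_add hg' hd

/-- One step maps a gap between majorants to the next gap. -/
lemma step_gap (ha : 0 < a) (hT : 0 < T) (hc : Measurable c)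
    {f h : V3 → ℝ≥0∞} (hf : Measurable f) (hh : Measurable h) (hhf : h ≤ f)
    (hle : f ≤ limProfile (ENNReal.ofReal (4 * T / a)) c)
    {u w : ℝ → Omega → ℝ} (hum : Measurable (Function.uncurry u))
    (hwm : Measurable (Function.uncurry w)) (hu : Maj a T f u) (hw : Maj a T h w)
    (hd : Within a T (fun v => f v - h v) u w) :
    Within a T (fun v => (c v + ENNReal.ofReal (4 * T / a) * bilin f f v)
        - (c v + ENNReal.ofReal (4 * T / a) * bilin h h v))
      (step g0 T (finiteSet (ENNReal.ofReal (4 * T / a)) c) u)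
      (step g0 T (finiteSet (ENNReal.ofReal (4 * T / a)) c) w) := by
  intro t ht z
  by_cases hz : z.2 ∈ finiteSet (ENNReal.ofReal (4 * T / a)) c
  swap
  · simp [step_of_notMem, hz]
  set e : V3 → ℝ≥0∞ := fun v => f v - h v
  have hem : Measurable e := hf.sub hh
  refine (step_dist ha hT ht hem hf hh hum hwm hu hw hd z (bilin_ne_top ha hT hc hle)
    (bilin_ne_top ha hT hc (hhf.trans hle))).trans ?_
  have hfe : (fun v => h v + e v) = f := funext fun v => add_tsub_cancel_of_le (hhf v)
  have hsp := bilin_split hem hh z.2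
  rw [hfe] at hsp
  have hne : c z.2 + ENNReal.ofReal (4 * T / a) * bilin h h z.2 ≠ ⊤ :=
    ne_top_of_le_ne_top hz ((add_le_add le_rfl (mul_le_mul' le_rfl
      (bilin_mono (hhf.trans hle) (hhf.trans hle) z.2))).trans (lim_fixed hc z.2))
  refine ENNReal.le_sub_of_add_le_left hne (le_of_eq ?_)
  rw [hsp]; ring

lemma iter_props (ha : 0 < a) (hT : 0 < T) (hc : Measurable c) (hm : Measurable g0)
    (hg : ∀ z, ENNReal.ofReal (|g0 z| * exp (a * ‖z.2‖)) ≤ c z.2) (n : ℕ) :
    Measurable (Function.uncurry (iter g0 T (finiteSet (ENNReal.ofReal (4 * T / a)) c) n)) ∧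
    Maj a T (profile (ENNReal.ofReal (4 * T / a)) c n)
      (iter g0 T (finiteSet (ENNReal.ofReal (4 * T / a)) c) n) ∧
    Within a T (fun v => profile (ENNReal.ofReal (4 * T / a)) c (n + 1) v
        - profile (ENNReal.ofReal (4 * T / a)) c n v)
      (iter g0 T (finiteSet (ENNReal.ofReal (4 * T / a)) c) (n + 1))
      (iter g0 T (finiteSet (ENNReal.ofReal (4 * T / a)) c) n) := by
  set κ := ENNReal.ofReal (4 * T / a)
  have hS : MeasurableSet (finiteSet κ c) :=
    ((measurable_limProfile hc) (measurableSet_singleton ⊤)).compl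
  induction n with
  | zero =>
    refine ⟨measurable_const, maj_zero _ _ _, fun t ht z => ?_⟩
    have h := step_maj (g0 := g0) ha hT hc hg (f := profile κ c 0) measurable_const
      (profile_le_lim 0) (u := fun _ _ => 0) measurable_const (maj_zero _ _ _) t ht z
    simpa [iter, profile] using h
  | succ n ih =>
    obtain ⟨h1, h2, h3⟩ := ih
    have hm' := measurable_step hm T hS h1
    have hmaj := step_maj (g0 := g0) ha hT hc hg (measurable_profile hc n) (profile_le_lim n) h1 h2
    exact ⟨hm', hmaj, step_gap (g0 := g0) ha hT hc (measurable_profile hc (n + 1))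
      (measurable_profile hc n) (monotone_profile n.le_succ) (profile_le_lim (n + 1)) hm' h1
      hmaj h2 h3⟩

end iteration

lemma iter_cut {g0 : Omega → ℝ} {T : ℝ} (hT : 0 ≤ T) (S : Set V3) (n : ℕ) (t : ℝ) (z : Omega) :
    iter g0 T S n t z = iter g0 T S n (cut T t) z := by
  cases n with
  | zero => rfl
  | succ n => simp only [iter, step, cut_of_mem (cut_mem hT t)]

lemma iter_invariant {g0 : Omega → ℝ} {T : ℝ} {S : Set V3}
    (h : ∀ x y v, g0 (x, v) = g0 (y, v)) :
    ∀ (n : ℕ) (t : ℝ) (x y : T3) (v : V3), iter g0 T S n t (x, v) = iter g0 T S n t (y, v) := by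
  intro n
  induction n with
  | zero => exact fun _ _ _ _ => rfl
  | succ n ih =>
    intro t x y v
    have hr : ∀ s, rate (iter g0 T S n) s (x, v) = rate (iter g0 T S n) s (y, v) := fun s => by
      have hp : ∀ w, prof (iter g0 T S n) s ((shift s (x, v)).1, w)
          = prof (iter g0 T S n) s ((shift s (y, v)).1, w) := fun w => ih s _ _ _
      simp only [rate, Qsigned, kplus, kloss, shift_snd, hp]
      rfl
    simp only [iter, step]
    by_cases hv : v ∈ S
    · rw [indicator_of_mem (show (x, v) ∈ {z : Omega | z.2 ∈ S} from hv),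
        indicator_of_mem (show (y, v) ∈ {z : Omega | z.2 ∈ S} from hv), h x y v]
      congr 1
      exact intervalIntegral.integral_congr fun s _ => hr s
    · rw [indicator_of_notMem (show (x, v) ∉ {z : Omega | z.2 ∈ S} from hv),
        indicator_of_notMem (show (y, v) ∉ {z : Omega | z.2 ∈ S} from hv)]

lemma tail_bound {a T : ℝ} {G : ℕ → V3 → ℝ≥0∞} (hG : Monotone G) {x : ℕ → ℝ → Omega → ℝ}
    (h : ∀ n, Within a T (fun v => G (n + 1) v - G n v) (x (n + 1)) (x n)) (n : ℕ) {s : ℝ}
    (hs : s ∈ Icc 0 T) (z : Omega) :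
    ∀ k, ENNReal.ofReal (|x (n + k) s z - x n s z| * weight a T s z.2) + G n z.2
      ≤ G (n + k) z.2 := by
  intro k
  induction k with
  | zero => simp
  | succ k ih =>
    have hw := (weight_pos a T s z.2).le
    have h1 := h (n + k) s hs z
    calc ENNReal.ofReal (|x (n + (k + 1)) s z - x n s z| * weight a T s z.2) + G n z.2
        ≤ ENNReal.ofReal (|x (n + (k + 1)) s z - x (n + k) s z| * weight a T s z.2)
          + ENNReal.ofReal (|x (n + k) s z - x n s z| * weight a T s z.2) + G n z.2 := by
          refine add_le_add ?_ le_rfl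
          rw [← ENNReal.ofReal_add (by positivity) (by positivity), ← add_mul]
          refine ENNReal.ofReal_le_ofReal (mul_le_mul_of_nonneg_right ?_ hw)
          have := abs_add_le (x (n + (k + 1)) s z - x (n + k) s z) (x (n + k) s z - x n s z)
          rwa [sub_add_sub_cancel] at this
      _ ≤ (G (n + k + 1) z.2 - G (n + k) z.2) + G (n + k) z.2 := by
          rw [add_assoc]; exact add_le_add h1 ih
      _ = G (n + (k + 1)) z.2 := tsub_add_cancel_of_le (hG (n + k).le_succ z.2)

lemma nonneg_of_fixed {a T : ℝ} (ha : 0 < a) (hT : 0 < T) {g0 : Omega → ℝ} {c : V3 → ℝ≥0∞}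
    (hc : Measurable c) {u : ℝ → Omega → ℝ} (hum : Measurable (Function.uncurry u))
    (hu : Maj a T (limProfile (ENNReal.ofReal (4 * T / a)) c) u)
    (hfix : ∀ t ∈ Icc 0 T, ∀ z,
      u t z = step g0 T (finiteSet (ENNReal.ofReal (4 * T / a)) c) u t z)
    (h0 : ∀ z, 0 ≤ g0 z) {t : ℝ} (ht : t ∈ Icc 0 T) (z : Omega) : 0 ≤ u t z := by
  by_cases hz : z.2 ∈ finiteSet (ENNReal.ofReal (4 * T / a)) c
  swap
  · rw [hfix t ht z, step_of_notMem u t hz]
  have hzero : (0 : ℝ) ∈ Icc 0 T := ⟨le_rfl, hT.le⟩
  have hu' : ∀ s ∈ Icc 0 T, u s z = g0 z + ∫ r in (0 : ℝ)..s, rate u r z := fun s hs => by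
    rw [hfix s hs z, step_of_mem u hs hz]
  have hint : ∀ s ∈ Icc 0 T, IntervalIntegrable (fun r => rate u r z) volume 0 s := fun s hs =>
    (integral_rate hs.1 (integrable_lines ha hT hs (measurable_limProfile hc) hum hu z
      (bilin_ne_top ha hT hc le_rfl hz)).1 (integrable_lines ha hT hs (measurable_limProfile hc)
        hum hu z (bilin_ne_top ha hT hc le_rfl hz)).2).1
  have hcont : ContinuousOn (fun s => u s z) (Icc 0 T) := by
    refine ContinuousOn.congr ?_ hu'
    refine continuousOn_const.add ?_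
    have hi := intervalIntegral.continuousOn_primitive_interval
      (IntervalIntegrable.def' (hint T (right_mem_Icc.2 hT.le))
        |>.congr_set_ae uIoc_ae_eq_interval.symm)
    rwa [uIcc_of_le hT.le] at hi
  by_contra hneg
  push Not at hneg
  set S := Icc 0 t ∩ (fun s => u s z) ⁻¹' Ici 0
  have hS : IsClosed S := (hcont.mono (Icc_subset_Icc le_rfl ht.2)).preimage_isClosed_of_isClosed
    isClosed_Icc isClosed_Ici
  have h0S : (0 : ℝ) ∈ S := ⟨⟨le_rfl, ht.1⟩, by
    show 0 ≤ u 0 z
    rw [hu' 0 hzero]; simpa using h0 z⟩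
  have hbdd : BddAbove S := ⟨t, fun s hs => hs.1.2⟩
  have hmem := hS.csSup_mem ⟨0, h0S⟩ hbdd
  set t0 := sSup S
  have hle : t0 ≤ t := hmem.1.2
  have hlt : ∀ s ∈ Ioc t0 t, u s z < 0 := fun s hs => by
    by_contra hn
    push Not at hn
    have hsS : s ∈ S := ⟨⟨hmem.1.1.trans hs.1.le, hs.2⟩, hn⟩
    linarith [le_csSup hbdd hsS, hs.1]
  have ht0 : t0 ∈ Icc 0 T := ⟨hmem.1.1, hle.trans ht.2⟩
  have hpos : 0 ≤ ∫ r in t0..t, rate u r z := by
    rw [intervalIntegral.integral_of_le hle]
    refine setIntegral_nonneg measurableSet_Ioc fun s hs => ?_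
    unfold rate Qsigned
    rw [prof_line]
    have A : 0 ≤ ∫ p, kplus (prof u s) (shift s z) p ∂colMeas :=
      integral_nonneg fun p => kplus_nonneg _ _ p
    have B : 0 ≤ ∫ p, kloss (prof u s) (shift s z) p ∂colMeas :=
      integral_nonneg fun p => kloss_nonneg _ _ p
    nlinarith [mul_nonneg (neg_nonneg.2 (hlt s hs).le) B]
  have hsplit := intervalIntegral.integral_add_adjacent_intervals
    (hint t0 ht0) ((hint t0 ht0).symm.trans (hint t ht))
  have h1 : 0 ≤ u t0 z := hmem.2
  rw [hu' t0 ht0] at h1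
  rw [hu' t ht, ← hsplit] at hneg
  linarith

/-- The Picard limit and its properties. -/
theorem exists_fixed {a T : ℝ} (ha : 0 < a) (hT : 0 < T) {g0 : Omega → ℝ} (hm : Measurable g0)
    {c : V3 → ℝ≥0∞} (hc : Measurable c)
    (hg : ∀ z, ENNReal.ofReal (|g0 z| * exp (a * ‖z.2‖)) ≤ c z.2) :
    ∃ u : ℝ → Omega → ℝ, Measurable (Function.uncurry u) ∧
      Maj a T (limProfile (ENNReal.ofReal (4 * T / a)) c) u ∧
      (∀ t ∈ Icc 0 T, ∀ z,
        u t z = step g0 T (finiteSet (ENNReal.ofReal (4 * T / a)) c) u t z) ∧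
      ((∀ x y v, g0 (x, v) = g0 (y, v)) → ∀ t x y v, u t (x, v) = u t (y, v)) := by
  set κ := ENNReal.ofReal (4 * T / a) with hκ
  set S := finiteSet κ c with hSdef
  set x := iter g0 T S
  set G := profile κ c
  set Ginf := limProfile κ c
  have hp := fun n => iter_props (g0 := g0) ha hT hc hm hg n
  have hmono : ∀ v, Monotone fun n => G n v := fun v i j hij => monotone_profile hij v
  have htail := fun n {s : ℝ} (hs : s ∈ Icc 0 T) z =>
    tail_bound monotone_profile (fun n => (hp n).2.2) n hs z
  have hgap : ∀ z : Omega, z.2 ∈ S → Tendsto (fun n => Ginf z.2 - G n z.2) atTop (𝓝 0) := by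
    intro z hz
    have h : Tendsto (fun n => G n z.2) atTop (𝓝 (Ginf z.2)) := tendsto_atTop_iSup (hmono z.2)
    have := ENNReal.Tendsto.sub (tendsto_const_nhds (x := Ginf z.2)) h (Or.inl hz)
    rwa [tsub_self] at this
  have hzero : ∀ n t (z : Omega), z.2 ∉ S → x n t z = 0 := fun n t z hz => by
    cases n with
    | zero => rfl
    | succ n => exact step_of_notMem _ _ hz
  have hcau : ∀ t z, CauchySeq fun n => x n t z := by
    intro t z
    by_cases hz : z.2 ∈ S
    swap
    · have : (fun n => x n t z) = fun _ => (0 : ℝ) := funext fun n => hzero n t z hz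
      rw [this]; exact cauchySeq_const 0
    have hc' := cut_mem hT.le t
    set w := weight a T (cut T t) z.2
    have hw : 0 < w := exp_pos _
    have hGn : ∀ n, G n z.2 ≠ ⊤ := fun n => ne_top_of_le_ne_top hz (profile_le_lim n z.2)
    have hsum : Summable fun n => (G (n + 1) z.2 - G n z.2).toReal / w := by
      refine Summable.div_const (ENNReal.summable_toReal ?_) w
      refine ne_top_of_le_ne_top hz (ENNReal.tsum_le_of_sum_range_le fun N => ?_)
      have e : ∑ k ∈ Finset.range N, (G (k + 1) z.2 - G k z.2) = G N z.2 := by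
        induction N with
        | zero => simp [G, profile]
        | succ N ih =>
          rw [Finset.sum_range_succ, ih, add_tsub_cancel_of_le (hmono z.2 N.le_succ)]
      rw [e]; exact profile_le_lim N z.2
    refine cauchySeq_of_dist_le_of_summable _ (fun n => ?_) hsum
    rw [Real.dist_eq, le_div_iff₀ hw, abs_sub_comm]
    show |iter g0 T S (n + 1) t z - iter g0 T S n t z| * w ≤ _
    rw [iter_cut hT.le S (n + 1) t z, iter_cut hT.le S n t z]
    exact (ENNReal.ofReal_le_iff_le_toReal
      (ne_top_of_le_ne_top (hGn (n + 1)) tsub_le_self)).1 ((hp n).2.2 _ hc' z)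
  choose u hu using fun t z => cauchySeq_tendsto_of_complete (hcau t z)
  have hum : Measurable (Function.uncurry u) :=
    measurable_of_tendsto_metrizable (fun n => (hp n).1)
      (tendsto_pi_nhds.2 fun w => hu w.1 w.2)
  have herr : ∀ n, ∀ s ∈ Icc 0 T, ∀ z : Omega,
      ENNReal.ofReal (|u s z - x n s z| * weight a T s z.2) + G n z.2 ≤ Ginf z.2 := by
    intro n s hs z
    refine le_of_tendsto (x := atTop) (f := fun k =>
      ENNReal.ofReal (|x (n + k) s z - x n s z| * weight a T s z.2) + G n z.2) ?_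
      (Eventually.of_forall fun k => (htail n hs z k).trans (profile_le_lim _ _))
    refine Tendsto.add (ENNReal.tendsto_ofReal ?_) tendsto_const_nhds
    refine ((((hu s z).comp (tendsto_atTop_mono (fun k => Nat.le_add_left k n) tendsto_id)).sub
      tendsto_const_nhds).abs).mul_const _
  have hmaj : Maj a T Ginf u := fun s hs z => by
    simpa [x, iter, G, profile] using herr 0 s hs z
  refine ⟨u, hum, hmaj, fun t ht z => ?_, fun h t p q v => ?_⟩
  · by_cases hz : z.2 ∈ S
    swap
    · rw [step_of_notMem u t hz]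
      refine tendsto_nhds_unique (hu t z) ?_
      simp only [show ∀ n, x n t z = 0 from fun n => hzero n t z hz]
      exact tendsto_const_nhds
    set y := step g0 T S u t z
    have hb : ∀ n, ENNReal.ofReal (|u t z - y| * weight a T t z.2)
        ≤ (Ginf z.2 - G (n + 1) z.2) + (Ginf z.2 - G (n + 1) z.2) := by
      intro n
      have hw := (weight_pos a T t z.2).le
      have hGn : G (n + 1) z.2 ≠ ⊤ := ne_top_of_le_ne_top hz (profile_le_lim _ z.2)
      have hd : Within a T (fun v => Ginf v - G n v) u (x n) := fun s hs w => by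
        by_cases hw' : w.2 ∈ S
        · exact ENNReal.le_sub_of_add_le_right
            (ne_top_of_le_ne_top hw' (profile_le_lim _ w.2)) (herr n s hs w)
        · have hu0 : u s w = 0 := by
            refine tendsto_nhds_unique (hu s w) ?_
            simp only [show ∀ m, x m s w = 0 from fun m => hzero m s w hw']
            exact tendsto_const_nhds
          simp [hu0, hzero n s w hw']
      have h2 := (step_gap (g0 := g0) ha hT hc (measurable_limProfile hc) (measurable_profile hc n)
        (profile_le_lim n) le_rfl hum (hp n).1 hmaj (hp n).2.1 hd) t ht z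
      have h2' : ENNReal.ofReal (|y - x (n + 1) t z| * weight a T t z.2)
          ≤ Ginf z.2 - G (n + 1) z.2 :=
        h2.trans (tsub_le_tsub_right (lim_fixed hc z.2) _)
      have h1 : ENNReal.ofReal (|u t z - x (n + 1) t z| * weight a T t z.2)
          ≤ Ginf z.2 - G (n + 1) z.2 := ENNReal.le_sub_of_add_le_right hGn (herr (n + 1) t ht z)
      refine le_trans ?_ (add_le_add h1 h2')
      rw [← ENNReal.ofReal_add (by positivity) (by positivity), ← add_mul]
      refine ENNReal.ofReal_le_ofReal (mul_le_mul_of_nonneg_right ?_ hw)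
      rw [abs_sub_comm y]
      exact abs_sub_le _ _ _
    have h0 : ENNReal.ofReal (|u t z - y| * weight a T t z.2) ≤ 0 := by
      refine ge_of_tendsto (x := atTop) ?_ (Eventually.of_forall hb)
      simpa using ((hgap z hz).comp (tendsto_add_atTop_nat 1)).add
        ((hgap z hz).comp (tendsto_add_atTop_nat 1))
    rw [nonpos_iff_eq_zero, ENNReal.ofReal_eq_zero] at h0
    have hw := weight_pos a T t z.2
    have : |u t z - y| = 0 := le_antisymm (by nlinarith [abs_nonneg (u t z - y)]) (abs_nonneg _)
    exact sub_eq_zero.1 (abs_eq_zero.1 this)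
  · refine tendsto_nhds_unique (hu t (p, v)) ?_
    simp only [show ∀ n, x n t (p, v) = x n t (q, v) from
      fun n => iter_invariant h n t p q v]
    exact hu t (q, v)

lemma ae_velocity {P : V3 → Prop} (h : ∀ᵐ v : V3, P v) : ∀ᵐ z : Omega, P z.2 :=
  (Measure.quasiMeasurePreserving_snd (μ := (volume : Measure T3))
    (ν := (volume : Measure V3))).ae h

end Picard

open Picard in
/-- A datum below a velocity profile with an exponential moment has a short-time mild solution
below such a profile. -/
theorem exists_profileMild {a M : ℝ} (ha : 0 < a) :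
    ∃ T > 0, ∀ (g0 : Omega → ℝ) (m : V3 → ℝ), Measurable g0 → HasExpMoment a m →
      (∫ v, m v * exp (a * ‖v‖)) ≤ M → (∀ z, 0 ≤ g0 z ∧ g0 z ≤ m z.2) →
      ∃ m' g, HasExpMoment (a / 2) m' ∧ IsProfileMild T m' g ∧ g 0 =ᵐ[volume] g0 ∧
        ((∀ x y v, g0 (x, v) = g0 (y, v)) → ∀ t x y v, g t (x, v) = g t (y, v)) := by
  set R := 2 * max M 0 + 1 with hR
  have hR0 : 0 < R := by positivity
  set σ := (surface Set.univ).toReal
  have hσ : 0 ≤ σ := ENNReal.toReal_nonneg
  set T := a / (16 * (σ + 1) * R) with hTdef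
  have hT : 0 < T := by positivity
  refine ⟨T, hT, fun g0 m hm hmom hM hb => ?_⟩
  set c : V3 → ℝ≥0∞ := fun v => ENNReal.ofReal (m v * exp (a * ‖v‖)) with hcdef
  have hc : Measurable c := by
    have := hmom.measurable
    rw [hcdef]; fun_prop
  set κ := ENNReal.ofReal (4 * T / a)
  have e2 : ∀ X : ℝ≥0∞, 2 * X = ENNReal.ofReal 2 * X := fun X => by simp
  have hint : ∫⁻ v, limProfile κ c v ≤ ENNReal.ofReal R := by
    refine lintegral_lim_le hc (M := ENNReal.ofReal (max M 0)) ?_ ?_
    · rw [hcdef, ← ofReal_integral_eq_lintegral_ofReal hmom.integrable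
        (Eventually.of_forall fun v => mul_nonneg (hmom.nonneg v) (exp_pos _).le)]
      exact ENNReal.ofReal_le_ofReal (hM.trans (le_max_left _ _))
    · rw [← ENNReal.ofReal_toReal (measure_ne_top surface Set.univ), ← ENNReal.ofReal_mul hR0.le,
        ← ENNReal.ofReal_mul (by positivity), e2,
        ← ENNReal.ofReal_mul (by norm_num), ← ENNReal.ofReal_mul (by positivity),
        ← ENNReal.ofReal_add (le_max_right _ _) (by positivity)]
      refine ENNReal.ofReal_le_ofReal ?_
      have e : 4 * T / a * (2 * (R * R * σ)) = σ / (σ + 1) * (R / 2) := by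
        rw [hTdef]; field_simp; ring
      rw [e]
      have h1 : σ / (σ + 1) * (R / 2) ≤ 1 * (R / 2) :=
        mul_le_mul_of_nonneg_right ((div_le_one (by positivity)).2 (by linarith)) (by positivity)
      linarith [le_max_right M 0]
  have hne : ∫⁻ v, limProfile κ c v ≠ ⊤ := ne_top_of_le_ne_top ENNReal.ofReal_ne_top hint
  have hgood : ∀ᵐ v : V3, v ∈ finiteSet κ c :=
    (ae_lt_top (measurable_limProfile hc) hne).mono fun v hv => hv.ne
  have hg : ∀ z, ENNReal.ofReal (|g0 z| * exp (a * ‖z.2‖)) ≤ c z.2 := fun z => by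
    rw [abs_of_nonneg (hb z).1]
    exact ENNReal.ofReal_le_ofReal (mul_le_mul_of_nonneg_right (hb z).2 (exp_pos _).le)
  obtain ⟨u, hum, hmaj, hfix, hinv⟩ := exists_fixed ha hT hm hc hg
  have hpos := fun {t} (ht : t ∈ Icc 0 T) z =>
    nonneg_of_fixed ha hT hc hum hmaj hfix (fun y => (hb y).1) ht z
  refine ⟨fun v => (limProfile κ c v).toReal * exp (-(a / 2) * ‖v‖), prof u,
    ⟨?_, fun v => mul_nonneg ENNReal.toReal_nonneg (exp_pos _).le, ?_⟩,
    ⟨measurable_prof hum, ?_, ?_⟩, ?_, fun h t x y v => hinv h t _ _ _⟩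
  · exact (measurable_limProfile hc).ennreal_toReal.mul (by fun_prop)
  · refine (integrable_toReal_of_lintegral_ne_top (measurable_limProfile hc).aemeasurable hne).congr
      (Eventually.of_forall fun v => ?_)
    beta_reduce
    rw [mul_assoc, ← exp_add]; simp
  · intro t ht z
    refine ⟨hpos ht _, ?_⟩
    show u t (shift (-t) z) ≤ _
    have hz2 : (shift (-t) z).2 = z.2 := rfl
    by_cases hz : z.2 ∈ finiteSet κ c
    · have h := hmaj t ht (shift (-t) z)
      rw [sub_zero, hz2, ENNReal.ofReal_le_iff_le_toReal hz] at h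
      have he : u t (shift (-t) z) * exp (a / 2 * ‖z.2‖) ≤ (limProfile κ c z.2).toReal := by
        refine le_trans ?_ h
        refine mul_le_mul (le_abs_self _) (exp_le_exp.2 ?_) (exp_pos _).le (abs_nonneg _)
        exact mul_le_mul_of_nonneg_right (half_le_expo ha hT ht.2) (norm_nonneg _)
      show _ ≤ (limProfile κ c z.2).toReal * exp (-(a / 2) * ‖z.2‖)
      rw [neg_mul, exp_neg, ← div_eq_mul_inv, le_div_iff₀ (exp_pos _)]
      exact he
    · rw [hfix t ht, step_of_notMem u t (by rwa [hz2])]
      positivity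
  · filter_upwards [ae_velocity hgood] with z hz t ht
    have h0 : (0 : ℝ) ∈ Icc 0 T := ⟨le_rfl, hT.le⟩
    have e0 : prof u 0 z = g0 z := by
      show u 0 (shift (-0) z) = g0 z
      rw [neg_zero, shift_zero, hfix 0 h0, step_of_mem u h0 hz]; simp
    rw [e0, prof_line, hfix t ht, step_of_mem u ht hz]
    congr 1
    refine intervalIntegral.integral_congr fun s hs => ?_
    rw [uIcc_of_le ht.1] at hs
    exact (Qcoll_eq_Qsigned (measurable_time hum s)
      (fun y => hpos ⟨hs.1, hs.2.trans ht.2⟩ _) _).symm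
  · filter_upwards [ae_velocity hgood] with z hz
    have h0 : (0 : ℝ) ∈ Icc 0 T := ⟨le_rfl, hT.le⟩
    show u 0 (shift (-0) z) = g0 z
    rw [neg_zero, shift_zero, hfix 0 h0, step_of_mem u h0 hz]; simp

end Vale.Agent.P140.Renorm
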