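import Mathlib

/-!
# The truncated series of `cosh √s - 1`

`evenSum N s = ∑_{1 ≤ k ≤ N} s ^ k / (2 k)!` is superadditive and, up to a product of two
shorter sums, additive on `s ≥ 0`.
-/

open Finset Real Filter
open scoped Nat Topology

namespace Vale.Agent.P140.Renorm.Hom

/-- `∑_{k=1}^{N} s ^ k / (2 k)!`. -/
noncomputable def evenSum (N : ℕ) (s : ℝ) : ℝ :=
  ∑ k ∈ range N, s ^ (k + 1) / ((2 * (k + 1))! : ℕ)

/-- The derivative of `r ↦ evenSum N ((r x) ^ 2)`. -/
noncomputable def evenDeriv (N : ℕ) (r x : ℝ) : ℝ :=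
  ∑ k ∈ range N, r ^ (2 * k + 1) * x ^ (2 * (k + 1)) / ((2 * k + 1)! : ℕ)

lemma evenSum_nonneg (N : ℕ) {s : ℝ} (hs : 0 ≤ s) : 0 ≤ evenSum N s :=
  sum_nonneg fun k _ => by positivity

lemma evenSum_mono (N : ℕ) {s t : ℝ} (hs : 0 ≤ s) (hst : s ≤ t) : evenSum N s ≤ evenSum N t :=
  sum_le_sum fun k _ => by gcongr

lemma evenSum_superadd (N : ℕ) {A B : ℝ} (hA : 0 ≤ A) (hB : 0 ≤ B) :
    evenSum N A + evenSum N B ≤ evenSum N (A + B) := by
  rw [evenSum, evenSum, ← sum_add_distrib]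
  refine sum_le_sum fun k _ => ?_
  rw [← add_div]
  gcongr
  exact pow_add_pow_le hA hB k.succ_ne_zero

lemma choose_le_choose_two_mul (k j : ℕ) : k.choose j ≤ (2 * k).choose (2 * j) := by
  have h1 : k.choose j ≤ k.choose j * k.choose j := Nat.le_mul_self _
  refine h1.trans ?_
  rw [two_mul, two_mul, Nat.add_choose_eq]
  exact single_le_sum (f := fun ij : ℕ × ℕ => k.choose ij.1 * k.choose ij.2)
    (fun _ _ => Nat.zero_le _) (a := (j, j)) (by simp)

lemma choose_div_factorial_le {k j : ℕ} (hj : j ≤ k) :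
    (k.choose j : ℝ) / ((2 * k)! : ℕ) ≤ 1 / (((2 * j)! : ℕ) * ((2 * (k - j))! : ℕ)) := by
  rw [div_le_div_iff₀ (by positivity) (by positivity), one_mul]
  have h := Nat.choose_mul_factorial_mul_factorial (by omega : 2 * j ≤ 2 * k)
  rw [show 2 * k - 2 * j = 2 * (k - j) by omega] at h
  have h2 : k.choose j * ((2 * j)! * (2 * (k - j))!) ≤ (2 * k)! := by
    calc _ ≤ (2 * k).choose (2 * j) * ((2 * j)! * (2 * (k - j))!) :=
          Nat.mul_le_mul_right _ (choose_le_choose_two_mul k j)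
      _ = (2 * k)! := by rw [← mul_assoc]; exact h
  exact_mod_cast h2

lemma evenSum_add_le (N : ℕ) {A B : ℝ} (hA : 0 ≤ A) (hB : 0 ≤ B) :
    evenSum (N + 1) (A + B) ≤
      evenSum (N + 1) A + evenSum (N + 1) B + evenSum N A * evenSum N B := by
  set e : ℝ → ℕ → ℝ := fun s j => s ^ (j + 1) / ((2 * (j + 1))! : ℕ) with he
  have hterm : ∀ i : ℕ, (A + B) ^ (i + 1) / ((2 * (i + 1))! : ℕ) ≤
      e A i + e B i + ∑ j ∈ range i, e A j * e B (i - 1 - j) := by
    intro i
    rw [add_pow, sum_range_succ, sum_range_succ', Nat.choose_self, Nat.choose_zero_right]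
    simp only [Nat.sub_self, pow_zero, mul_one, Nat.cast_one, one_mul, Nat.sub_zero, add_div,
      sum_div]
    have hmid : ∀ j ∈ range i, A ^ (j + 1) * B ^ (i + 1 - (j + 1)) * ((i + 1).choose (j + 1) : ℝ) /
        ((2 * (i + 1))! : ℕ) ≤ e A j * e B (i - 1 - j) := by
      intro j hj
      rw [mem_range] at hj
      have h := choose_div_factorial_le (k := i + 1) (j := j + 1) (by omega)
      rw [show i + 1 - (j + 1) = i - 1 - j + 1 by omega] at h ⊢
      rw [mul_div_assoc]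
      refine (mul_le_mul_of_nonneg_left h (by positivity)).trans_eq ?_
      simp only [he]; field_simp
    have := sum_le_sum hmid
    simp only [he] at this ⊢
    linarith
  refine (sum_le_sum fun i _ => hterm i).trans ?_
  rw [sum_add_distrib, sum_add_distrib]
  refine add_le_add le_rfl ?_
  rw [sum_range_succ']
  simp only [range_zero, sum_empty, add_zero, Nat.add_sub_cancel]
  rw [sum_range_diag_flip N fun j l => e A j * e B l, evenSum, evenSum, sum_mul_sum]
  refine sum_le_sum fun j hj => sum_le_sum_of_subset_of_nonneg ?_ fun l _ _ => by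
    simp only [he]; positivity
  intro l hl
  simp only [mem_range] at hl ⊢
  omega

lemma evenSum_scale (N : ℕ) {θ s : ℝ} (hθ0 : 0 ≤ θ) (hθ : θ ≤ 1) (hs : 0 ≤ s) :
    evenSum N (θ * s) ≤ θ * evenSum N s := by
  rw [evenSum, evenSum, mul_sum]
  refine sum_le_sum fun k _ => ?_
  rw [mul_pow, mul_div_assoc]
  gcongr
  exact pow_le_of_le_one hθ0 hθ k.succ_ne_zero

lemma evenSum_sq_le_exp (N : ℕ) {y : ℝ} (hy : 0 ≤ y) : evenSum N (y ^ 2) ≤ exp y := by
  refine le_trans ?_ (sum_le_exp_of_nonneg hy (2 * N + 1))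
  induction N with
  | zero => simp [evenSum]
  | succ n ih =>
    rw [evenSum, sum_range_succ, show 2 * (n + 1) + 1 = 2 * n + 1 + 1 + 1 by ring, sum_range_succ,
      sum_range_succ _ (2 * n + 1), ← evenSum]
    have h1 : 0 ≤ y ^ (2 * n + 1) / ((2 * n + 1)! : ℕ) := by positivity
    have h2 : (y ^ 2) ^ (n + 1) / ((2 * (n + 1))! : ℕ) =
        y ^ (2 * n + 1 + 1) / ((2 * n + 1 + 1)! : ℕ) := by
      rw [← pow_mul, show 2 * (n + 1) = 2 * n + 1 + 1 by ring]
    linarith

lemma evenSum_mul_sq_le (N : ℕ) {r x : ℝ} (hx : 0 ≤ x) :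
    evenSum N ((r * x) ^ 2) ≤ evenSum N (r ^ 2) * (1 + x) ^ (2 * N) := by
  rw [evenSum, evenSum, sum_mul]
  refine sum_le_sum fun k hk => ?_
  rw [mem_range] at hk
  rw [mul_pow, mul_pow, div_mul_eq_mul_div]
  gcongr
  rw [← pow_mul]
  exact (pow_le_pow_left₀ hx (by linarith) _).trans
    (pow_le_pow_right₀ (by linarith) (by omega))

lemma evenDeriv_nonneg (N : ℕ) {r x : ℝ} (hr : 0 ≤ r) : 0 ≤ evenDeriv N r x :=
  sum_nonneg fun k _ => div_nonneg (mul_nonneg (pow_nonneg hr _)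
    ((even_two_mul _).pow_nonneg x)) (by positivity)

lemma evenDeriv_le (N : ℕ) {r R x : ℝ} (hr : 0 ≤ r) (hrR : r ≤ R) (hx : 0 ≤ x) :
    evenDeriv N r x ≤ evenDeriv N R 1 * (1 + x) ^ (2 * N) := by
  rw [evenDeriv, evenDeriv, sum_mul]
  refine sum_le_sum fun k hk => ?_
  rw [mem_range] at hk
  rw [one_pow, mul_one, div_mul_eq_mul_div]
  refine div_le_div_of_nonneg_right ?_ (by positivity)
  exact mul_le_mul (pow_le_pow_left₀ hr hrR _)
    ((pow_le_pow_left₀ hx (by linarith) _).trans (pow_le_pow_right₀ (by linarith) (by omega)))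
    (by positivity) (pow_nonneg (hr.trans hrR) _)

lemma hasDerivAt_evenSum (N : ℕ) (r x : ℝ) :
    HasDerivAt (fun u => evenSum N ((u * x) ^ 2)) (evenDeriv N r x) r := by
  refine HasDerivAt.fun_sum fun k _ => ?_
  have h := ((hasDerivAt_pow (2 * (k + 1)) r).mul_const (x ^ (2 * (k + 1)))).div_const
    (((2 * (k + 1))! : ℕ) : ℝ)
  refine (h.congr_of_eventuallyEq (Eventually.of_forall fun u => ?_)).congr_deriv ?_
  · rw [← pow_mul, mul_pow]
  · rw [show 2 * (k + 1) = 2 * k + 1 + 1 by ring, Nat.factorial_succ (2 * k + 1),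
      Nat.add_sub_cancel]
    push_cast
    field_simp

lemma contDiff_evenSum (N : ℕ) (c₀ c x : ℝ) :
    ContDiff ℝ 1 (fun s => evenSum N (((c₀ - c * s) * x) ^ 2)) := by
  unfold evenSum; fun_prop

/-- Each even term is at most three times the sum of the neighbouring odd terms. -/
lemma mul_evenSum_le (N : ℕ) {r x : ℝ} (hr : 0 ≤ r) (hx : 0 ≤ x) :
    x * evenSum N ((r * x) ^ 2) ≤ 3 * evenDeriv (N + 1) r x := by
  set o : ℕ → ℝ := fun k => r ^ (2 * k + 1) * x ^ (2 * (k + 1)) / ((2 * k + 1)! : ℕ) with ho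
  have ho0 : ∀ k, 0 ≤ o k := fun k => by simp only [ho]; positivity
  have hterm : ∀ k, x * (((r * x) ^ 2) ^ (k + 1) / ((2 * (k + 1))! : ℕ)) ≤ o k + 2 * o (k + 1) := by
    intro k
    have hne : ((2 * k + 1)! : ℕ) ≠ 0 := Nat.factorial_ne_zero _
    set y := r * x with hy
    have hy0 : 0 ≤ y := by positivity
    set n : ℝ := (2 * k + 2 : ℝ) with hn
    have e0 : o k = x * y ^ (2 * k + 1) / ((2 * k + 1)! : ℕ) := by
      simp only [ho, hy, mul_pow]; rw [show 2 * (k + 1) = 2 * k + 1 + 1 by ring, pow_succ x]; ring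
    have e1 : o (k + 1) = x * y ^ (2 * k + 3) / (((2 * k + 1)! : ℕ) * n * (n + 1)) := by
      simp only [ho, hy, mul_pow, hn]
      rw [show 2 * (k + 1) + 1 = 2 * k + 1 + 1 + 1 by ring, Nat.factorial_succ,
        Nat.factorial_succ, show 2 * (k + 1 + 1) = 2 * k + 1 + 1 + 1 + 1 by ring, pow_succ x]
      push_cast
      rw [show 2 * k + 3 = 2 * k + 1 + 1 + 1 by ring]
      field_simp; ring
    have e2 : x * ((y ^ 2) ^ (k + 1) / ((2 * (k + 1))! : ℕ)) =
        x * y ^ (2 * k + 2) / (((2 * k + 1)! : ℕ) * n) := by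
      rw [show 2 * (k + 1) = 2 * k + 1 + 1 by ring, Nat.factorial_succ, ← pow_mul,
        show 2 * (k + 1) = 2 * k + 2 by ring, hn]
      push_cast
      field_simp; ring
    rw [e2, e0, e1]
    have hn0 : 0 < n := by positivity
    have hn2 : 2 ≤ n := by rw [hn]; linarith [(Nat.cast_nonneg k : (0 : ℝ) ≤ k)]
    set q : ℝ := x * y ^ (2 * k + 1) / (((2 * k + 1)! : ℕ) : ℝ) with hq
    have hq0 : 0 ≤ q := by positivity
    rw [show x * y ^ (2 * k + 2) / ((((2 * k + 1)! : ℕ) : ℝ) * n) = q * (y / n) by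
        rw [hq, show 2 * k + 2 = 2 * k + 1 + 1 by ring, pow_succ]; field_simp,
      show x * y ^ (2 * k + 3) / ((((2 * k + 1)! : ℕ) : ℝ) * n * (n + 1)) =
        q * (y ^ 2 / (n * (n + 1))) by
        rw [hq, show 2 * k + 3 = 2 * k + 1 + 2 by ring, pow_add]; field_simp,
      show q + 2 * (q * (y ^ 2 / (n * (n + 1)))) = q * (1 + 2 * (y ^ 2 / (n * (n + 1)))) by ring]
    gcongr
    rw [show 1 + 2 * (y ^ 2 / (n * (n + 1))) = (n * (n + 1) + 2 * y ^ 2) / (n * (n + 1)) by
      field_simp, div_le_div_iff₀ hn0 (by positivity)]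
    rcases le_total y n with h | h
    · nlinarith [mul_le_mul_of_nonneg_right h (by positivity : (0:ℝ) ≤ n * (n + 1))]
    · nlinarith [mul_nonneg (by linarith : (0:ℝ) ≤ 2 * y - (n + 1))
        (by positivity : (0:ℝ) ≤ n * y), (by positivity : (0:ℝ) ≤ n * (n + 1) * n)]
  rw [evenSum, mul_sum]
  refine (sum_le_sum fun k _ => hterm k).trans ?_
  rw [sum_add_distrib, ← mul_sum, evenDeriv]
  have h1 : ∑ k ∈ range N, o k ≤ ∑ k ∈ range (N + 1), o k := by
    rw [sum_range_succ]; linarith [ho0 N]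
  have h2 : ∑ k ∈ range N, o (k + 1) ≤ ∑ k ∈ range (N + 1), o k := by
    rw [sum_range_succ']; linarith [ho0 0]
  linarith

lemma tendsto_evenSum (y : ℝ) :
    Tendsto (fun N => 1 + evenSum N (y ^ 2)) atTop (𝓝 (cosh y)) := by
  have h := ((Real.hasSum_cosh y).tendsto_sum_nat).comp (tendsto_add_atTop_nat 1)
  refine h.congr fun N => ?_
  simp only [Function.comp_apply, sum_range_succ', evenSum, ← pow_mul]
  simp [add_comm]

lemma monotone_evenSum {s : ℝ} (hs : 0 ≤ s) : Monotone (fun N => evenSum N s) :=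
  monotone_nat_of_le_succ fun N => by
    rw [evenSum, evenSum, sum_range_succ]
    linarith [show 0 ≤ s ^ (N + 1) / ((2 * (N + 1))! : ℕ) by positivity]

lemma exp_le_two_cosh (y : ℝ) : exp y ≤ 2 * cosh y := by
  rw [cosh_eq]; linarith [exp_pos (-y)]

end Vale.Agent.P140.Renorm.Hom
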