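import Vale.Agent.P140.Renorm.Moments
import Vale.Agent.P140.Renorm.HomSeries

/-!
# Propagation of exponential moments for x-independent mild solutions

With the weight `evenSum N ((α t |v|) ^ 2)`, `α` decreasing linearly, the collision term of each
moment is absorbed by the time derivative of the weight, by induction on `N`.
-/

open MeasureTheory Real Set Filter
open scoped RealInnerProductSpace ENNReal Topology

namespace Vale.Agent.P140.Renorm.Hom

open Vale.Agent.P140

lemma measurable_evenSum (N : ℕ) (α : ℝ) :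
    Measurable fun v : V3 => evenSum N ((α * ‖v‖) ^ 2) := by
  unfold evenSum; fun_prop

lemma measurable_evenDeriv (N : ℕ) (α : ℝ) : Measurable fun v : V3 => evenDeriv N α ‖v‖ := by
  unfold evenDeriv; fun_prop

/-- `Q(u,u)` of a velocity profile. -/
noncomputable def qv (u : V3 → ℝ) (v : V3) : ℝ := Qcoll (fun z => u z.2) ((0 : T3), v)

/-- A mild solution which does not depend on the space variable. -/
structure IsHomMild (T : ℝ) (m : V3 → ℝ) (G : ℝ → V3 → ℝ) : Prop where
  measurable : Measurable (Function.uncurry G)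
  bounds : ∀ t ∈ Icc 0 T, ∀ v, 0 ≤ G t v ∧ G t v ≤ m v
  mild : ∀ᵐ v : V3, ∀ t ∈ Icc 0 T, G t v = G 0 v + ∫ s in (0 : ℝ)..t, qv (G s) v

lemma qv_eq (u : V3 → ℝ) (v : V3) :
    qv u v = (gain (profileE u) (profileE u) v).toReal -
      (profileE u v * lossRate (profileE u) v).toReal := rfl

lemma measurable_qv {G : ℝ → V3 → ℝ} (hG : Measurable (Function.uncurry G)) :
    Measurable (fun w : ℝ × V3 => qv (G w.1) w.2) :=
  (measurable_Qcoll_param (F := fun s (z : Omega) => G s z.2)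
    (hG.comp (measurable_fst.prodMk (measurable_snd.comp measurable_snd)))).comp
    (f := fun w : ℝ × V3 => (w.1, ((0 : T3), w.2))) (by fun_prop)

lemma profileE_mono {u m : V3 → ℝ} (h : ∀ v, u v ≤ m v) : profileE u ≤ profileE m :=
  fun v => ENNReal.ofReal_le_ofReal (h v)

lemma abs_qv_le {u m : V3 → ℝ} (h : ∀ v, u v ≤ m v) {v : V3} (hv : envelope m v ≠ ⊤) :
    |qv u v| ≤ (envelope m v).toReal := by
  have h' := profileE_mono h
  have h1 := ENNReal.toReal_mono hv ((gain_mono h' h' v).trans le_self_add)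
  have h2 := ENNReal.toReal_mono hv
    ((mul_le_mul' (h' v) (lossRate_mono h' v)).trans le_add_self)
  rw [qv_eq, abs_le]
  constructor <;> linarith [ENNReal.toReal_nonneg (a := gain (profileE u) (profileE u) v),
    ENNReal.toReal_nonneg (a := profileE u v * lossRate (profileE u) v)]

lemma intervalIntegrable_qv {G : ℝ → V3 → ℝ} (hG : Measurable (Function.uncurry G)) {m : V3 → ℝ}
    {s t : ℝ} (hst : s ≤ t) (hb : ∀ r ∈ Ioc s t, ∀ v, G r v ≤ m v) {v : V3}
    (hv : envelope m v ≠ ⊤) : IntervalIntegrable (fun r => qv (G r) v) volume s t := by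
  rw [intervalIntegrable_iff_integrableOn_Ioc_of_le hst]
  exact Measure.integrableOn_of_bounded measure_Ioc_lt_top.ne
    ((measurable_qv hG).comp (measurable_id.prodMk measurable_const)).aestronglyMeasurable
    ((ae_restrict_iff' measurableSet_Ioc).2 (Eventually.of_forall fun r hr =>
      abs_qv_le (hb r hr) hv))

lemma one_add_pow_le (k : ℕ) {y x w : ℝ} (hy : 0 ≤ y) (hx : 0 ≤ x) (hw : 0 ≤ w)
    (h : y ≤ x + w) : (1 + y) ^ k ≤ (1 + x) ^ k * (1 + w) ^ k := by
  rw [← mul_pow]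
  exact pow_le_pow_left₀ (by positivity) (by nlinarith [mul_nonneg hx hw]) k

lemma norm_postV_le (v : V3) (p : V3 × S2) : ‖postV v p‖ ≤ ‖v‖ + ‖p.1‖ := by
  nlinarith [energy_post v p, sq_nonneg ‖postW v p‖, norm_nonneg (postV v p), norm_nonneg v,
    norm_nonneg p.1, mul_nonneg (norm_nonneg v) (norm_nonneg p.1)]

variable {a b T : ℝ} {m : V3 → ℝ} {G : ℝ → V3 → ℝ}

lemma lintegral_pow_envelope (hm : HasExpMoment b m) (hb : 0 < b) (k : ℕ) :
    ∫⁻ v, ENNReal.ofReal ((1 + ‖v‖) ^ k) * envelope m v ≠ ⊤ := by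
  have hmeas := hm.measurable
  have hP := measurable_profileE hmeas
  set ψ := fun v : V3 => ENNReal.ofReal ((1 + ‖v‖) ^ k)
  have hψ : Measurable ψ := by simp only [ψ]; fun_prop
  set u := fun v : V3 => ENNReal.ofReal (m v * (1 + ‖v‖) ^ (k + 1))
  have hu : Measurable u := by simp only [u]; fun_prop
  have hfin : ∫⁻ v, u v ≠ ⊤ :=
    ne_top_of_le_ne_top (hm.pow hb (k + 1)).hasFiniteIntegral.ne
      (lintegral_ofReal_le_lintegral_enorm _)
  have hbound : ∀ (y : V3) (v : V3) (p : V3 × S2), ‖y‖ ≤ ‖v‖ + ‖p.1‖ →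
      ψ y * (ENNReal.ofReal |impact v p| * profileE m v * profileE m p.1) ≤ u v * u p.1 := by
    intro y v p hy
    simp only [ψ, u, profileE]
    rw [← ENNReal.ofReal_mul (abs_nonneg _),
      ← ENNReal.ofReal_mul (mul_nonneg (abs_nonneg _) (hm.nonneg v)),
      ← ENNReal.ofReal_mul (by positivity),
      ← ENNReal.ofReal_mul (mul_nonneg (hm.nonneg v) (by positivity))]
    refine ENNReal.ofReal_le_ofReal ?_
    have h2 := one_add_pow_le k (norm_nonneg y) (norm_nonneg v) (norm_nonneg p.1) hy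
    calc (1 + ‖y‖) ^ k * (|impact v p| * m v * m p.1)
        ≤ ((1 + ‖v‖) ^ k * (1 + ‖p.1‖) ^ k) * ((1 + ‖v‖) * (1 + ‖p.1‖) * m v * m p.1) := by
          refine mul_le_mul h2 ?_ (mul_nonneg (mul_nonneg (abs_nonneg _) (hm.nonneg _))
            (hm.nonneg _)) (by positivity)
          exact mul_le_mul_of_nonneg_right
            (mul_le_mul_of_nonneg_right (abs_impact_le v p) (hm.nonneg _)) (hm.nonneg _)
      _ = _ := by ring
  have hprod : ∫⁻ v, ∫⁻ p : V3 × S2, u v * u p.1 ∂((volume : Measure V3).prod surface) ≠ ⊤ := by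
    have e : ∀ v, ∫⁻ p : V3 × S2, u v * u p.1 ∂((volume : Measure V3).prod surface) =
        u v * ((∫⁻ w, u w) * surface univ) := fun v => by
      rw [lintegral_const_mul _ (by fun_prop), lintegral_prod _ (by fun_prop)]
      simp only [lintegral_const]
      rw [lintegral_mul_const' _ _ (measure_ne_top _ _)]
    simp_rw [e]
    rw [lintegral_mul_const _ hu]
    exact ENNReal.mul_ne_top hfin (ENNReal.mul_ne_top hfin (measure_ne_top _ _))
  have h1 : ∫⁻ v, ψ v * gain (profileE m) (profileE m) v ≠ ⊤ := by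
    rw [lintegral_mul_gain hP hP hψ]
    exact ne_top_of_le_ne_top hprod (lintegral_mono fun v => lintegral_mono fun p =>
      hbound _ v p (norm_postV_le v p))
  have h2 : ∫⁻ v, ψ v * (profileE m v * lossRate (profileE m) v) ≠ ⊤ := by
    refine ne_top_of_le_ne_top hprod (lintegral_mono fun v => ?_)
    rw [lossRate, ← lintegral_const_mul _ (by fun_prop), ← lintegral_const_mul _ (by fun_prop)]
    refine lintegral_mono fun p => le_of_eq_of_le ?_
      (hbound v v p (le_add_of_nonneg_right (norm_nonneg _)))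
    ring
  have hm1 : Measurable fun v => ψ v * gain (profileE m) (profileE m) v := by fun_prop
  simp only [envelope, mul_add]
  rw [lintegral_add_left hm1]
  exact ENNReal.add_ne_top.2 ⟨h1, h2⟩

lemma integrable_pow_envelope (hm : HasExpMoment b m) (hb : 0 < b) (k : ℕ) :
    Integrable (fun v => (1 + ‖v‖) ^ k * (envelope m v).toReal) := by
  have hM : Measurable fun v => ENNReal.ofReal ((1 + ‖v‖) ^ k) * envelope m v :=
    (by fun_prop : Measurable fun v : V3 => ENNReal.ofReal ((1 + ‖v‖) ^ k)).mul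
      (measurable_envelope hm.measurable)
  refine (integrable_toReal_of_lintegral_ne_top hM.aemeasurable
    (lintegral_pow_envelope hm hb k)).congr (Eventually.of_forall fun v => ?_)
  simp only [ENNReal.toReal_mul, ENNReal.toReal_ofReal (by positivity : 0 ≤ (1 + ‖v‖) ^ k)]

lemma integrable_weight_mul (hm : HasExpMoment b m) (hb : 0 < b) {u ψ : V3 → ℝ} (hu : Measurable u)
    (hub : ∀ v, 0 ≤ u v ∧ u v ≤ m v) (hψ : Measurable ψ) {C : ℝ} {k : ℕ}
    (hψb : ∀ v, |ψ v| ≤ C * (1 + ‖v‖) ^ k) : Integrable (fun v => ψ v * u v) := by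
  refine ((hm.pow hb k).const_mul C).mono' (hψ.mul hu).aestronglyMeasurable
    (Eventually.of_forall fun v => ?_)
  rw [Real.norm_eq_abs, abs_mul, abs_of_nonneg (hub v).1]
  calc |ψ v| * u v ≤ C * (1 + ‖v‖) ^ k * m v :=
        mul_le_mul (hψb v) (hub v).2 (hub v).1 ((abs_nonneg _).trans (hψb v))
    _ = _ := by ring

/-- The integral of a weight against an x-independent solution does not increase when the
rate is nonpositive. -/
lemma weight_le (h : IsHomMild T m G) (hm : HasExpMoment b m) (hb : 0 < b) {t : ℝ}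
    (ht : t ∈ Icc 0 T) {ψ ψ' : ℝ → V3 → ℝ} (hψ : Measurable (Function.uncurry ψ))
    (hψ' : Measurable (Function.uncurry ψ')) {C : ℝ} {k : ℕ}
    (hd : ∀ v s, HasDerivAt (fun r => ψ r v) (ψ' s v) s)
    (hc : ∀ v, ContDiff ℝ 1 (fun r => ψ r v))
    (hψb : ∀ s ∈ Icc 0 t, ∀ v, |ψ s v| ≤ C * (1 + ‖v‖) ^ k)
    (hψb' : ∀ s ∈ Icc 0 t, ∀ v, |ψ' s v| ≤ C * (1 + ‖v‖) ^ k)
    (hneg : ∀ s ∈ Ioc 0 t, ∫ v, (ψ' s v * G s v + ψ s v * qv (G s) v) ≤ 0) :
    ∫ v, ψ t v * G t v ≤ ∫ v, ψ 0 v * G 0 v := by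
  have hGm : ∀ s, Measurable (G s) := fun s => h.measurable.comp measurable_prodMk_left
  have hψm : ∀ s, Measurable (ψ s) := fun s => hψ.comp measurable_prodMk_left
  have hsT : ∀ s ∈ Icc 0 t, s ∈ Icc 0 T := fun s hs => ⟨hs.1, hs.2.trans ht.2⟩
  set r : ℝ → V3 → ℝ := fun s v => ψ' s v * G s v + ψ s v * qv (G s) v with hr
  have hrm : Measurable (Function.uncurry r) := (hψ'.mul h.measurable).add (hψ.mul (measurable_qv h.measurable))
  set E : V3 → ℝ := fun v => C * ((1 + ‖v‖) ^ k * m v + (1 + ‖v‖) ^ k * (envelope m v).toReal)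
    with hE
  have hEi : Integrable E := by
    refine (Integrable.add ?_ (integrable_pow_envelope hm hb k)).const_mul C
    simpa [mul_comm] using hm.pow hb k
  have hfin := ae_envelope_lt_top hm hb
  have hrb : ∀ᵐ v : V3, ∀ s ∈ Icc 0 t, |r s v| ≤ E v := by
    filter_upwards [hfin] with v hv s hs
    have hG := h.bounds s (hsT s hs)
    have hC : 0 ≤ C * (1 + ‖v‖) ^ k := (abs_nonneg _).trans (hψb s hs v)
    refine (abs_add_le _ _).trans ?_
    rw [abs_mul, abs_mul, abs_of_nonneg (hG v).1]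
    calc _ ≤ C * (1 + ‖v‖) ^ k * m v + C * (1 + ‖v‖) ^ k * (envelope m v).toReal :=
          add_le_add (mul_le_mul (hψb' s hs v) (hG v).2 (hG v).1 hC)
            (mul_le_mul (hψb s hs v) (abs_qv_le (fun w => (hG w).2) hv) (abs_nonneg _) hC)
      _ = E v := by simp only [hE]; ring
  have hline : ∀ᵐ v : V3, ψ t v * G t v = ψ 0 v * G 0 v + ∫ s in (0 : ℝ)..t, r s v := by
    filter_upwards [h.mild, hfin] with v hv hfv
    have hqi := intervalIntegrable_qv (v := v) h.measurable ht.1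
      (fun s hs w => (h.bounds s (hsT s ⟨hs.1.le, hs.2⟩) w).2) hfv
    set P : ℝ → ℝ := fun s => G 0 v + ∫ w in (0 : ℝ)..s, qv (G w) v with hP
    have hPG : ∀ s ∈ Icc 0 t, G s v = P s := fun s hs => hv s (hsT s hs)
    have hPac : AbsolutelyContinuousOnInterval P 0 t :=
      (contDiffOn_const (c := G 0 v)).absolutelyContinuousOnInterval.fun_add
        (hqi.absolutelyContinuousOnInterval_intervalIntegral left_mem_uIcc)
    have key := ((hc v).contDiffOn.absolutelyContinuousOnInterval (a := 0)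
      (b := t)).integral_deriv_mul_eq_sub hPac
    have hcongr : ∫ s in (0 : ℝ)..t, r s v =
        ∫ s in (0 : ℝ)..t, deriv (fun r => ψ r v) s * P s + ψ s v * deriv P s := by
      refine intervalIntegral.integral_congr_ae ?_
      filter_upwards [hqi.ae_hasDerivAt_integral] with s hs hs'
      rw [(hd v s).deriv, ((hs (uIoc_subset_uIcc hs') 0 left_mem_uIcc).const_add (G 0 v)).deriv]
      rw [uIoc_of_le ht.1] at hs'
      simp only [hr]
      rw [hPG s ⟨hs'.1.le, hs'.2⟩]
    rw [hcongr, key, ← hPG t (right_mem_Icc.2 ht.1), ← hPG 0 (left_mem_Icc.2 ht.1)]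
    ring
  have hri : Integrable (Function.uncurry r)
      ((volume.restrict (Ioc 0 t)).prod (volume : Measure V3)) := by
    refine (hEi.comp_snd (volume.restrict (Ioc 0 t))).mono' hrm.aestronglyMeasurable ?_
    have hae : ∀ᵐ w : ℝ × V3 ∂((volume.restrict (Ioc 0 t)).prod volume), w.1 ∈ Ioc 0 t :=
      Measure.quasiMeasurePreserving_fst.ae (ae_restrict_mem measurableSet_Ioc)
    filter_upwards [hae, Measure.quasiMeasurePreserving_snd.ae hrb] with w hw hw2
    exact hw2 w.1 ⟨hw.1.le, hw.2⟩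
  have h0 : Integrable (fun v => ψ 0 v * G 0 v) :=
    integrable_weight_mul hm hb (hGm 0) (h.bounds 0 (hsT 0 (left_mem_Icc.2 ht.1))) (hψm 0)
      (hψb 0 (left_mem_Icc.2 ht.1))
  simp only [intervalIntegral.integral_of_le ht.1] at hline
  have hpr : Integrable (fun v => ∫ s in Ioc 0 t, r s v) := hri.integral_prod_right
  rw [integral_congr_ae hline, integral_add h0 hpr,
    ← integral_integral_swap hri]
  linarith [setIntegral_nonpos measurableSet_Ioc hneg (f := fun s => ∫ v, r s v) (μ := volume)]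

/-- `|S²|`. -/
noncomputable def sphereMass : ℝ := (surface univ).toReal

lemma sphereMass_nonneg : 0 ≤ sphereMass := ENNReal.toReal_nonneg

/-- The gain moment exceeds the loss moment by a product of shorter moments. -/
lemma lintegral_evenSum_gain {u : V3 → ℝ≥0∞} (hu : Measurable u) (N : ℕ) (α : ℝ) :
    ∫⁻ v, ENNReal.ofReal (evenSum (N + 1) ((α * ‖v‖) ^ 2)) * gain u u v ≤
      (∫⁻ v, ENNReal.ofReal (evenSum (N + 1) ((α * ‖v‖) ^ 2)) * (u v * lossRate u v)) +
        surface univ * (∫⁻ v, ENNReal.ofReal (evenSum N ((α * ‖v‖) ^ 2)) * u v) *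
          ∫⁻ v, ENNReal.ofReal (‖v‖ * evenSum N ((α * ‖v‖) ^ 2)) * u v := by
  set ψ : V3 → ℝ≥0∞ := fun v => ENNReal.ofReal (evenSum (N + 1) ((α * ‖v‖) ^ 2)) with hψ
  set e : V3 → ℝ≥0∞ := fun v => ENNReal.ofReal (evenSum N ((α * ‖v‖) ^ 2)) * u v with he
  set f : V3 → ℝ≥0∞ := fun v => ENNReal.ofReal (‖v‖ * evenSum N ((α * ‖v‖) ^ 2)) * u v with hf
  set k : V3 → V3 × S2 → ℝ≥0∞ := fun v p => ENNReal.ofReal |impact v p| * u v * u p.1 with hk
  have hψm : Measurable ψ := by simp only [hψ, evenSum]; fun_prop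
  have hem : Measurable e := by simp only [he, evenSum]; fun_prop
  have hfm : Measurable f := by simp only [hf, evenSum]; fun_prop
  have hA : Measurable (Function.uncurry fun v p => ψ (postV v p) * k v p) := by
    simp only [hk]; fun_prop
  have hB : Measurable (Function.uncurry fun v p => ψ v * k v p) := by simp only [hk]; fun_prop
  have hkswap : ∀ v (p : V3 × S2), k p.1 (v, p.2) = k v p := by
    intro v p; simp only [hk, impact_swap, abs_neg]; ring
  have hA2 := lintegral_swap_velocities hA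
  simp only [postV_swap, hkswap] at hA2
  have hB2 := lintegral_swap_velocities hB
  simp only [hkswap] at hB2
  have hL : ∀ v, ψ v * (u v * lossRate u v) =
      ∫⁻ p, ψ v * k v p ∂((volume : Measure V3).prod surface) := by
    intro v
    rw [lossRate, ← lintegral_const_mul _ (by fun_prop), ← lintegral_const_mul _ (by fun_prop)]
    exact lintegral_congr fun p => by simp only [hk]; ring
  have hpt : ∀ v (p : V3 × S2), ψ (postV v p) * k v p + ψ (postW v p) * k v p ≤
      ψ v * k v p + ψ p.1 * k v p + (f v * e p.1 + e v * f p.1) := by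
    intro v p
    have hn : ∀ (M : ℕ) (w : V3), 0 ≤ evenSum M ((α * ‖w‖) ^ 2) :=
      fun M w => evenSum_nonneg M (sq_nonneg _)
    have hadd : evenSum (N + 1) ((α * ‖postV v p‖) ^ 2) + evenSum (N + 1) ((α * ‖postW v p‖) ^ 2) ≤
        evenSum (N + 1) ((α * ‖v‖) ^ 2) + evenSum (N + 1) ((α * ‖p.1‖) ^ 2) +
          evenSum N ((α * ‖v‖) ^ 2) * evenSum N ((α * ‖p.1‖) ^ 2) := by
      refine (evenSum_superadd _ (sq_nonneg _) (sq_nonneg _)).trans ?_
      rw [show (α * ‖postV v p‖) ^ 2 + (α * ‖postW v p‖) ^ 2 =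
        (α * ‖v‖) ^ 2 + (α * ‖p.1‖) ^ 2 by linear_combination α ^ 2 * energy_post v p]
      exact evenSum_add_le N (sq_nonneg _) (sq_nonneg _)
    simp only [hψ]
    rw [← add_mul, ← ENNReal.ofReal_add (hn _ _) (hn _ _)]
    refine (mul_le_mul' (ENNReal.ofReal_le_ofReal hadd) le_rfl).trans ?_
    rw [ENNReal.ofReal_add (add_nonneg (hn _ _) (hn _ _)) (mul_nonneg (hn _ _) (hn _ _)),
      ENNReal.ofReal_add (hn _ _) (hn _ _), ENNReal.ofReal_mul (hn _ _), add_mul, add_mul]
    refine add_le_add le_rfl ?_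
    have himp : ENNReal.ofReal |impact v p| ≤ ENNReal.ofReal ‖v‖ + ENNReal.ofReal ‖p.1‖ := by
      rw [← ENNReal.ofReal_add (norm_nonneg _) (norm_nonneg _)]
      refine ENNReal.ofReal_le_ofReal ?_
      calc |impact v p| ≤ ‖v - p.1‖ * ‖(p.2 : V3)‖ := abs_real_inner_le_norm _ _
        _ ≤ _ := by rw [norm_omega, mul_one]; exact norm_sub_le _ _
    simp only [hk, he, hf, ENNReal.ofReal_mul (norm_nonneg _)]
    refine (mul_le_mul' le_rfl (mul_le_mul' (mul_le_mul' himp le_rfl) le_rfl)).trans_eq ?_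
    ring
  have hint : ∀ (p₁ p₂ : V3 → ℝ≥0∞), Measurable p₁ → Measurable p₂ →
      ∫⁻ v, ∫⁻ p : V3 × S2, p₁ v * p₂ p.1 ∂((volume : Measure V3).prod surface) =
        (∫⁻ v, p₁ v) * ((∫⁻ w, p₂ w) * surface univ) := by
    intro p₁ p₂ h1 h2
    have e' : ∀ v, ∫⁻ p : V3 × S2, p₁ v * p₂ p.1 ∂((volume : Measure V3).prod surface) =
        p₁ v * ((∫⁻ w, p₂ w) * surface univ) := fun v => by
      rw [lintegral_const_mul _ (by fun_prop), lintegral_prod _ (by fun_prop)]
      simp only [lintegral_const]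
      rw [lintegral_mul_const' _ _ (measure_ne_top _ _)]
    simp_rw [e']
    rw [lintegral_mul_const _ h1]
  change ∫⁻ v, ψ v * gain u u v ≤
    (∫⁻ v, ψ v * (u v * lossRate u v)) + surface univ * (∫⁻ v, e v) * ∫⁻ v, f v
  rw [lintegral_mul_gain hu hu hψm]
  simp_rw [hL]
  have hdouble : ∀ x y : ℝ≥0∞, x + x ≤ y + y → x ≤ y := fun x y hxy => by
    rw [← two_mul, ← two_mul] at hxy
    exact (ENNReal.mul_le_mul_iff_right two_ne_zero ENNReal.ofNat_ne_top).1 hxy
  refine hdouble _ _ ?_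
  have hm1 : Measurable fun v => ∫⁻ p, ψ (postV v p) * k v p ∂((volume : Measure V3).prod surface) :=
    Measurable.lintegral_prod_right hA
  calc _ = (∫⁻ v, ∫⁻ p, ψ (postV v p) * k v p ∂((volume : Measure V3).prod surface)) +
        ∫⁻ v, ∫⁻ p, ψ (postW v p) * k v p ∂((volume : Measure V3).prod surface) := by rw [hA2]
    _ = ∫⁻ v, ∫⁻ p, (ψ (postV v p) * k v p + ψ (postW v p) * k v p)
          ∂((volume : Measure V3).prod surface) := by
      rw [← lintegral_add_left hm1]
      exact lintegral_congr fun v => (lintegral_add_left (by simp only [hk]; fun_prop) _).symm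
    _ ≤ ∫⁻ v, ∫⁻ p, (ψ v * k v p + ψ p.1 * k v p + (f v * e p.1 + e v * f p.1))
          ∂((volume : Measure V3).prod surface) :=
      lintegral_mono fun v => lintegral_mono (hpt v)
    _ = (∫⁻ v, ∫⁻ p, ψ v * k v p ∂((volume : Measure V3).prod surface)) +
          (∫⁻ v, ∫⁻ p, ψ p.1 * k v p ∂((volume : Measure V3).prod surface)) +
          ((∫⁻ v, f v) * ((∫⁻ w, e w) * surface univ) +
            (∫⁻ v, e v) * ((∫⁻ w, f w) * surface univ)) := by
      have hC : Measurable (Function.uncurry fun v (p : V3 × S2) => ψ p.1 * k v p) := by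
        simp only [hk]; fun_prop
      have hF : Measurable (Function.uncurry fun v (p : V3 × S2) => f v * e p.1) := by fun_prop
      have e1 : ∀ v, ∫⁻ p, (ψ v * k v p + ψ p.1 * k v p + (f v * e p.1 + e v * f p.1))
            ∂((volume : Measure V3).prod surface) =
          (∫⁻ p, ψ v * k v p ∂((volume : Measure V3).prod surface)) +
            (∫⁻ p, ψ p.1 * k v p ∂((volume : Measure V3).prod surface)) +
          ((∫⁻ p : V3 × S2, f v * e p.1 ∂((volume : Measure V3).prod surface)) +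
            ∫⁻ p : V3 × S2, e v * f p.1 ∂((volume : Measure V3).prod surface)) := by
        intro v
        rw [lintegral_add_left (by simp only [hk]; fun_prop),
          lintegral_add_left (by simp only [hk]; fun_prop), lintegral_add_left (by fun_prop)]
      rw [lintegral_congr e1, lintegral_add_left
          (Measurable.fun_add (Measurable.lintegral_prod_right hB)
            (Measurable.lintegral_prod_right hC)),
        lintegral_add_left (Measurable.lintegral_prod_right hB),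
        lintegral_add_left (Measurable.lintegral_prod_right hF), hint f e hfm hem, hint e f hem hfm]
    _ = _ := by rw [hB2]; ring

/-- The rate of one moment is controlled by shorter moments. -/
lemma integral_evenSum_qv (hm : HasExpMoment b m) (hb : 0 < b) {u : V3 → ℝ} (hu : Measurable u)
    (hub : ∀ v, 0 ≤ u v ∧ u v ≤ m v) (N : ℕ) (α : ℝ) :
    ∫ v, evenSum (N + 1) ((α * ‖v‖) ^ 2) * qv u v ≤
      sphereMass * (∫ v, evenSum N ((α * ‖v‖) ^ 2) * u v) *
        ∫ v, ‖v‖ * evenSum N ((α * ‖v‖) ^ 2) * u v := by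
  set ψ : V3 → ℝ := fun v => evenSum (N + 1) ((α * ‖v‖) ^ 2) with hψ
  set C : ℝ := evenSum (N + 1) (α ^ 2)
  set k : ℕ := 2 * (N + 1)
  have hψ0 : ∀ v, 0 ≤ ψ v := fun v => evenSum_nonneg _ (sq_nonneg _)
  have hψb : ∀ v, ψ v ≤ C * (1 + ‖v‖) ^ k := fun v => evenSum_mul_sq_le _ (norm_nonneg v)
  have hψm : Measurable ψ := by simp only [hψ, evenSum]; fun_prop
  have hC : 0 ≤ C := evenSum_nonneg _ (sq_nonneg _)
  have hU := measurable_profileE hu
  have hle := profileE_mono fun v => (hub v).2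
  set P : V3 → ℝ≥0∞ := gain (profileE u) (profileE u) with hP
  set L : V3 → ℝ≥0∞ := fun v => profileE u v * lossRate (profileE u) v with hL
  have hPe : ∀ v, P v ≤ envelope m v := fun v => (gain_mono hle hle v).trans le_self_add
  have hLe : ∀ v, L v ≤ envelope m v := fun v =>
    (mul_le_mul' (hle v) (lossRate_mono hle v)).trans le_add_self
  have hfin : ∫⁻ v, ENNReal.ofReal (C * (1 + ‖v‖) ^ k) * envelope m v ≠ ⊤ := by
    simp only [ENNReal.ofReal_mul hC, mul_assoc]
    rw [lintegral_const_mul' _ _ ENNReal.ofReal_ne_top]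
    exact ENNReal.mul_ne_top ENNReal.ofReal_ne_top (lintegral_pow_envelope hm hb k)
  have key : ∀ Q : V3 → ℝ≥0∞, Measurable Q → (∀ v, Q v ≤ envelope m v) →
      ∫⁻ v, ENNReal.ofReal (ψ v) * Q v ≠ ⊤ ∧ Integrable (fun v => ψ v * (Q v).toReal) ∧
        ∫ v, ψ v * (Q v).toReal = (∫⁻ v, ENNReal.ofReal (ψ v) * Q v).toReal := by
    intro Q hQ hQe
    have hne : ∫⁻ v, ENNReal.ofReal (ψ v) * Q v ≠ ⊤ := ne_top_of_le_ne_top hfin
      (lintegral_mono fun v => mul_le_mul' (ENNReal.ofReal_le_ofReal (hψb v)) (hQe v))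
    have e : ∀ v, ψ v * (Q v).toReal = (ENNReal.ofReal (ψ v) * Q v).toReal := fun v => by
      rw [ENNReal.toReal_mul, ENNReal.toReal_ofReal (hψ0 v)]
    refine ⟨hne, ?_, ?_⟩ <;> simp only [e]
    · exact integrable_toReal_of_lintegral_ne_top (hψm.ennreal_ofReal.mul hQ).aemeasurable hne
    · exact integral_toReal (hψm.ennreal_ofReal.mul hQ).aemeasurable
        (ae_lt_top (hψm.ennreal_ofReal.mul hQ) hne)
  obtain ⟨hPn, hPi, hPv⟩ := key P (measurable_gain hU hU) hPe
  obtain ⟨hLn, hLi, hLv⟩ := key L (hU.mul (measurable_lossRate hU)) hLe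
  have hw : ∀ (w : V3 → ℝ) (D : ℝ) (j : ℕ), Measurable w → (∀ v, 0 ≤ w v) →
      (∀ v, w v ≤ D * (1 + ‖v‖) ^ j) →
      ∫⁻ v, ENNReal.ofReal (w v) * profileE u v = ENNReal.ofReal (∫ v, w v * u v) := by
    intro w D j hwm hw0 hwb
    rw [ofReal_integral_eq_lintegral_ofReal (integrable_weight_mul hm hb hu hub hwm
      fun v => by rw [abs_of_nonneg (hw0 v)]; exact hwb v)
      (Eventually.of_forall fun v => mul_nonneg (hw0 v) (hub v).1)]
    exact lintegral_congr fun v => (ENNReal.ofReal_mul (hw0 v)).symm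
  have hvb : ∀ v : V3, ‖v‖ * evenSum N ((α * ‖v‖) ^ 2) ≤
      evenSum N (α ^ 2) * (1 + ‖v‖) ^ (2 * N + 1) := fun v => by
    have h := evenSum_mul_sq_le N (r := α) (norm_nonneg v)
    have h0 : 0 ≤ evenSum N ((α * ‖v‖) ^ 2) := evenSum_nonneg _ (sq_nonneg _)
    calc ‖v‖ * evenSum N ((α * ‖v‖) ^ 2)
        ≤ (1 + ‖v‖) * (evenSum N (α ^ 2) * (1 + ‖v‖) ^ (2 * N)) :=
          mul_le_mul (by linarith) h h0 (by positivity)
      _ = _ := by ring
  have h1 := lintegral_evenSum_gain hU N α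
  rw [hw (fun v => evenSum N ((α * ‖v‖) ^ 2)) (evenSum N (α ^ 2)) (2 * N)
      (measurable_evenSum N α) (fun v => evenSum_nonneg _ (sq_nonneg _))
      (fun v => evenSum_mul_sq_le N (norm_nonneg v)),
    hw (fun v => ‖v‖ * evenSum N ((α * ‖v‖) ^ 2)) (evenSum N (α ^ 2)) (2 * N + 1)
      (measurable_norm.mul (measurable_evenSum N α))
      (fun v => mul_nonneg (norm_nonneg _) (evenSum_nonneg _ (sq_nonneg _)))
      (fun v => hvb v)] at h1
  have hY : 0 ≤ ∫ v, evenSum N ((α * ‖v‖) ^ 2) * u v := integral_nonneg fun v =>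
    mul_nonneg (evenSum_nonneg _ (sq_nonneg _)) (hub v).1
  have hZ : 0 ≤ ∫ v, ‖v‖ * evenSum N ((α * ‖v‖) ^ 2) * u v := integral_nonneg fun v =>
    mul_nonneg (mul_nonneg (norm_nonneg _) (evenSum_nonneg _ (sq_nonneg _))) (hub v).1
  have h2 := ENNReal.toReal_mono (ENNReal.add_ne_top.2 ⟨hLn, ENNReal.mul_ne_top
    (ENNReal.mul_ne_top (measure_ne_top _ _) ENNReal.ofReal_ne_top) ENNReal.ofReal_ne_top⟩) h1
  rw [ENNReal.toReal_add hLn (ENNReal.mul_ne_top (ENNReal.mul_ne_top (measure_ne_top _ _)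
    ENNReal.ofReal_ne_top) ENNReal.ofReal_ne_top), ENNReal.toReal_mul, ENNReal.toReal_mul,
    ENNReal.toReal_ofReal hY, ENNReal.toReal_ofReal hZ] at h2
  have e : ∫ v, ψ v * qv u v = (∫ v, ψ v * (P v).toReal) - ∫ v, ψ v * (L v).toReal := by
    rw [← integral_sub hPi hLi]
    exact integral_congr_ae (Eventually.of_forall fun v => by simp only [qv_eq, hP, hL]; ring)
  change ∫ v, ψ v * qv u v ≤ _
  rw [e, hPv, hLv, sphereMass]
  linarith

/-- The collision term of a moment is absorbed by the decrease of the rate. -/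
lemma rate_nonpos (hm : HasExpMoment b m) (hb : 0 < b) {u : V3 → ℝ} (hu : Measurable u)
    (hub : ∀ v, 0 ≤ u v ∧ u v ≤ m v) {N : ℕ} {r c y₀ : ℝ} (hr : 0 ≤ r) (hy₀ : 0 ≤ y₀)
    (hc : c = 3 * sphereMass * y₀) (hY : ∫ v, evenSum N ((r * ‖v‖) ^ 2) * u v ≤ y₀) :
    ∫ v, (evenDeriv (N + 1) r ‖v‖ * (-c) * u v + evenSum (N + 1) ((r * ‖v‖) ^ 2) * qv u v) ≤ 0 := by
  have hDb : ∀ v : V3, |evenDeriv (N + 1) r ‖v‖| ≤
      evenDeriv (N + 1) r 1 * (1 + ‖v‖) ^ (2 * (N + 1)) := fun v => by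
    rw [abs_of_nonneg (evenDeriv_nonneg _ hr)]
    exact evenDeriv_le _ hr le_rfl (norm_nonneg v)
  have hDi := integrable_weight_mul hm hb hu hub (measurable_evenDeriv (N + 1) r) hDb
  have hψb : ∀ v : V3, |evenSum (N + 1) ((r * ‖v‖) ^ 2)| ≤
      evenSum (N + 1) (r ^ 2) * (1 + ‖v‖) ^ (2 * (N + 1)) := fun v => by
    rw [abs_of_nonneg (evenSum_nonneg _ (sq_nonneg _))]
    exact evenSum_mul_sq_le _ (norm_nonneg v)
  have hqm : Measurable (qv u) :=
    (measurable_qv (G := fun _ => u) (hu.comp measurable_snd)).comp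
      (f := fun v : V3 => ((0 : ℝ), v)) measurable_prodMk_left
  have hqi : Integrable (fun v => evenSum (N + 1) ((r * ‖v‖) ^ 2) * qv u v) := by
    refine ((integrable_pow_envelope hm hb (2 * (N + 1))).const_mul
      (evenSum (N + 1) (r ^ 2))).mono'
      ((measurable_evenSum (N + 1) r).mul hqm).aestronglyMeasurable ?_
    filter_upwards [ae_envelope_lt_top hm hb] with v hv
    rw [Real.norm_eq_abs, abs_mul, ← mul_assoc]
    exact mul_le_mul (hψb v) (abs_qv_le (fun w => (hub w).2) hv) (abs_nonneg _)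
      ((abs_nonneg _).trans (hψb v))
  have hD'i : Integrable (fun v => evenDeriv (N + 1) r ‖v‖ * (-c) * u v) :=
    (hDi.const_mul (-c)).congr (Eventually.of_forall fun v => by ring)
  rw [integral_add hD'i hqi]
  have hq := integral_evenSum_qv hm hb hu hub N r
  have hn : ∀ v : V3, 0 ≤ ‖v‖ * evenSum N ((r * ‖v‖) ^ 2) * u v := fun v =>
    mul_nonneg (mul_nonneg (norm_nonneg _) (evenSum_nonneg _ (sq_nonneg _))) (hub v).1
  have hZD : ∫ v, ‖v‖ * evenSum N ((r * ‖v‖) ^ 2) * u v ≤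
      3 * ∫ v, evenDeriv (N + 1) r ‖v‖ * u v := by
    rw [← integral_const_mul]
    refine integral_mono_of_nonneg (Eventually.of_forall hn) (hDi.const_mul 3)
      (Eventually.of_forall fun v => ?_)
    exact (mul_le_mul_of_nonneg_right (mul_evenSum_le N hr (norm_nonneg v)) (hub v).1).trans_eq
      (mul_assoc _ _ _)
  have hy := mul_le_mul_of_nonneg_right (mul_le_mul_of_nonneg_left hY sphereMass_nonneg)
    (integral_nonneg hn : (0 : ℝ) ≤ ∫ v, ‖v‖ * evenSum N ((r * ‖v‖) ^ 2) * u v)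
  have hd : ∫ v, evenDeriv (N + 1) r ‖v‖ * (-c) * u v =
      -c * ∫ v, evenDeriv (N + 1) r ‖v‖ * u v := by
    rw [← integral_const_mul]
    exact integral_congr_ae (Eventually.of_forall fun v => by ring)
  have := mul_le_mul_of_nonneg_left hZD (mul_nonneg sphereMass_nonneg hy₀)
  rw [hd, hc]
  linarith

/-- Truncated moments with a linearly decreasing rate do not grow. -/
lemma moment_le (h : IsHomMild T m G) (hm : HasExpMoment b m) (hb : 0 < b) {α₀ c y₀ : ℝ}
    (hy₀ : 0 ≤ y₀) (hc : c = 3 * sphereMass * y₀) (hα : c * T ≤ α₀)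
    (h0 : ∀ N, ∫ v, evenSum N ((α₀ * ‖v‖) ^ 2) * G 0 v ≤ y₀) :
    ∀ N, ∀ t ∈ Icc 0 T, ∫ v, evenSum N (((α₀ - c * t) * ‖v‖) ^ 2) * G t v ≤ y₀ := by
  intro N
  induction N with
  | zero => intro t _; simpa [evenSum] using hy₀
  | succ N ih =>
    intro t ht
    have hc0 : 0 ≤ c := by rw [hc]; positivity [sphereMass_nonneg]
    have hαs : ∀ s ∈ Icc 0 t, 0 ≤ α₀ - c * s ∧ α₀ - c * s ≤ α₀ := fun s hs =>
      ⟨by linarith [mul_le_mul_of_nonneg_left (hs.2.trans ht.2) hc0],
        by linarith [mul_nonneg hc0 hs.1]⟩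
    set ψ : ℝ → V3 → ℝ := fun s v => evenSum (N + 1) (((α₀ - c * s) * ‖v‖) ^ 2) with hψ
    set ψ' : ℝ → V3 → ℝ := fun s v => evenDeriv (N + 1) (α₀ - c * s) ‖v‖ * (-c) with hψ'
    set C : ℝ := evenSum (N + 1) (α₀ ^ 2) + c * evenDeriv (N + 1) α₀ 1 with hC
    have hC1 : 0 ≤ evenSum (N + 1) (α₀ ^ 2) := evenSum_nonneg _ (sq_nonneg _)
    have hα₀ : 0 ≤ α₀ := le_trans (mul_nonneg hc0 (ht.1.trans ht.2)) hα
    have hC2 : 0 ≤ c * evenDeriv (N + 1) α₀ 1 := mul_nonneg hc0 (evenDeriv_nonneg _ hα₀)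
    have hψn : ∀ s v, 0 ≤ ψ s v := fun s v => evenSum_nonneg _ (sq_nonneg _)
    refine (weight_le h hm hb ht (ψ := ψ) (ψ' := ψ') (C := C) (k := 2 * (N + 1))
      (by simp only [hψ, evenSum]; fun_prop) (by simp only [hψ', evenDeriv]; fun_prop)
      ?_ (fun v => contDiff_evenSum _ α₀ c ‖v‖) ?_ ?_ ?_).trans ?_
    · intro v s
      exact (hasDerivAt_evenSum (N + 1) (α₀ - c * s) ‖v‖).comp s (by
        simpa using ((hasDerivAt_id s).const_mul c).const_sub α₀)
    · intro s hs v
      rw [abs_of_nonneg (hψn s v)]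
      refine (evenSum_mul_sq_le _ (norm_nonneg v)).trans (mul_le_mul_of_nonneg_right ?_ (by positivity))
      refine (evenSum_mono _ (sq_nonneg _)
        (pow_le_pow_left₀ (hαs s hs).1 (hαs s hs).2 2)).trans (le_add_of_nonneg_right hC2)
    · intro s hs v
      simp only [hψ', abs_mul, abs_neg, abs_of_nonneg hc0,
        abs_of_nonneg (evenDeriv_nonneg _ (hαs s hs).1)]
      calc evenDeriv (N + 1) (α₀ - c * s) ‖v‖ * c
          ≤ evenDeriv (N + 1) α₀ 1 * (1 + ‖v‖) ^ (2 * (N + 1)) * c :=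
            mul_le_mul_of_nonneg_right
              (evenDeriv_le _ (hαs s hs).1 (hαs s hs).2 (norm_nonneg v)) hc0
        _ = (c * evenDeriv (N + 1) α₀ 1) * (1 + ‖v‖) ^ (2 * (N + 1)) := by ring
        _ ≤ _ := mul_le_mul_of_nonneg_right (le_add_of_nonneg_left hC1) (by positivity)
    · intro s hs
      have hsI : s ∈ Icc 0 T := ⟨hs.1.le, hs.2.trans ht.2⟩
      exact rate_nonpos hm hb (h.measurable.comp measurable_prodMk_left) (h.bounds s hsI)
        (hαs s ⟨hs.1.le, hs.2⟩).1 hy₀ hc (ih s hsI)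
    · simpa [hψ] using h0 (N + 1)

/-- Mass does not increase. -/
lemma mass_le (h : IsHomMild T m G) (hm : HasExpMoment b m) (hb : 0 < b) {t : ℝ}
    (ht : t ∈ Icc 0 T) : ∫ v, G t v ≤ ∫ v, G 0 v := by
  suffices H : ∫ v, (1 : ℝ) * G t v ≤ ∫ v, (1 : ℝ) * G 0 v by simpa using H
  refine weight_le h hm hb ht (ψ := fun _ _ => 1) (ψ' := fun _ _ => 0) (C := 1) (k := 0)
    measurable_const measurable_const (fun v s => hasDerivAt_const s 1) (fun v => contDiff_const)
    (fun s _ v => by simp) (fun s _ v => by simp) fun s hs => ?_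
  have hsI : s ∈ Icc 0 T := ⟨hs.1.le, hs.2.trans ht.2⟩
  have hu : Measurable (G s) := h.measurable.comp measurable_prodMk_left
  have hle := profileE_mono fun v => (h.bounds s hsI v).2
  have hU := measurable_profileE hu
  have hfin := ae_envelope_lt_top hm hb
  have hE : Integrable (fun v => (envelope m v).toReal) := by
    simpa using integrable_pow_envelope hm hb 0
  have hP : ∀ v, gain (profileE (G s)) (profileE (G s)) v ≤ envelope m v := fun v =>
    (gain_mono hle hle v).trans le_self_add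
  have hL : ∀ v, profileE (G s) v * lossRate (profileE (G s)) v ≤ envelope m v := fun v =>
    (mul_le_mul' (hle v) (lossRate_mono hle v)).trans le_add_self
  have := integral_toReal_sub_eq_zero (μ := (volume : Measure V3)) (ψ := fun _ => (1 : ℝ))
    measurable_const (fun _ => zero_le_one) hE (measurable_gain hU hU)
    (hU.mul (measurable_lossRate hU)) (hfin.mono fun v hv => ne_top_of_le_ne_top hv (hP v))
    (hfin.mono fun v hv => ne_top_of_le_ne_top hv (hL v))
    (hfin.mono fun v hv => by simpa using ENNReal.toReal_mono hv (hP v))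
    (hfin.mono fun v hv => by simpa using ENNReal.toReal_mono hv (hL v))
    (by simpa using lintegral_gain hU hU)
  simp only [zero_mul, zero_add, one_mul, qv_eq] at this ⊢
  exact this.le

/-- A uniform exponential moment on every interval contained in `[0,T]`. -/
theorem exists_expBound (ha : 0 < a) {f₀ : V3 → ℝ} (hf : HasExpMoment a f₀) (hT : 0 ≤ T) :
    ∃ a₁ M : ℝ, 0 < a₁ ∧ a₁ ≤ a ∧ ∀ (τ b : ℝ) (m : V3 → ℝ) (G : ℝ → V3 → ℝ), τ ≤ T → 0 < b →
      IsHomMild τ m G → HasExpMoment b m → G 0 =ᵐ[volume] f₀ →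
        ∀ t ∈ Icc 0 τ, HasExpMoment a₁ (G t) ∧ ∫ v, G t v * exp (a₁ * ‖v‖) ≤ M := by
  set E₀ := ∫ v, f₀ v * exp (a * ‖v‖)
  have hE₀ : 0 ≤ E₀ := integral_nonneg fun v => mul_nonneg (hf.nonneg v) (exp_pos _).le
  have hK := sphereMass_nonneg
  set d := 6 * sphereMass * E₀ * T + 1 with hd
  have hd0 : 0 < d := by positivity
  set α₀ := min a (a ^ 2 / d) with hα₀
  have hα₀pos : 0 < α₀ := lt_min ha (by positivity)
  have hα₀a : α₀ ≤ a := min_le_left _ _
  set θ := (α₀ / a) ^ 2 with hθ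
  set y₀ := θ * E₀ with hy₀
  set c := 3 * sphereMass * y₀ with hc
  have hcT : c * T ≤ α₀ / 2 := by
    have h1 : α₀ * d ≤ a ^ 2 := by
      rw [← le_div_iff₀ hd0]; exact min_le_right _ _
    have h2 : α₀ * (6 * sphereMass * E₀ * T) ≤ a ^ 2 := by rw [hd] at h1; linarith
    have h3 : c * T * (2 * a ^ 2) ≤ α₀ * a ^ 2 := by
      calc c * T * (2 * a ^ 2) = α₀ * (α₀ * (6 * sphereMass * E₀ * T)) := by
            rw [hc, hy₀, hθ]; field_simp; ring
        _ ≤ α₀ * a ^ 2 := mul_le_mul_of_nonneg_left h2 hα₀pos.le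
    nlinarith [sq_pos_of_pos ha]
  refine ⟨α₀ / 2, 4 * E₀, half_pos hα₀pos, by linarith, fun τ b m G hτ hb h hm h0 t ht => ?_⟩
  have h00 : (0 : ℝ) ∈ Icc 0 τ := left_mem_Icc.2 (ht.1.trans ht.2)
  have hθ0 : 0 ≤ θ := sq_nonneg _
  have hθ1 : θ ≤ 1 := pow_le_one₀ (by positivity) ((div_le_one ha).2 hα₀a)
  have hy0 : 0 ≤ y₀ := mul_nonneg hθ0 hE₀
  have hinit : ∀ N, ∫ v, evenSum N ((α₀ * ‖v‖) ^ 2) * G 0 v ≤ y₀ := by
    intro N
    have e : ∫ v, evenSum N ((α₀ * ‖v‖) ^ 2) * G 0 v = ∫ v, evenSum N ((α₀ * ‖v‖) ^ 2) * f₀ v :=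
      integral_congr_ae (h0.mono fun v hv => by simp only [hv])
    rw [e, hy₀, ← integral_const_mul]
    refine integral_mono_of_nonneg (Eventually.of_forall fun v => mul_nonneg
      (evenSum_nonneg _ (sq_nonneg _)) (hf.nonneg v)) (hf.integrable.const_mul θ)
      (Eventually.of_forall fun v => ?_)
    have e1 : (α₀ * ‖v‖) ^ 2 = θ * (a * ‖v‖) ^ 2 := by rw [hθ]; field_simp
    calc evenSum N ((α₀ * ‖v‖) ^ 2) * f₀ v ≤ θ * exp (a * ‖v‖) * f₀ v := by
          refine mul_le_mul_of_nonneg_right ?_ (hf.nonneg v)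
          rw [e1]
          exact (evenSum_scale N hθ0 hθ1 (sq_nonneg _)).trans
            (mul_le_mul_of_nonneg_left (evenSum_sq_le_exp N (by positivity)) hθ0)
      _ = _ := by ring
  have hu : Measurable (G t) := h.measurable.comp measurable_prodMk_left
  have hub := h.bounds t ht
  have hc0 : 0 ≤ c := by rw [hc]; positivity
  have hτ' : c * τ ≤ α₀ / 2 := (mul_le_mul_of_nonneg_left hτ hc0).trans hcT
  have hmass : ∫ v, G t v ≤ E₀ := by
    refine (mass_le h hm hb ht).trans ?_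
    rw [integral_congr_ae h0]
    exact integral_mono_of_nonneg (Eventually.of_forall hf.nonneg) hf.integrable
      (Eventually.of_forall fun v => le_mul_of_one_le_right (hf.nonneg v)
        (one_le_exp (by positivity)))
  set s : V3 → ℝ := fun v => (α₀ / 2 * ‖v‖) ^ 2 with hs
  have hGi : Integrable (G t) := by
    simpa using integrable_weight_mul hm hb hu hub (ψ := fun _ => (1 : ℝ)) measurable_const
      (C := 1) (k := 0) (fun v => by simp)
  have hphi : ∀ N, Integrable (fun v => evenSum N (s v) * G t v) ∧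
      ∫ v, evenSum N (s v) * G t v ≤ y₀ := by
    intro N
    have hmem : ∀ v, 0 ≤ evenSum N (s v) := fun v => evenSum_nonneg _ (sq_nonneg _)
    have hi : ∀ r, Integrable (fun v => evenSum N ((r * ‖v‖) ^ 2) * G t v) := fun r =>
      integrable_weight_mul hm hb hu hub (measurable_evenSum N r) (fun v => by
        rw [abs_of_nonneg (evenSum_nonneg _ (sq_nonneg _))]
        exact evenSum_mul_sq_le N (norm_nonneg v))
    refine ⟨hi _, le_trans ?_ (moment_le h hm hb hy0 hc (by linarith) hinit N t ht)⟩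
    refine integral_mono (hi _) (hi _) fun v => mul_le_mul_of_nonneg_right
      (evenSum_mono N (sq_nonneg _) (pow_le_pow_left₀ (by positivity) ?_ 2)) (hub v).1
    refine mul_le_mul_of_nonneg_right ?_ (norm_nonneg v)
    linarith [mul_le_mul_of_nonneg_left ht.2 hc0]
  set B : ℕ → V3 → ℝ≥0∞ := fun N v => ENNReal.ofReal (2 * (1 + evenSum N (s v)) * G t v) with hB
  have hBint : ∀ N, ∫⁻ v, B N v ≤ ENNReal.ofReal (4 * E₀) := by
    intro N
    have hi : Integrable (fun v => 2 * (1 + evenSum N (s v)) * G t v) := by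
      refine ((hGi.add (hphi N).1).const_mul 2).congr (Eventually.of_forall fun v => ?_)
      simp only [Pi.add_apply]; ring
    rw [← ofReal_integral_eq_lintegral_ofReal hi (Eventually.of_forall fun v =>
      mul_nonneg (mul_nonneg zero_le_two (add_nonneg zero_le_one
        (evenSum_nonneg _ (sq_nonneg _)))) (hub v).1)]
    refine ENNReal.ofReal_le_ofReal ?_
    have e : ∫ v, 2 * (1 + evenSum N (s v)) * G t v =
        2 * ((∫ v, G t v) + ∫ v, evenSum N (s v) * G t v) := by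
      rw [← integral_add hGi (hphi N).1, ← integral_const_mul]
      exact integral_congr_ae (Eventually.of_forall fun v => by ring)
    rw [e]
    nlinarith [(hphi N).2, mul_le_mul_of_nonneg_right hθ1 hE₀]
  have hlim : ∫⁻ v, ENNReal.ofReal (G t v * exp (α₀ / 2 * ‖v‖)) ≤ ENNReal.ofReal (4 * E₀) := by
    have hcosh := lintegral_tendsto_of_tendsto_of_monotone (μ := (volume : Measure V3))
      (f := B) (F := fun v => ENNReal.ofReal (2 * cosh (α₀ / 2 * ‖v‖) * G t v))
      (fun N => by simp only [hB, hs, evenSum]; fun_prop)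
      (Eventually.of_forall fun v N M hNM => ENNReal.ofReal_le_ofReal
        (mul_le_mul_of_nonneg_right (by
          linarith [monotone_evenSum (sq_nonneg (α₀ / 2 * ‖v‖)) hNM]) (hub v).1))
      (Eventually.of_forall fun v => (ENNReal.continuous_ofReal.tendsto _).comp
        (((tendsto_evenSum (α₀ / 2 * ‖v‖)).const_mul 2).mul_const _))
    refine le_trans (lintegral_mono fun v => ENNReal.ofReal_le_ofReal ?_)
      (le_of_tendsto' hcosh hBint)
    rw [mul_comm (G t v)]
    exact mul_le_mul_of_nonneg_right (exp_le_two_cosh _) (hub v).1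
  have hwm : Measurable fun v => G t v * exp (α₀ / 2 * ‖v‖) := by fun_prop
  have hwn : ∀ v, 0 ≤ G t v * exp (α₀ / 2 * ‖v‖) := fun v => mul_nonneg (hub v).1 (exp_pos _).le
  refine ⟨⟨hu, fun v => (hub v).1,
    (lintegral_ofReal_ne_top_iff_integrable hwm.aestronglyMeasurable (Eventually.of_forall hwn)).1
      (ne_top_of_le_ne_top ENNReal.ofReal_ne_top hlim)⟩, ?_⟩
  rw [integral_eq_lintegral_of_nonneg_ae (Eventually.of_forall hwn) hwm.aestronglyMeasurable]
  calc _ ≤ (ENNReal.ofReal (4 * E₀)).toReal := ENNReal.toReal_mono ENNReal.ofReal_ne_top hlim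
    _ = 4 * E₀ := ENNReal.toReal_ofReal (by positivity)

end Vale.Agent.P140.Renorm.Hom
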