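import Vale.Agent.P140.Renorm.HomEnergyMoment

/-!
# Conservation of mass and energy for the limit of the scheme

The deficits `d₀ = m₀ - m`, `d₂ = E₀ - E` satisfy `d₀' ≤ C (d₀ + d₂)` and
`d₂' ≤ C / t d₀ + C d₂`, and the energy is continuous at `0` since `u(t) ≥ e^{-λ t} f₀`;
hence both vanish and the limit solves the Boltzmann equation.
-/

open MeasureTheory Real Set Filter
open scoped RealInnerProductSpace ENNReal Topology

namespace Vale.Agent.P140.Renorm.Hom2

open Vale.Agent.P140 Vale.Agent.P140.Renorm.Hom3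

variable {m₀ E₀ : ℝ} {f₀ : V3 → ℝ}

lemma mass_lim_le (D : Data m₀ E₀ f₀) {t : ℝ} (ht : 0 ≤ t) :
    ∫⁻ v, lim m₀ E₀ f₀ t v ≤ ENNReal.ofReal m₀ := by
  simp only [lim]
  rw [lintegral_iSup (f := fun n v => iter m₀ E₀ f₀ n t v)
    (fun n => measurable_iter_time D.measurable n t) (fun i j hij v => iter_mono t hij v)]
  exact iSup_le fun n => mass_iter_le D n ht

lemma energy_lim_le (D : Data m₀ E₀ f₀) {t : ℝ} (ht : 0 ≤ t) :
    energy (lim m₀ E₀ f₀ t) ≤ ENNReal.ofReal E₀ := by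
  have h : energy (lim m₀ E₀ f₀ t) = ⨆ n, energy (iter m₀ E₀ f₀ n t) := by
    simp only [energy, lim, ENNReal.mul_iSup]
    exact lintegral_iSup (f := fun n v => hw v * iter m₀ E₀ f₀ n t v)
      (fun n => measurable_hw.mul (measurable_iter_time D.measurable n t))
      fun i j hij v => mul_le_mul' le_rfl (iter_mono t hij v)
  rw [h]
  exact iSup_le fun n => energy_iter_le D n ht

lemma exp_le_lim (t : ℝ) (v : V3) :
    ENNReal.ofReal (exp (-(damp m₀ E₀ v) * t)) * ENNReal.ofReal (f₀ v) ≤ lim m₀ E₀ f₀ t v := by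
  rw [← iSup_cut (f₀ := f₀) v, ENNReal.mul_iSup]
  refine iSup_le fun n => le_iSup_of_le (n + 1) ?_
  simp only [iter]
  exact le_self_add

lemma lintegral_hone_le (u : V3 → ℝ≥0∞) :
    ∫⁻ v, hone v * u v ≤ ENNReal.ofReal 2 * energy u := by
  rw [energy, ← lintegral_const_mul' _ _ ENNReal.ofReal_ne_top]
  refine lintegral_mono fun v => ?_
  rw [← mul_assoc, hone, hw, ← ENNReal.ofReal_mul zero_le_two]
  exact mul_le_mul' (ENNReal.ofReal_le_ofReal (by nlinarith [sq_nonneg (‖v‖ - 1)])) le_rfl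

lemma lintegral_hw_hone_le {u : V3 → ℝ≥0∞} (hu : Measurable u) :
    ∫⁻ v, hw v * (hone v * u v) ≤ ENNReal.ofReal 2 * (energy u + ∫⁻ v, cub v * u v) := by
  rw [energy, ← lintegral_add_left (by fun_prop), ← lintegral_const_mul' _ _ ENNReal.ofReal_ne_top]
  refine lintegral_mono fun v => ?_
  rw [← add_mul, ← mul_assoc, ← mul_assoc, hw, hone, cub, ← ENNReal.ofReal_mul (by positivity),
    ← ENNReal.ofReal_add (by positivity) (by positivity), ← ENNReal.ofReal_mul zero_le_two]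
  refine mul_le_mul' (ENNReal.ofReal_le_ofReal ?_) le_rfl
  nlinarith [sq_nonneg (‖v‖ - 1), pow_nonneg (norm_nonneg v) 3]

lemma lintegral_time_swap' {ω : V3 → ℝ≥0∞} (hω : Measurable ω) {U : ℝ → V3 → ℝ≥0∞}
    (hU : Measurable (Function.uncurry U)) (p q : ℝ) :
    ∫⁻ s in Ioc p q, ∫⁻ v, ω v * U s v = ∫⁻ v, ω v * ∫⁻ s in Ioc p q, U s v := by
  have hm : Measurable (Function.uncurry fun (s : ℝ) (v : V3) => ω v * U s v) :=
    (hω.comp measurable_snd).mul hU
  rw [lintegral_lintegral_swap hm.aemeasurable]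
  exact lintegral_congr fun v => lintegral_const_mul _ (hU.comp measurable_prodMk_right)

lemma measurable_damp_mul {U : ℝ → V3 → ℝ≥0∞} (hU : Measurable (Function.uncurry U)) :
    Measurable (Function.uncurry fun s v => ENNReal.ofReal (damp m₀ E₀ v) * U s v) :=
  (ENNReal.measurable_ofReal.comp ((measurable_damp m₀ E₀).comp measurable_snd)).mul hU

lemma mass_rate (D : Data m₀ E₀ f₀) {t : ℝ} (ht : 0 ≤ t) :
    ∫⁻ v, rhs2 (lim m₀ E₀ f₀ t) v ≤
      surface univ * (ENNReal.ofReal m₀ * (ENNReal.ofReal 2 * ENNReal.ofReal E₀) +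
        ENNReal.ofReal E₀ * ENNReal.ofReal m₀) := by
  have hu := measurable_lim_time (m₀ := m₀) (E₀ := E₀) D.measurable t
  have h := lintegral_weight_rhs2 (ω := fun _ => 1) measurable_const hu
    (by simp only [one_mul]; exact lintegral_gain hu hu)
  simp only [one_mul] at h
  rw [h]
  exact mul_le_mul' le_rfl (add_le_add (mul_le_mul' (mass_lim_le D ht)
    ((lintegral_hone_le _).trans (mul_le_mul' le_rfl (energy_lim_le D ht))))
    (mul_le_mul' (energy_lim_le D ht) (mass_lim_le D ht)))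

lemma lintegral_rhs2_time_ne_top (D : Data m₀ E₀ f₀) (T : ℝ) :
    ∫⁻ v, ∫⁻ s in Ioc 0 T, rhs2 (lim m₀ E₀ f₀ s) v ≠ ⊤ := by
  have h := lintegral_time_swap' (ω := fun _ => 1) measurable_const
    (measurable_rhs2_time (measurable_lim (m₀ := m₀) (E₀ := E₀) D.measurable)) 0 T
  simp only [one_mul] at h
  rw [← h]
  refine ne_top_of_le_ne_top ?_ ((setLIntegral_mono' measurableSet_Ioc fun s hs =>
    mass_rate D hs.1.le).trans_eq (setLIntegral_const _ _))
  refine ENNReal.mul_ne_top (ENNReal.mul_ne_top (measure_ne_top _ _) ?_) measure_Ioc_lt_top.ne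
  simp [ENNReal.mul_eq_top]

lemma ae_rhs2_time_lt_top (D : Data m₀ E₀ f₀) (T : ℝ) :
    ∀ᵐ v : V3, ∫⁻ s in Ioc 0 T, rhs2 (lim m₀ E₀ f₀ s) v < ⊤ :=
  ae_lt_top (Measurable.lintegral_prod_left'
    (f := fun q : ℝ × V3 => rhs2 (lim m₀ E₀ f₀ q.1) q.2)
    (measurable_rhs2_time (measurable_lim D.measurable))) (lintegral_rhs2_time_ne_top D T)

/-- The mass deficit. -/
noncomputable def dmass (m₀ E₀ : ℝ) (f₀ : V3 → ℝ) (t : ℝ) : ℝ≥0∞ :=
  ENNReal.ofReal m₀ - ∫⁻ v, lim m₀ E₀ f₀ t v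

/-- The energy deficit. -/
noncomputable def denergy (m₀ E₀ : ℝ) (f₀ : V3 → ℝ) (t : ℝ) : ℝ≥0∞ :=
  ENNReal.ofReal E₀ - energy (lim m₀ E₀ f₀ t)

lemma measurable_dmass (hf : Measurable f₀) : Measurable (dmass m₀ E₀ f₀) :=
  measurable_const.sub (Measurable.lintegral_prod_right' (measurable_lim hf))

lemma measurable_denergy (hf : Measurable f₀) : Measurable (denergy m₀ E₀ f₀) :=
  measurable_const.sub (measurable_moment_time measurable_hw (measurable_lim hf))

/-- The damping exceeds the scheme by the deficits. -/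
lemma damped_eq_add_deficit (D : Data m₀ E₀ f₀) {t : ℝ} (ht : 0 ≤ t) {ω : V3 → ℝ≥0∞}
    (hω : Measurable ω) (hinv : ∀ u : V3 → ℝ≥0∞, Measurable u →
      ∫⁻ v, ω v * gain u u v = ∫⁻ v, ω v * (u v * lossRate u v)) :
    damped m₀ E₀ ω (lim m₀ E₀ f₀ t) = (∫⁻ v, ω v * rhs2 (lim m₀ E₀ f₀ t) v) +
      surface univ * (dmass m₀ E₀ f₀ t * (∫⁻ v, ω v * (hone v * lim m₀ E₀ f₀ t v)) +
        denergy m₀ E₀ f₀ t * ∫⁻ v, ω v * lim m₀ E₀ f₀ t v) := by
  have hu := measurable_lim_time (m₀ := m₀) (E₀ := E₀) D.measurable t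
  rw [damped, lintegral_weight_damp hω hu D.mass_nonneg D.energy_nonneg,
    lintegral_weight_rhs2 hω hu (hinv _ hu), ← mul_add]
  congr 1
  conv_lhs =>
    rw [← add_tsub_cancel_of_le (mass_lim_le D ht), ← add_tsub_cancel_of_le (energy_lim_le D ht)]
  simp only [dmass, denergy]
  ring

lemma mass_deficit_le (D : Data m₀ E₀ f₀) {t : ℝ} (ht : 0 ≤ t) :
    dmass m₀ E₀ f₀ t ≤ ∫⁻ s in Ioc 0 t, surface univ *
      (dmass m₀ E₀ f₀ s * (ENNReal.ofReal 2 * ENNReal.ofReal E₀) +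
        denergy m₀ E₀ f₀ s * ENNReal.ofReal m₀) := by
  have hu := measurable_lim (m₀ := m₀) (E₀ := E₀) D.measurable
  have hR := measurable_rhs2_time hu
  have hb : (∫⁻ v, lim m₀ E₀ f₀ t v) +
      ∫⁻ s in Ioc 0 t, damped m₀ E₀ (fun _ => 1) (lim m₀ E₀ f₀ s) =
      ENNReal.ofReal m₀ + ∫⁻ s in Ioc 0 t, ∫⁻ v, (1 : ℝ≥0∞) * rhs2 (lim m₀ E₀ f₀ s) v := by
    simp only [damped]
    rw [lintegral_time_swap' measurable_const (measurable_damp_mul hu),
      lintegral_time_swap' measurable_const hR, ← D.mass_eq,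
      ← lintegral_add_left (measurable_lim_time D.measurable t),
      ← lintegral_add_left D.measurable.ennreal_ofReal]
    refine lintegral_congr fun v => ?_
    rw [one_mul, one_mul, lim_equation D v ht]
  have hfin : ∫⁻ s in Ioc 0 t, ∫⁻ v, (1 : ℝ≥0∞) * rhs2 (lim m₀ E₀ f₀ s) v ≠ ⊤ := by
    rw [lintegral_time_swap' measurable_const hR]
    simp only [one_mul]
    exact lintegral_rhs2_time_ne_top D t
  have hsplit : ∫⁻ s in Ioc 0 t, damped m₀ E₀ (fun _ => 1) (lim m₀ E₀ f₀ s) ≤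
      (∫⁻ s in Ioc 0 t, ∫⁻ v, (1 : ℝ≥0∞) * rhs2 (lim m₀ E₀ f₀ s) v) +
        ∫⁻ s in Ioc 0 t, surface univ *
          (dmass m₀ E₀ f₀ s * (ENNReal.ofReal 2 * ENNReal.ofReal E₀) +
            denergy m₀ E₀ f₀ s * ENNReal.ofReal m₀) := by
    rw [← lintegral_add_left (measurable_moment_time (ω := fun _ => 1) measurable_const hR)]
    refine setLIntegral_mono' measurableSet_Ioc fun s hs => ?_
    rw [damped_eq_add_deficit D hs.1.le measurable_const
      (fun u hu => by simp only [one_mul]; exact lintegral_gain hu hu)]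
    simp only [one_mul]
    exact add_le_add le_rfl (mul_le_mul' le_rfl (add_le_add (mul_le_mul' le_rfl
      ((lintegral_hone_le _).trans (mul_le_mul' le_rfl (energy_lim_le D hs.1.le))))
      (mul_le_mul' le_rfl (mass_lim_le D hs.1.le))))
  refine tsub_le_iff_left.2 (ENNReal.le_of_add_le_add_right hfin ?_)
  rw [← hb]
  exact (add_le_add le_rfl hsplit).trans_eq (by ring)

/-- The equation from a positive time on. -/
lemma lim_equation_from (D : Data m₀ E₀ f₀) (v : V3) {p t : ℝ} (hp : 0 ≤ p) (hpt : p ≤ t)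
    (hfin : ∫⁻ s in Ioc 0 t, rhs2 (lim m₀ E₀ f₀ s) v ≠ ⊤) :
    lim m₀ E₀ f₀ t v + ∫⁻ s in Ioc p t, ENNReal.ofReal (damp m₀ E₀ v) * lim m₀ E₀ f₀ s v =
      lim m₀ E₀ f₀ p v + ∫⁻ s in Ioc p t, rhs2 (lim m₀ E₀ f₀ s) v := by
  have h1 := lim_equation D v (hp.trans hpt)
  rw [← Ioc_union_Ioc_eq_Ioc hp hpt,
    lintegral_union measurableSet_Ioc (Ioc_disjoint_Ioc_of_le le_rfl),
    lintegral_union measurableSet_Ioc (Ioc_disjoint_Ioc_of_le le_rfl)] at h1
  have h2 := lim_equation D v hp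
  have hA : ∫⁻ s in Ioc 0 p, ENNReal.ofReal (damp m₀ E₀ v) * lim m₀ E₀ f₀ s v ≠ ⊤ :=
    ne_top_of_le_ne_top (ENNReal.add_ne_top.2 ⟨ENNReal.ofReal_ne_top,
      ne_top_of_le_ne_top hfin (lintegral_mono_set (Ioc_subset_Ioc_right hpt))⟩)
      (le_add_self.trans_eq h2)
  refine (ENNReal.add_left_inj hA).1 ?_
  calc _ = lim m₀ E₀ f₀ t v +
        ((∫⁻ s in Ioc 0 p, ENNReal.ofReal (damp m₀ E₀ v) * lim m₀ E₀ f₀ s v) +
          ∫⁻ s in Ioc p t, ENNReal.ofReal (damp m₀ E₀ v) * lim m₀ E₀ f₀ s v) := by ring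
    _ = (ENNReal.ofReal (f₀ v) + ∫⁻ s in Ioc 0 p, rhs2 (lim m₀ E₀ f₀ s) v) +
        ∫⁻ s in Ioc p t, rhs2 (lim m₀ E₀ f₀ s) v := h1.trans (add_assoc _ _ _).symm
    _ = _ := by rw [← h2]; ring

lemma energy_deficit_le (D : Data m₀ E₀ f₀) {T C : ℝ} (hC : 0 ≤ C)
    (hW : ∀ s ∈ Ioc 0 T,
      ∫⁻ v, hw v * (hone v * lim m₀ E₀ f₀ s v) ≤ ENNReal.ofReal (C / s))
    {t : ℝ} (ht : t ∈ Icc 0 T) :
    denergy m₀ E₀ f₀ t ≤ ∫⁻ s in Ioc 0 t, surface univ *
      (dmass m₀ E₀ f₀ s * ENNReal.ofReal (C / s) + denergy m₀ E₀ f₀ s * ENNReal.ofReal E₀) := by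
  set I := ∫⁻ s in Ioc 0 t, surface univ *
    (dmass m₀ E₀ f₀ s * ENNReal.ofReal (C / s) + denergy m₀ E₀ f₀ s * ENNReal.ofReal E₀) with hI
  have hu := measurable_lim (m₀ := m₀) (E₀ := E₀) D.measurable
  have hR := measurable_rhs2_time hu
  rcases ht.1.eq_or_lt with h0 | h0
  · have e : lim m₀ E₀ f₀ t = fun v => ENNReal.ofReal (f₀ v) := funext fun v => by
      simpa [← h0] using lim_equation D v le_rfl
    simp [denergy, e, D.energy_eq]
  have hstep : ∀ p, 0 < p → p ≤ t → energy (lim m₀ E₀ f₀ p) ≤ energy (lim m₀ E₀ f₀ t) + I := by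
    intro p hp hpt
    have hb : energy (lim m₀ E₀ f₀ t) +
        ∫⁻ s in Ioc p t, damped m₀ E₀ hw (lim m₀ E₀ f₀ s) =
        energy (lim m₀ E₀ f₀ p) + ∫⁻ s in Ioc p t, ∫⁻ v, hw v * rhs2 (lim m₀ E₀ f₀ s) v := by
      simp only [damped, energy]
      rw [lintegral_time_swap' measurable_hw (measurable_damp_mul hu),
        lintegral_time_swap' measurable_hw hR,
        ← lintegral_add_left (measurable_hw.fun_mul (measurable_lim_time D.measurable t)),
        ← lintegral_add_left (measurable_hw.fun_mul (measurable_lim_time D.measurable p))]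
      refine lintegral_congr_ae ?_
      filter_upwards [ae_rhs2_time_lt_top D t] with v hv
      rw [← mul_add, ← mul_add, lim_equation_from D v hp.le hpt hv.ne]
    have hfin : ∫⁻ s in Ioc p t, ∫⁻ v, hw v * rhs2 (lim m₀ E₀ f₀ s) v ≠ ⊤ := by
      refine ne_top_of_le_ne_top (ENNReal.mul_ne_top (ENNReal.mul_ne_top (measure_ne_top surface univ)
        (ENNReal.add_ne_top.2 ⟨ENNReal.mul_ne_top (ENNReal.ofReal_ne_top (r := m₀))
          (ENNReal.ofReal_ne_top (r := C / p)), ENNReal.mul_ne_top (ENNReal.ofReal_ne_top (r := E₀))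
          (ENNReal.ofReal_ne_top (r := E₀))⟩))
        (measure_Ioc_lt_top (μ := volume) (a := p) (b := t)).ne) ?_
      rw [← setLIntegral_const]
      refine setLIntegral_mono' measurableSet_Ioc fun s hs => ?_
      have hs0 : 0 ≤ s := hp.le.trans hs.1.le
      rw [lintegral_weight_rhs2 measurable_hw (measurable_lim_time D.measurable s)
        (lintegral_hw_gain (measurable_lim_time D.measurable s))]
      refine mul_le_mul' le_rfl (add_le_add (mul_le_mul' (mass_lim_le D hs0)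
        ((hW s ⟨hp.trans hs.1, hs.2.trans ht.2⟩).trans (ENNReal.ofReal_le_ofReal ?_)))
        (mul_le_mul' (energy_lim_le D hs0) (energy_lim_le D hs0)))
      exact div_le_div_of_nonneg_left hC hp hs.1.le
    have hsplit : ∫⁻ s in Ioc p t, damped m₀ E₀ hw (lim m₀ E₀ f₀ s) ≤
        (∫⁻ s in Ioc p t, ∫⁻ v, hw v * rhs2 (lim m₀ E₀ f₀ s) v) + I := by
      refine le_trans ?_ (add_le_add le_rfl (lintegral_mono_set (Ioc_subset_Ioc_left hp.le)))
      rw [← lintegral_add_left (measurable_moment_time measurable_hw hR)]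
      refine setLIntegral_mono' measurableSet_Ioc fun s hs => ?_
      have hs0 : 0 < s := hp.trans hs.1
      rw [damped_eq_add_deficit D hs0.le measurable_hw (fun u hu => lintegral_hw_gain hu)]
      exact add_le_add le_rfl (mul_le_mul' le_rfl (add_le_add
        (mul_le_mul' le_rfl (hW s ⟨hs0, hs.2.trans ht.2⟩))
        (mul_le_mul' le_rfl (energy_lim_le D hs0.le))))
    refine ENNReal.le_of_add_le_add_right hfin ?_
    rw [← hb]
    exact (add_le_add le_rfl hsplit).trans_eq (by ring)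
  set G : ℕ → V3 → ℝ≥0∞ := fun k v =>
    hw v * (ENNReal.ofReal (exp (-(damp m₀ E₀ v) * (t / (k + 1)))) * ENNReal.ofReal (f₀ v)) with hG
  have hGlim : Tendsto (fun k => ∫⁻ v, G k v) atTop (𝓝 (ENNReal.ofReal E₀)) := by
    rw [← D.energy_eq, energy]
    refine lintegral_tendsto_of_tendsto_of_monotone
      (fun k => by have := D.measurable; simp only [hG]; fun_prop)
      (Eventually.of_forall fun v i j hij => ?_) (Eventually.of_forall fun v => ?_)
    · refine mul_le_mul' le_rfl (mul_le_mul' (ENNReal.ofReal_le_ofReal (exp_le_exp.2 ?_)) le_rfl)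
      refine mul_le_mul_of_nonpos_left ?_
        (neg_nonpos.2 (damp_nonneg D.mass_nonneg D.energy_nonneg v))
      exact div_le_div_of_nonneg_left h0.le (by positivity) (by gcongr)
    · have h1 : Tendsto (fun k : ℕ => t / ((k : ℝ) + 1)) atTop (𝓝 0) := by
        simpa [div_eq_mul_inv] using (tendsto_one_div_add_atTop_nhds_zero_nat.const_mul t)
      have h2 := ENNReal.Tendsto.mul_const (b := ENNReal.ofReal (f₀ v))
        ((ENNReal.continuous_ofReal.tendsto _).comp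
          ((continuous_exp.tendsto _).comp (h1.const_mul (-(damp m₀ E₀ v)))))
        (Or.inr ENNReal.ofReal_ne_top)
      rw [mul_zero, exp_zero, ENNReal.ofReal_one, one_mul] at h2
      exact ENNReal.Tendsto.const_mul h2 (Or.inr (by simp [hw]))
  refine tsub_le_iff_left.2 (le_of_tendsto' hGlim fun k => ?_)
  refine (lintegral_mono fun v => mul_le_mul' le_rfl (exp_le_lim _ v)).trans
    (hstep (t / (k + 1)) (by positivity) ?_)
  exact div_le_self h0.le (by linarith [(Nat.cast_nonneg k : (0 : ℝ) ≤ k)])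

/-- Both deficits vanish. -/
lemma deficit_eq_zero (D : Data m₀ E₀ f₀) {T C : ℝ} (hC : 0 ≤ C)
    (hW : ∀ s ∈ Ioc 0 T,
      ∫⁻ v, hw v * (hone v * lim m₀ E₀ f₀ s v) ≤ ENNReal.ofReal (C / s))
    {t : ℝ} (ht : t ∈ Icc 0 T) : dmass m₀ E₀ f₀ t = 0 ∧ denergy m₀ E₀ f₀ t = 0 := by
  have hm := D.mass_nonneg
  have hE := D.energy_nonneg
  set σ := (surface univ).toReal with hσdef
  have hσ : 0 ≤ σ := ENNReal.toReal_nonneg
  have hS : surface univ = ENNReal.ofReal σ := (ENNReal.ofReal_toReal (measure_ne_top _ _)).symm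
  set C1 := σ * (2 * E₀ + m₀) with hC1
  set L := 2 * (2 * C1 * (σ * C) + 3 * C1) + 1 with hL
  have hC10 : 0 ≤ C1 := by positivity
  have hL0 : 0 < L := by positivity
  have hind : ∀ n : ℕ, ∀ r ∈ Icc 0 T,
      dmass m₀ E₀ f₀ r ≤ ENNReal.ofReal ((1 / 2) ^ n * (m₀ + E₀) * exp (L * r)) ∧
      denergy m₀ E₀ f₀ r ≤ ENNReal.ofReal ((1 / 2) ^ n * (m₀ + E₀) * exp (L * r)) := by
    intro n
    induction n with
    | zero =>
      intro r hr
      have h1 : 1 ≤ exp (L * r) := one_le_exp (mul_nonneg hL0.le hr.1)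
      exact ⟨tsub_le_self.trans (ENNReal.ofReal_le_ofReal (by nlinarith)),
        tsub_le_self.trans (ENNReal.ofReal_le_ofReal (by nlinarith))⟩
    | succ n ih =>
      set A := (1 / 2 : ℝ) ^ n * (m₀ + E₀) with hA
      have hA0 : 0 ≤ A := by positivity
      have hint : ∀ K r : ℝ, 0 ≤ K → 0 ≤ r → ∫⁻ s in Ioc 0 r, ENNReal.ofReal (K * exp (L * s)) ≤
          ENNReal.ofReal (K / L * exp (L * r)) := by
        intro K r hK hr
        have e : ∀ s, ENNReal.ofReal (K * exp (L * s)) =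
            ENNReal.ofReal (K / L) * ENNReal.ofReal (L * exp (L * s)) := fun s => by
          rw [← ENNReal.ofReal_mul (by positivity)]; congr 1; field_simp
        simp_rw [e]
        rw [lintegral_const_mul' _ _ ENNReal.ofReal_ne_top, lintegral_Ioc_exp hL0.le hr, mul_zero,
          exp_zero, ← ENNReal.ofReal_mul (by positivity)]
        exact ENNReal.ofReal_le_ofReal (mul_le_mul_of_nonneg_left (by linarith) (by positivity))
      have h0 : ∀ r ∈ Icc 0 T, dmass m₀ E₀ f₀ r ≤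
          ∫⁻ s in Ioc 0 r, ENNReal.ofReal (2 * C1 * A * exp (L * s)) := by
        intro r hr
        refine (mass_deficit_le D hr.1).trans (setLIntegral_mono' measurableSet_Ioc fun s hs => ?_)
        obtain ⟨i1, i2⟩ := ih s ⟨hs.1.le, hs.2.trans hr.2⟩
        refine (mul_le_mul' le_rfl (add_le_add (mul_le_mul' i1 le_rfl) (mul_le_mul' i2 le_rfl))).trans ?_
        rw [hS, ← ENNReal.ofReal_mul zero_le_two, ← ENNReal.ofReal_mul (by positivity),
          ← ENNReal.ofReal_mul (by positivity), ← ENNReal.ofReal_add (by positivity) (by positivity),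
          ← ENNReal.ofReal_mul hσ]
        refine ENNReal.ofReal_le_ofReal ?_
        rw [hC1]
        nlinarith [mul_nonneg (mul_nonneg hσ hA0) (mul_nonneg (exp_pos (L * s)).le
          (add_nonneg (mul_nonneg zero_le_two hE) hm))]
      have hlin : ∀ r ∈ Icc 0 T,
          dmass m₀ E₀ f₀ r ≤ ENNReal.ofReal (2 * C1 * A * r * exp (L * r)) := by
        intro r hr
        refine (h0 r hr).trans ((setLIntegral_mono' measurableSet_Ioc fun s hs =>
          ENNReal.ofReal_le_ofReal (mul_le_mul_of_nonneg_left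
            (exp_le_exp.2 (mul_le_mul_of_nonneg_left hs.2 hL0.le)) (by positivity))).trans ?_)
        rw [setLIntegral_const, volume_Ioc, sub_zero, ← ENNReal.ofReal_mul (by positivity)]
        exact le_of_eq (congrArg _ (by ring))
      intro r hr
      have hhalf : (1 / 2 : ℝ) ^ (n + 1) * (m₀ + E₀) = A / 2 := by rw [hA, pow_succ]; ring
      rw [hhalf]
      constructor
      · refine ((h0 r hr).trans (hint _ r (by positivity) hr.1)).trans
          (ENNReal.ofReal_le_ofReal (mul_le_mul_of_nonneg_right ?_ (exp_pos _).le))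
        rw [div_le_iff₀ hL0, hL]
        nlinarith [mul_nonneg hA0 hC10, mul_nonneg (mul_nonneg hA0 hC10) (mul_nonneg hσ hC)]
      · refine ((energy_deficit_le D hC hW hr).trans (le_trans (setLIntegral_mono' measurableSet_Ioc
          (g := fun s => ENNReal.ofReal ((2 * C1 * (σ * C) + C1) * A * exp (L * s))) fun s hs => ?_)
          (hint _ r (by positivity) hr.1))).trans
          (ENNReal.ofReal_le_ofReal (mul_le_mul_of_nonneg_right ?_ (exp_pos _).le))
        · have hsI : s ∈ Icc 0 T := ⟨hs.1.le, hs.2.trans hr.2⟩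
          refine (mul_le_mul' le_rfl (add_le_add (mul_le_mul' (hlin s hsI) le_rfl)
            (mul_le_mul' (ih s hsI).2 le_rfl))).trans ?_
          have hs0 := hs.1
          rw [hS, ← ENNReal.ofReal_mul (by positivity), ← ENNReal.ofReal_mul (by positivity),
            ← ENNReal.ofReal_add (by positivity) (by positivity), ← ENNReal.ofReal_mul hσ]
          refine ENNReal.ofReal_le_ofReal ?_
          have e : σ * (2 * C1 * A * s * exp (L * s) * (C / s) + A * exp (L * s) * E₀) =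
              (2 * C1 * (σ * C) + σ * E₀) * A * exp (L * s) := by field_simp
          rw [e]
          refine mul_le_mul_of_nonneg_right (mul_le_mul_of_nonneg_right ?_ hA0) (exp_pos _).le
          rw [hC1]; nlinarith [mul_nonneg hσ hE, mul_nonneg hσ hm]
        · rw [div_le_iff₀ hL0, hL]
          nlinarith [mul_nonneg hA0 hC10, mul_nonneg (mul_nonneg hA0 hC10) (mul_nonneg hσ hC)]
  have hl : Tendsto (fun n : ℕ => ENNReal.ofReal ((1 / 2) ^ n * (m₀ + E₀) * exp (L * t))) atTop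
      (𝓝 0) := by
    have := (((tendsto_pow_atTop_nhds_zero_of_lt_one (by norm_num : (0 : ℝ) ≤ 1 / 2)
      (by norm_num)).mul_const (m₀ + E₀)).mul_const (exp (L * t)))
    rw [zero_mul, zero_mul] at this
    simpa [Function.comp_def] using (ENNReal.continuous_ofReal.tendsto 0).comp this
  exact ⟨le_antisymm (ge_of_tendsto' hl fun n => (hind n t ht).1) zero_le,
    le_antisymm (ge_of_tendsto' hl fun n => (hind n t ht).2) zero_le⟩

lemma ae_lim_lt_top (D : Data m₀ E₀ f₀) {t : ℝ} (ht : 0 ≤ t) :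
    ∀ᵐ v : V3, lim m₀ E₀ f₀ t v < ⊤ :=
  ae_lt_top (measurable_lim_time D.measurable t)
    (ne_top_of_le_ne_top ENNReal.ofReal_ne_top (mass_lim_le D ht))

/-- The finite part of the limit. -/
noncomputable def fin (m₀ E₀ : ℝ) (f₀ : V3 → ℝ) (t : ℝ) (v : V3) : ℝ≥0∞ :=
  ENNReal.ofReal (lim m₀ E₀ f₀ t v).toReal

lemma measurable_fin (hf : Measurable f₀) : Measurable (Function.uncurry (fin m₀ E₀ f₀)) :=
  (measurable_lim hf).ennreal_toReal.ennreal_ofReal

lemma fin_le (t : ℝ) : fin m₀ E₀ f₀ t ≤ lim m₀ E₀ f₀ t := fun _ => ENNReal.ofReal_toReal_le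

lemma fin_ae_eq (D : Data m₀ E₀ f₀) {t : ℝ} (ht : 0 ≤ t) :
    fin m₀ E₀ f₀ t =ᵐ[volume] lim m₀ E₀ f₀ t :=
  (ae_lim_lt_top D ht).mono fun _ h => ENNReal.ofReal_toReal h.ne

lemma lossRate_fin (D : Data m₀ E₀ f₀) {t : ℝ} (ht : 0 ≤ t) (v : V3) :
    lossRate (fin m₀ E₀ f₀ t) v = lossRate (lim m₀ E₀ f₀ t) v := by
  refine lintegral_congr_ae ?_
  filter_upwards [Measure.quasiMeasurePreserving_fst.ae (fin_ae_eq D ht)] with p hp
  rw [hp]

lemma gain_fin_ae_eq (D : Data m₀ E₀ f₀) {t : ℝ} (ht : 0 ≤ t) :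
    gain (fin m₀ E₀ f₀ t) (fin m₀ E₀ f₀ t) =ᵐ[volume]
      gain (lim m₀ E₀ f₀ t) (lim m₀ E₀ f₀ t) := by
  have hu := measurable_lim_time (m₀ := m₀) (E₀ := E₀) D.measurable t
  have hu' : Measurable (fin m₀ E₀ f₀ t) := hu.ennreal_toReal.ennreal_ofReal
  have hL : ∫⁻ v, fin m₀ E₀ f₀ t v * lossRate (fin m₀ E₀ f₀ t) v =
      ∫⁻ v, lim m₀ E₀ f₀ t v * lossRate (lim m₀ E₀ f₀ t) v :=
    lintegral_congr_ae ((fin_ae_eq D ht).mono fun v hv => by
      simp only [hv, lossRate_fin D ht v])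
  refine ae_eq_of_ae_le_of_lintegral_le
    (Eventually.of_forall fun v => gain_mono (fin_le t) (fin_le t) v) ?_
    (measurable_gain hu hu).aemeasurable (by rw [lintegral_gain hu hu, lintegral_gain hu' hu', hL])
  rw [lintegral_gain hu' hu', hL, ← lintegral_gain hu hu]
  refine ne_top_of_le_ne_top ?_ ((lintegral_mono fun v => le_self_add).trans (mass_rate D ht))
  refine ENNReal.mul_ne_top (measure_ne_top _ _) ?_
  simp [ENNReal.mul_eq_top]

/-- With exact mass and energy the finite part solves the mild equation at a.e. velocity. -/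
lemma fin_equation (D : Data m₀ E₀ f₀) (hf0 : ∀ v, 0 ≤ f₀ v) {T : ℝ}
    (hmass : ∀ s ∈ Icc 0 T, ∫⁻ v, lim m₀ E₀ f₀ s v = ENNReal.ofReal m₀)
    (henergy : ∀ s ∈ Icc 0 T, energy (lim m₀ E₀ f₀ s) = ENNReal.ofReal E₀) :
    ∀ᵐ v : V3, ∀ t ∈ Icc 0 T, (lim m₀ E₀ f₀ t v).toReal = f₀ v + ∫ s in (0 : ℝ)..t,
      ((gain (fin m₀ E₀ f₀ s) (fin m₀ E₀ f₀ s) v).toReal -
        (fin m₀ E₀ f₀ s v * lossRate (fin m₀ E₀ f₀ s) v).toReal) := by
  have hu := measurable_lim (m₀ := m₀) (E₀ := E₀) D.measurable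
  have hgae : ∀ᵐ v : V3, ∀ᵐ s ∂((volume : Measure ℝ).restrict (Ioc 0 T)),
      gain (fin m₀ E₀ f₀ s) (fin m₀ E₀ f₀ s) v = gain (lim m₀ E₀ f₀ s) (lim m₀ E₀ f₀ s) v := by
    have hm : MeasurableSet {w : ℝ × V3 | gain (fin m₀ E₀ f₀ w.1) (fin m₀ E₀ f₀ w.1) w.2 =
        gain (lim m₀ E₀ f₀ w.1) (lim m₀ E₀ f₀ w.1) w.2} :=
      measurableSet_eq_fun (measurable_gain_time (measurable_fin D.measurable))
        (measurable_gain_time hu)
    have h1 : ∀ᵐ s ∂((volume : Measure ℝ).restrict (Ioc 0 T)), ∀ᵐ v : V3,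
        gain (fin m₀ E₀ f₀ s) (fin m₀ E₀ f₀ s) v = gain (lim m₀ E₀ f₀ s) (lim m₀ E₀ f₀ s) v :=
      (ae_restrict_iff' measurableSet_Ioc).2
        (Eventually.of_forall fun s hs => gain_fin_ae_eq D hs.1.le)
    exact (Measure.ae_ae_comm hm).1 h1
  filter_upwards [ae_rhs2_time_lt_top D T, hgae] with v hv hgv t ht
  set μ := (volume : Measure ℝ).restrict (Ioc 0 t) with hμ
  have hsub : Ioc (0 : ℝ) t ⊆ Ioc 0 T := Ioc_subset_Ioc_right ht.2
  have hle : ∀ s, 0 ≤ s → s ≤ T → lim m₀ E₀ f₀ s v ≠ ⊤ := fun s h1 h2 =>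
    ne_top_of_le_ne_top (ENNReal.add_ne_top.2 ⟨ENNReal.ofReal_ne_top,
      ne_top_of_le_ne_top hv.ne (lintegral_mono_set (Ioc_subset_Ioc_right h2))⟩)
      (le_self_add.trans_eq (lim_equation D v h1))
  have hA := measurable_section (U := fun s v => gain (lim m₀ E₀ f₀ s) (lim m₀ E₀ f₀ s) v)
    (measurable_gain_time hu) v
  have hB := measurable_section
    (U := fun s v => lim m₀ E₀ f₀ s v * lossRate (lim m₀ E₀ f₀ s) v)
    (hu.mul (measurable_lossRate_time hu)) v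
  have hRes : ∫⁻ s in Ioc 0 t, lim m₀ E₀ f₀ s v * resid2 (lim m₀ E₀ f₀ s) v ≠ ⊤ :=
    ne_top_of_le_ne_top hv.ne ((lintegral_mono fun s => le_add_self).trans
      (lintegral_mono_set hsub))
  have hAfin : ∫⁻ s in Ioc 0 t, gain (lim m₀ E₀ f₀ s) (lim m₀ E₀ f₀ s) v ≠ ⊤ :=
    ne_top_of_le_ne_top hv.ne ((lintegral_mono fun s => le_self_add).trans
      (lintegral_mono_set hsub))
  have heq : lim m₀ E₀ f₀ t v +
      ∫⁻ s in Ioc 0 t, lim m₀ E₀ f₀ s v * lossRate (lim m₀ E₀ f₀ s) v =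
      ENNReal.ofReal (f₀ v) + ∫⁻ s in Ioc 0 t, gain (lim m₀ E₀ f₀ s) (lim m₀ E₀ f₀ s) v := by
    have h := lim_equation D v ht.1
    have e1 : ∫⁻ s in Ioc 0 t, ENNReal.ofReal (damp m₀ E₀ v) * lim m₀ E₀ f₀ s v =
        (∫⁻ s in Ioc 0 t, lim m₀ E₀ f₀ s v * lossRate (lim m₀ E₀ f₀ s) v) +
          ∫⁻ s in Ioc 0 t, lim m₀ E₀ f₀ s v * resid2 (lim m₀ E₀ f₀ s) v := by
      rw [← lintegral_add_left hB]
      refine setLIntegral_congr_fun measurableSet_Ioc fun s hs => ?_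
      rw [← mul_add, add_comm (lossRate _ v),
        resid2_add_lossRate (measurable_lim_time D.measurable s),
        hmass s ⟨hs.1.le, hs.2.trans ht.2⟩, henergy s ⟨hs.1.le, hs.2.trans ht.2⟩,
        ← ofReal_damp D.mass_nonneg D.energy_nonneg, mul_comm]
    have e2 : ∫⁻ s in Ioc 0 t, rhs2 (lim m₀ E₀ f₀ s) v =
        (∫⁻ s in Ioc 0 t, gain (lim m₀ E₀ f₀ s) (lim m₀ E₀ f₀ s) v) +
          ∫⁻ s in Ioc 0 t, lim m₀ E₀ f₀ s v * resid2 (lim m₀ E₀ f₀ s) v :=
      lintegral_add_left hA _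
    rwa [e1, e2, ← add_assoc, ← add_assoc, ENNReal.add_left_inj hRes] at h
  have hBfin : ∫⁻ s in Ioc 0 t, lim m₀ E₀ f₀ s v * lossRate (lim m₀ E₀ f₀ s) v ≠ ⊤ :=
    ne_top_of_le_ne_top (ENNReal.add_ne_top.2 ⟨ENNReal.ofReal_ne_top, hAfin⟩)
      (le_add_self.trans_eq heq)
  have hreal := congrArg ENNReal.toReal heq
  rw [ENNReal.toReal_add (hle t ht.1 ht.2) hBfin,
    ENNReal.toReal_add ENNReal.ofReal_ne_top hAfin, ENNReal.toReal_ofReal (hf0 v)] at hreal
  have hAi := integrable_toReal_of_lintegral_ne_top hA.aemeasurable (μ := μ) hAfin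
  have hBi := integrable_toReal_of_lintegral_ne_top hB.aemeasurable (μ := μ) hBfin
  have hcong : ∀ᵐ s ∂μ, (gain (fin m₀ E₀ f₀ s) (fin m₀ E₀ f₀ s) v).toReal -
      (fin m₀ E₀ f₀ s v * lossRate (fin m₀ E₀ f₀ s) v).toReal =
      (gain (lim m₀ E₀ f₀ s) (lim m₀ E₀ f₀ s) v).toReal -
        (lim m₀ E₀ f₀ s v * lossRate (lim m₀ E₀ f₀ s) v).toReal := by
    filter_upwards [ae_restrict_of_ae_restrict_of_subset hsub hgv,
      ae_restrict_mem measurableSet_Ioc] with s hs hmem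
    rw [hs, lossRate_fin D hmem.1.le,
      show fin m₀ E₀ f₀ s v = lim m₀ E₀ f₀ s v from
        ENNReal.ofReal_toReal (hle s hmem.1.le (hmem.2.trans ht.2))]
  rw [intervalIntegral.integral_of_le ht.1, integral_congr_ae hcong, integral_sub hAi hBi,
    integral_toReal hA.aemeasurable (ae_lt_top hA hAfin),
    integral_toReal hB.aemeasurable (ae_lt_top hB hBfin)]
  linarith

end Vale.Agent.P140.Renorm.Hom2
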