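import Vale.Agent.P140.Renorm.Collision

/-!
# A Povzner inequality for the cube of the speed

For unit vectors `e, p` put `y = ⟪p, e - 2 ⟪e,ω⟫ ω⟫`. The collision gains lose a fixed fraction
`∫ |⟪e,ω⟫| (1 - y²) dω > 0` of the largest possible value, by compactness of the sphere.
-/

open MeasureTheory Real Set
open scoped RealInnerProductSpace

namespace Vale.Agent.P140.Renorm

open Vale.Agent.P140

instance : surface.IsOpenPosMeasure := by unfold surface; infer_instance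

/-- `⟪p, e - 2⟪e,ω⟫ω⟫`. -/
noncomputable def deflection (e p ω : S2) : ℝ :=
  ⟪(p : V3), (e : V3)⟫ - 2 * ⟪(e : V3), (ω : V3)⟫ * ⟪(p : V3), (ω : V3)⟫

/-- `|⟪e,ω⟫| (1 - y²)`. -/
noncomputable def povznerWeight (e p ω : S2) : ℝ :=
  |⟪(e : V3), (ω : V3)⟫| * (1 - deflection e p ω ^ 2)

lemma deflection_sq_le (e p ω : S2) : deflection e p ω ^ 2 ≤ 1 := by
  have h : deflection e p ω = ⟪(p : V3), (e : V3) - (2 * ⟪(e : V3), (ω : V3)⟫) • (ω : V3)⟫ := by
    rw [deflection, inner_sub_right, real_inner_smul_right]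
  have hn : ‖(e : V3) - (2 * ⟪(e : V3), (ω : V3)⟫) • (ω : V3)‖ ^ 2 = 1 := by
    rw [norm_sub_sq_real, norm_smul, real_inner_smul_right, norm_omega, norm_omega, mul_one,
      Real.norm_eq_abs, sq_abs]
    ring
  have h1 : |deflection e p ω| ≤
      ‖(p : V3)‖ * ‖(e : V3) - (2 * ⟪(e : V3), (ω : V3)⟫) • (ω : V3)‖ := by
    rw [h]; exact abs_real_inner_le_norm _ _
  rw [norm_omega, one_mul] at h1
  calc deflection e p ω ^ 2 = |deflection e p ω| ^ 2 := (sq_abs _).symm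
    _ ≤ _ := pow_le_pow_left₀ (abs_nonneg _) h1 2
    _ = 1 := hn

lemma povznerWeight_nonneg (e p ω : S2) : 0 ≤ povznerWeight e p ω :=
  mul_nonneg (abs_nonneg _) (sub_nonneg.2 (deflection_sq_le e p ω))

lemma povznerWeight_le (e p ω : S2) : povznerWeight e p ω ≤ 1 := by
  have h : |⟪(e : V3), (ω : V3)⟫| ≤ 1 := by
    have := abs_real_inner_le_norm (e : V3) (ω : V3)
    rwa [norm_omega, norm_omega, mul_one] at this
  calc povznerWeight e p ω ≤ 1 * 1 :=
        mul_le_mul h (by nlinarith [sq_nonneg (deflection e p ω)])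
          (sub_nonneg.2 (deflection_sq_le e p ω)) zero_le_one
    _ = 1 := one_mul _

lemma continuous_povznerWeight : Continuous fun q : S2 × S2 × S2 =>
    povznerWeight q.1 q.2.1 q.2.2 := by
  unfold povznerWeight deflection; fun_prop

lemma exists_orthogonal_ne (e p : S2) : ∃ s : V3, ‖s‖ = 1 ∧ ⟪(p : V3), s⟫ = 0 ∧ s ≠ e := by
  obtain ⟨s, hs, hsn⟩ : ∃ s : V3, ⟪(p : V3), s⟫ = 0 ∧ s ≠ 0 := by
    by_contra h
    push Not at h
    have hle : Module.finrank ℝ V3 ≤ Module.finrank ℝ ℝ :=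
      LinearMap.finrank_le_finrank_of_injective (f := (innerSL ℝ (p : V3)).toLinearMap)
        ((injective_iff_map_eq_zero _).2 fun x hx => h x (by simpa using hx))
    simp at hle
  set u := ‖s‖⁻¹ • s with hu
  have hun : ‖u‖ = 1 := by
    rw [hu, norm_smul, norm_inv, norm_norm, inv_mul_cancel₀ (norm_ne_zero_iff.2 hsn)]
  have hup : ⟪(p : V3), u⟫ = 0 := by rw [hu, real_inner_smul_right, hs, mul_zero]
  by_cases he : u = e
  · refine ⟨-u, by rw [norm_neg, hun], by rw [inner_neg_right, hup, neg_zero], fun h => ?_⟩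
    have h2 : u + u = 0 := by
      conv_lhs => arg 1; rw [he, ← h]
      exact neg_add_cancel u
    rw [← two_smul ℝ, smul_eq_zero] at h2
    rcases h2 with h2 | h2
    · norm_num at h2
    · simp [h2] at hun
  · exact ⟨u, hun, hup, he⟩

lemma exists_povznerWeight_lower :
    ∃ c > 0, ∀ e p : S2, c ≤ ∫ ω, povznerWeight e p ω ∂surface := by
  have hbd : ∀ q : S2 × S2, ∀ ω, ‖povznerWeight q.1 q.2 ω‖ ≤ 1 := fun q ω => by
    rw [Real.norm_eq_abs, abs_of_nonneg (povznerWeight_nonneg _ _ _)]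
    exact povznerWeight_le _ _ _
  have hc1 : ∀ q : S2 × S2, Continuous fun ω => povznerWeight q.1 q.2 ω := fun q => by
    unfold povznerWeight deflection; fun_prop
  have hpos : ∀ e p : S2, 0 < ∫ ω, povznerWeight e p ω ∂surface := by
    intro e p
    obtain ⟨s, hs, hps, hse⟩ := exists_orthogonal_ne e p
    set d := (e : V3) - s with hd
    have hd0 : d ≠ 0 := sub_ne_zero.2 (Ne.symm hse)
    have hn : ‖d‖ ≠ 0 := norm_ne_zero_iff.2 hd0
    set ω : S2 := ⟨‖d‖⁻¹ • d, by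
      rw [mem_sphere_zero_iff_norm, norm_smul, norm_inv, norm_norm, inv_mul_cancel₀ hn]⟩ with hω
    have hed : ⟪(e : V3), d⟫ = ‖d‖ ^ 2 / 2 := by
      rw [hd, inner_sub_right, norm_sub_sq_real, real_inner_self_eq_norm_sq, norm_omega, hs]
      ring
    have heω : ⟪(e : V3), (ω : V3)⟫ = ‖d‖ / 2 := by
      simp only [hω, real_inner_smul_right, hed]
      field_simp
    have hpd : ⟪(p : V3), d⟫ = ⟪(p : V3), (e : V3)⟫ := by rw [hd, inner_sub_right, hps, sub_zero]
    have hy : deflection e p ω = 0 := by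
      rw [deflection, heω]
      simp only [hω, real_inner_smul_right, hpd]
      field_simp
      ring
    refine ((hc1 (e, p)).integral_pos_of_hasCompactSupport_nonneg_nonzero (x := ω)
      (HasCompactSupport.of_compactSpace _) (fun _ => povznerWeight_nonneg _ _ _) ?_)
    simp only [povznerWeight, hy, heω]
    have : (0 : ℝ) < ‖d‖ / 2 := by positivity
    rw [abs_of_pos this]
    norm_num
    exact hd0
  have hcont : Continuous fun q : S2 × S2 => ∫ ω, povznerWeight q.1 q.2 ω ∂surface := by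
    refine continuous_of_dominated (bound := fun _ => 1)
      (fun q => (hc1 q).aestronglyMeasurable) (fun q => Filter.Eventually.of_forall (hbd q))
      (integrable_const 1) (Filter.Eventually.of_forall fun ω => ?_)
    unfold povznerWeight deflection; fun_prop
  have hne : Nonempty S2 := ⟨⟨EuclideanSpace.single 0 1, by simp⟩⟩
  obtain ⟨q, -, hq⟩ := isCompact_univ.exists_isMinOn univ_nonempty hcont.continuousOn
  exact ⟨_, hpos q.1 q.2, fun e p => hq (mem_univ (e, p))⟩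

lemma exists_unit_smul (u : V3) : ∃ e : S2, u = ‖u‖ • (e : V3) := by
  rcases eq_or_ne u 0 with rfl | hu
  · exact ⟨⟨EuclideanSpace.single 0 1, by simp⟩, by simp⟩
  · refine ⟨⟨‖u‖⁻¹ • u, ?_⟩, ?_⟩
    · rw [mem_sphere_zero_iff_norm, norm_smul, norm_inv, norm_norm,
        inv_mul_cancel₀ (norm_ne_zero_iff.2 hu)]
    · change u = ‖u‖ • (‖u‖⁻¹ • u)
      rw [smul_smul, mul_inv_cancel₀ (norm_ne_zero_iff.2 hu), one_smul]

/-- The pointwise inequality behind the Povzner bound. -/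
lemma cube_post_le {v w : V3} {e p : S2} (he : v - w = ‖v - w‖ • (e : V3))
    (hp : v + w = ‖v + w‖ • (p : V3)) (ω : S2) :
    ‖postV v (w, ω)‖ ^ 3 + ‖postW v (w, ω)‖ ^ 3 ≤
      Real.sqrt (‖v‖ ^ 2 + ‖w‖ ^ 2) ^ 3 * (1 - (1 - deflection e p ω ^ 2) / 4) := by
  set X := ‖postV v (w, ω)‖ with hX
  set Y := ‖postW v (w, ω)‖ with hY
  set R := Real.sqrt (‖v‖ ^ 2 + ‖w‖ ^ 2) with hR
  set y := deflection e p ω with hy
  have hen : X ^ 2 + Y ^ 2 = ‖v‖ ^ 2 + ‖w‖ ^ 2 := energy_post v (w, ω)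
  have hR2 : R ^ 2 = X ^ 2 + Y ^ 2 := by rw [hR, Real.sq_sqrt (by positivity), hen]
  have hX0 : 0 ≤ X := norm_nonneg _
  have hY0 : 0 ≤ Y := norm_nonneg _
  have hR0 : 0 ≤ R := Real.sqrt_nonneg _
  rcases hR0.eq_or_lt with h | hRp
  · have hX' : X = 0 := by nlinarith [sq_nonneg Y]
    have hY' : Y = 0 := by nlinarith [sq_nonneg X]
    rw [hX', hY', ← h]; simp
  have hD : X ^ 2 - Y ^ 2 = ‖v + w‖ * ‖v - w‖ * y := by
    have ha : impact v (w, ω) = ‖v - w‖ * ⟪(e : V3), (ω : V3)⟫ := by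
      change ⟪v - w, (ω : V3)⟫ = _
      conv_lhs => rw [he, real_inner_smul_left]
    have hpω : ⟪v, (ω : V3)⟫ + ⟪w, (ω : V3)⟫ = ‖v + w‖ * ⟪(p : V3), (ω : V3)⟫ := by
      rw [← inner_add_left]
      conv_lhs => rw [hp, real_inner_smul_left]
    have hpe : ‖v‖ ^ 2 - ‖w‖ ^ 2 = ‖v + w‖ * (‖v - w‖ * ⟪(p : V3), (e : V3)⟫) := by
      have h1 : ⟪v + w, v - w⟫ = ‖v‖ ^ 2 - ‖w‖ ^ 2 := by
        rw [inner_add_left, inner_sub_right, inner_sub_right, real_inner_self_eq_norm_sq,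
          real_inner_self_eq_norm_sq, real_inner_comm v w]
        ring
      rw [← h1]
      conv_lhs => rw [he, hp, real_inner_smul_left, real_inner_smul_right]
    simp only [hX, hY, postV, postW]
    rw [norm_sub_sq_real, norm_add_sq_real, norm_smul, real_inner_smul_right,
      real_inner_smul_right, norm_omega, mul_one, Real.norm_eq_abs, sq_abs, ha, hy, deflection]
    linear_combination hpe - 2 * ‖v - w‖ * ⟪(e : V3), (ω : V3)⟫ * hpω
  have hprod : R ^ 4 * (1 - y ^ 2) ≤ 4 * (X ^ 2 * Y ^ 2) := by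
    have hxy : ‖v + w‖ * ‖v - w‖ ≤ R ^ 2 := by
      have := parallelogram_law_with_norm ℝ v w
      rw [hR2, hen]
      nlinarith [sq_nonneg (‖v + w‖ - ‖v - w‖)]
    have h2 : (‖v + w‖ * ‖v - w‖ * y) ^ 2 ≤ (R ^ 2) ^ 2 * y ^ 2 := by
      rw [mul_pow]
      exact mul_le_mul_of_nonneg_right
        (pow_le_pow_left₀ (mul_nonneg (norm_nonneg _) (norm_nonneg _)) hxy 2) (sq_nonneg y)
    nlinarith
  have hRX : R * (X ^ 3 + Y ^ 3) ≤ R ^ 4 - X ^ 2 * Y ^ 2 := by
    nlinarith [mul_nonneg (sq_nonneg X) (sq_nonneg (R - X)),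
      mul_nonneg (sq_nonneg Y) (sq_nonneg (R - Y))]
  refine le_of_mul_le_mul_left ?_ hRp
  nlinarith

/-- The Povzner inequality for `|v|³`. -/
theorem povzner_cube : ∃ A c : ℝ, 0 < c ∧ ∀ v w : V3,
    ∫ ω, |impact v (w, ω)| * (‖postV v (w, ω)‖ ^ 3 + ‖postW v (w, ω)‖ ^ 3 - ‖v‖ ^ 3 - ‖w‖ ^ 3)
      ∂surface ≤ A * (‖v‖ ^ 3 * ‖w‖ + ‖v‖ * ‖w‖ ^ 3) - c * (‖v‖ ^ 4 + ‖w‖ ^ 4) := by
  obtain ⟨c0, hc0, hlow⟩ := exists_povznerWeight_lower
  set σ := (surface univ).toReal
  refine ⟨6 * σ + c0 / 8, c0 / 8, by linarith, fun v w => ?_⟩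
  obtain ⟨e, he⟩ := exists_unit_smul (v - w)
  obtain ⟨p, hp⟩ := exists_unit_smul (v + w)
  set x := ‖v‖ with hx
  set y := ‖w‖ with hy
  set U := ‖v - w‖ with hU
  set R := Real.sqrt (x ^ 2 + y ^ 2) with hR
  set D := R ^ 3 - x ^ 3 - y ^ 3 with hD
  have hx0 : 0 ≤ x := norm_nonneg _
  have hy0 : 0 ≤ y := norm_nonneg _
  have hU0 : 0 ≤ U := norm_nonneg _
  have hR0 : 0 ≤ R := Real.sqrt_nonneg _
  have hR2 : R ^ 2 = x ^ 2 + y ^ 2 := Real.sq_sqrt (by positivity)
  have hxR : x ≤ R := by nlinarith [sq_nonneg y]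
  have hyR : y ≤ R := by nlinarith [sq_nonneg x]
  have hRxy : R ≤ x + y := by nlinarith [mul_nonneg hx0 hy0]
  have hR3 : R ^ 3 = R * x ^ 2 + R * y ^ 2 := by
    rw [← mul_add, ← hR2]; ring
  have hD0 : 0 ≤ D := by
    nlinarith [mul_le_mul_of_nonneg_right hxR (sq_nonneg x),
      mul_le_mul_of_nonneg_right hyR (sq_nonneg y)]
  have hDxy : D ≤ 3 * (x * y) * (x + y) := by
    have := pow_le_pow_left₀ hR0 hRxy 3
    nlinarith
  have hUxy : U ≤ x + y := norm_sub_le v w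
  have ha : ∀ ω : S2, |impact v (w, ω)| = U * |⟪(e : V3), (ω : V3)⟫| := fun ω => by
    change |⟪v - w, (ω : V3)⟫| = _
    conv_lhs => rw [he, real_inner_smul_left, abs_mul, abs_of_nonneg (norm_nonneg _)]
  have haU : ∀ ω : S2, |impact v (w, ω)| ≤ U := fun ω => by
    rw [ha ω]
    refine mul_le_of_le_one_right hU0 ?_
    have := abs_real_inner_le_norm (e : V3) (ω : V3)
    rwa [norm_omega, norm_omega, mul_one] at this
  have hci : Continuous fun ω : S2 => povznerWeight e p ω := by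
    unfold povznerWeight deflection; fun_prop
  have hcl : Continuous fun ω : S2 => |impact v (w, ω)| *
      (‖postV v (w, ω)‖ ^ 3 + ‖postW v (w, ω)‖ ^ 3 - ‖v‖ ^ 3 - ‖w‖ ^ 3) := by
    unfold postV postW impact; fun_prop
  have hint : ∀ {f : S2 → ℝ}, Continuous f → Integrable f surface := fun hf =>
    hf.integrable_of_hasCompactSupport (HasCompactSupport.of_compactSpace _)
  have hpt : ∀ ω : S2, |impact v (w, ω)| *
      (‖postV v (w, ω)‖ ^ 3 + ‖postW v (w, ω)‖ ^ 3 - x ^ 3 - y ^ 3) ≤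
        U * D - U * R ^ 3 / 4 * povznerWeight e p ω := by
    intro ω
    have h := cube_post_le (v := v) (w := w) he hp ω
    calc |impact v (w, ω)| * (‖postV v (w, ω)‖ ^ 3 + ‖postW v (w, ω)‖ ^ 3 - x ^ 3 - y ^ 3)
        ≤ |impact v (w, ω)| * (D - R ^ 3 / 4 * (1 - deflection e p ω ^ 2)) :=
          mul_le_mul_of_nonneg_left (by simp only [hD]; linarith) (abs_nonneg _)
      _ = |impact v (w, ω)| * D - U * R ^ 3 / 4 * povznerWeight e p ω := by
          rw [povznerWeight, ha ω]; ring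
      _ ≤ _ := sub_le_sub_right (mul_le_mul_of_nonneg_right (haU ω) hD0) _
  have hi2 : Integrable (fun ω : S2 => U * R ^ 3 / 4 * povznerWeight e p ω) surface :=
    hint (continuous_const.mul hci)
  have hi3 : Integrable (fun ω : S2 => U * D - U * R ^ 3 / 4 * povznerWeight e p ω) surface :=
    (integrable_const (U * D)).sub hi2
  refine (integral_mono (hint hcl) hi3 hpt).trans ?_
  rw [integral_sub (integrable_const _) hi2, integral_const,
    integral_const_mul, smul_eq_mul, Measure.real]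
  have hIlow := mul_le_mul_of_nonneg_left (hlow e p)
    (show 0 ≤ U * R ^ 3 / 4 by positivity)
  have hσ : 0 ≤ σ := ENNReal.toReal_nonneg
  have h1 : U * D ≤ 6 * (x ^ 3 * y + x * y ^ 3) := by
    calc U * D ≤ (x + y) * (3 * (x * y) * (x + y)) :=
          mul_le_mul hUxy hDxy hD0 (by linarith)
      _ ≤ _ := by nlinarith [mul_nonneg (mul_nonneg hx0 hy0) (sq_nonneg (x - y))]
  have hlow1 : (x - y) * x ^ 3 ≤ U * R ^ 3 := by
    rcases le_total x y with h | h
    · exact (mul_nonpos_of_nonpos_of_nonneg (sub_nonpos.2 h) (pow_nonneg hx0 3)).trans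
        (by positivity)
    · exact mul_le_mul (norm_sub_norm_le v w) (pow_le_pow_left₀ hx0 hxR 3) (pow_nonneg hx0 3) hU0
  have hlow2 : (y - x) * y ^ 3 ≤ U * R ^ 3 := by
    rcases le_total y x with h | h
    · exact (mul_nonpos_of_nonpos_of_nonneg (sub_nonpos.2 h) (pow_nonneg hy0 3)).trans
        (by positivity)
    · refine mul_le_mul ?_ (pow_le_pow_left₀ hy0 hyR 3) (pow_nonneg hy0 3) hU0
      rw [hU, norm_sub_rev]; exact norm_sub_norm_le w v
  nlinarith [mul_le_mul_of_nonneg_left h1 hσ]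

end Vale.Agent.P140.Renorm
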