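import Vale.Agent.P140.Renorm.HomEnergyScheme
import Vale.Agent.P140.Renorm.Povzner

/-!
# Production of the third moment

The cubic Povzner inequality with its quartic dissipation, and the multiplier `t²`:
`t² X(t) + β ∫ s² Y ≤ ∫ (2 s + α s²) X`, hence `X(t) ≤ C / t`.
-/

open MeasureTheory Real Set Filter
open scoped RealInnerProductSpace ENNReal Topology

namespace Vale.Agent.P140.Renorm.Hom2

open Vale.Agent.P140 Vale.Agent.P140.Renorm.Hom3

lemma surface_pos : 0 < (surface univ).toReal := by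
  refine ENNReal.toReal_pos (fun h => ?_) (measure_ne_top _ _)
  exact (volume : Measure V3).toSphere_ne_zero (Measure.measure_univ_eq_zero.1 h)

lemma povzner_lintegral {A c : ℝ} (hA : 0 ≤ A) (hc : 0 ≤ c) {v w : V3}
    (h : ∫ ω, |impact v (w, ω)| *
        (‖postV v (w, ω)‖ ^ 3 + ‖postW v (w, ω)‖ ^ 3 - ‖v‖ ^ 3 - ‖w‖ ^ 3) ∂surface
      ≤ A * (‖v‖ ^ 3 * ‖w‖ + ‖v‖ * ‖w‖ ^ 3) - c * (‖v‖ ^ 4 + ‖w‖ ^ 4)) :
    (∫⁻ ω, ENNReal.ofReal |impact v (w, ω)| * (cub (postV v (w, ω)) + cub (postW v (w, ω))) ∂surface)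
        + ENNReal.ofReal c * (quart v + quart w) ≤
      (∫⁻ ω, ENNReal.ofReal |impact v (w, ω)| * (cub v + cub w) ∂surface) +
        ENNReal.ofReal A * (cub v * ENNReal.ofReal ‖w‖ + ENNReal.ofReal ‖v‖ * cub w) := by
  set K : S2 → ℝ := fun ω =>
    |impact v (w, ω)| * (‖postV v (w, ω)‖ ^ 3 + ‖postW v (w, ω)‖ ^ 3) with hK
  set L : S2 → ℝ := fun ω => |impact v (w, ω)| * (‖v‖ ^ 3 + ‖w‖ ^ 3) with hL
  have hKc : Continuous K := by simp only [hK, impact, postV, postW]; fun_prop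
  have hLc : Continuous L := by simp only [hL, impact]; fun_prop
  have hKi : Integrable K surface :=
    hKc.integrable_of_hasCompactSupport (HasCompactSupport.of_compactSpace K)
  have hLi : Integrable L surface :=
    hLc.integrable_of_hasCompactSupport (HasCompactSupport.of_compactSpace L)
  have hKn : ∀ ω, 0 ≤ K ω := fun ω => by simp only [hK]; positivity
  have hLn : ∀ ω, 0 ≤ L ω := fun ω => by simp only [hL]; positivity
  have e : ∀ ω : S2, |impact v (w, ω)| *
      (‖postV v (w, ω)‖ ^ 3 + ‖postW v (w, ω)‖ ^ 3 - ‖v‖ ^ 3 - ‖w‖ ^ 3) = K ω - L ω :=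
    fun ω => by simp only [hK, hL]; ring
  simp only [e] at h
  rw [integral_sub hKi hLi] at h
  have e1 : ∫⁻ ω, ENNReal.ofReal |impact v (w, ω)| *
      (cub (postV v (w, ω)) + cub (postW v (w, ω))) ∂surface = ENNReal.ofReal (∫ ω, K ω ∂surface) := by
    rw [ofReal_integral_eq_lintegral_ofReal hKi (Eventually.of_forall hKn)]
    refine lintegral_congr fun ω => ?_
    simp only [hK, cub]
    rw [ENNReal.ofReal_mul (abs_nonneg _), ENNReal.ofReal_add (by positivity) (by positivity)]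
  have e2 : ∫⁻ ω, ENNReal.ofReal |impact v (w, ω)| * (cub v + cub w) ∂surface =
      ENNReal.ofReal (∫ ω, L ω ∂surface) := by
    rw [ofReal_integral_eq_lintegral_ofReal hLi (Eventually.of_forall hLn)]
    refine lintegral_congr fun ω => ?_
    simp only [hL, cub]
    rw [ENNReal.ofReal_mul (abs_nonneg _), ENNReal.ofReal_add (by positivity) (by positivity)]
  have hK0 : 0 ≤ ∫ ω, K ω ∂surface := integral_nonneg hKn
  have hL0 : 0 ≤ ∫ ω, L ω ∂surface := integral_nonneg hLn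
  rw [e1, e2, quart, quart, cub, cub, ← ENNReal.ofReal_add (by positivity) (by positivity),
    ← ENNReal.ofReal_mul hc, ← ENNReal.ofReal_add hK0 (by positivity),
    ← ENNReal.ofReal_mul (by positivity : 0 ≤ ‖v‖ ^ 3), ← ENNReal.ofReal_mul (norm_nonneg v),
    ← ENNReal.ofReal_add (by positivity) (by positivity), ← ENNReal.ofReal_mul hA,
    ← ENNReal.ofReal_add hL0 (by positivity)]
  exact ENNReal.ofReal_le_ofReal (by linarith)

/-- Cubic Povzner inequality with quartic dissipation. -/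
lemma lintegral_cub_gain_diss {A c : ℝ} (hA : 0 ≤ A) (hc : 0 ≤ c)
    (hP : ∀ v w : V3, ∫ ω, |impact v (w, ω)| *
        (‖postV v (w, ω)‖ ^ 3 + ‖postW v (w, ω)‖ ^ 3 - ‖v‖ ^ 3 - ‖w‖ ^ 3) ∂surface
      ≤ A * (‖v‖ ^ 3 * ‖w‖ + ‖v‖ * ‖w‖ ^ 3) - c * (‖v‖ ^ 4 + ‖w‖ ^ 4))
    {u : V3 → ℝ≥0∞} (hu : Measurable u) :
    (∫⁻ v, cub v * gain u u v) +
        ENNReal.ofReal c * ((∫⁻ w, u w) * ∫⁻ v, quart v * u v) ≤
      (∫⁻ v, cub v * (u v * lossRate u v)) +
        ENNReal.ofReal A * (energy u * ∫⁻ v, cub v * u v) := by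
  set k : V3 → V3 × S2 → ℝ≥0∞ := fun v p => ENNReal.ofReal |impact v p| * u v * u p.1 with hk
  have hA' : Measurable (Function.uncurry fun v p => cub (postV v p) * k v p) := by
    simp only [hk]; fun_prop
  have hW' : Measurable (Function.uncurry fun v p => cub (postW v p) * k v p) := by
    simp only [hk]; fun_prop
  have hB : Measurable (Function.uncurry fun v p => cub v * k v p) := by simp only [hk]; fun_prop
  have hC : Measurable (Function.uncurry fun v (p : V3 × S2) => cub p.1 * k v p) := by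
    simp only [hk]; fun_prop
  have hkswap : ∀ v (p : V3 × S2), k p.1 (v, p.2) = k v p := by
    intro v p; simp only [hk, impact_swap, abs_neg]; ring
  have hA2 := lintegral_swap_velocities hA'
  simp only [postV_swap, hkswap] at hA2
  have hB2 := lintegral_swap_velocities hB
  simp only [hkswap] at hB2
  have hL : ∀ v, cub v * (u v * lossRate u v) =
      ∫⁻ p, cub v * k v p ∂((volume : Measure V3).prod surface) := by
    intro v
    rw [lossRate, ← lintegral_const_mul _ (by fun_prop), ← lintegral_const_mul _ (by fun_prop)]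
    exact lintegral_congr fun p => by simp only [hk]; ring
  set Pp : V3 → V3 → ℝ≥0∞ := fun v w => ∫⁻ ω, ENNReal.ofReal |impact v (w, ω)| *
    (cub (postV v (w, ω)) + cub (postW v (w, ω))) ∂surface with hPp
  set Kloss : V3 → V3 → ℝ≥0∞ := fun v w =>
    ∫⁻ ω, ENNReal.ofReal |impact v (w, ω)| * (cub v + cub w) ∂surface with hKloss
  have hPm : Measurable (Function.uncurry Pp) := Measurable.lintegral_prod_right'
    (f := fun q : (V3 × V3) × S2 => ENNReal.ofReal |impact q.1.1 (q.1.2, q.2)| *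
      (cub (postV q.1.1 (q.1.2, q.2)) + cub (postW q.1.1 (q.1.2, q.2)))) (by fun_prop)
  have hQm : Measurable (Function.uncurry Kloss) := Measurable.lintegral_prod_right'
    (f := fun q : (V3 × V3) × S2 => ENNReal.ofReal |impact q.1.1 (q.1.2, q.2)| *
      (cub q.1.1 + cub q.1.2)) (by fun_prop)
  have e1 : (∫⁻ v, ∫⁻ p, cub (postV v p) * k v p ∂((volume : Measure V3).prod surface)) +
      ∫⁻ v, ∫⁻ p, cub (postW v p) * k v p ∂((volume : Measure V3).prod surface) =
      ∫⁻ v, ∫⁻ w, u v * u w * Pp v w := by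
    rw [← lintegral_add_left (Measurable.lintegral_prod_right hA')]
    refine lintegral_congr fun v => ?_
    rw [← lintegral_add_left (by simp only [hk]; fun_prop),
      lintegral_prod _ (by simp only [hk]; fun_prop)]
    refine lintegral_congr fun w => ?_
    simp only [hPp]
    rw [← lintegral_const_mul _ (by fun_prop)]
    exact lintegral_congr fun ω => by simp only [hk]; ring
  have e2 : (∫⁻ v, ∫⁻ p, cub v * k v p ∂((volume : Measure V3).prod surface)) +
      ∫⁻ v, ∫⁻ p, cub p.1 * k v p ∂((volume : Measure V3).prod surface) =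
      ∫⁻ v, ∫⁻ w, u v * u w * Kloss v w := by
    rw [← lintegral_add_left (Measurable.lintegral_prod_right hB)]
    refine lintegral_congr fun v => ?_
    rw [← lintegral_add_left (by simp only [hk]; fun_prop),
      lintegral_prod _ (by simp only [hk]; fun_prop)]
    refine lintegral_congr fun w => ?_
    simp only [hKloss]
    rw [← lintegral_const_mul _ (by fun_prop)]
    exact lintegral_congr fun ω => by simp only [hk]; ring
  have hbil : ∀ (p q : V3 → ℝ≥0∞), Measurable p → Measurable q →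
      ∫⁻ v, ∫⁻ w, p v * q w = (∫⁻ v, p v) * ∫⁻ w, q w := by
    intro p q hp hq
    simp_rw [lintegral_const_mul _ hq]
    exact lintegral_mul_const _ hp
  set n1 : V3 → ℝ≥0∞ := fun v => ENNReal.ofReal ‖v‖ * u v with hn1
  set x3 : V3 → ℝ≥0∞ := fun v => cub v * u v with hx3
  set x4 : V3 → ℝ≥0∞ := fun v => quart v * u v with hx4
  have hn1m : Measurable n1 := by simp only [hn1]; fun_prop
  have hx3m : Measurable x3 := by simp only [hx3]; fun_prop
  have hx4m : Measurable x4 := by simp only [hx4]; fun_prop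
  have hn1E : ∫⁻ v, n1 v ≤ energy u := lintegral_mono fun v => by
    refine mul_le_mul' (ENNReal.ofReal_le_ofReal ?_) le_rfl
    nlinarith [sq_nonneg (‖v‖ - 1)]
  have hmain : (∫⁻ v, ∫⁻ w, u v * u w * Pp v w) +
        ENNReal.ofReal c * ((∫⁻ v, x4 v) * (∫⁻ w, u w) + (∫⁻ v, u v) * ∫⁻ w, x4 w) ≤
      (∫⁻ v, ∫⁻ w, u v * u w * Kloss v w) +
        ENNReal.ofReal A * ((∫⁻ v, x3 v) * (∫⁻ w, n1 w) + (∫⁻ v, n1 v) * ∫⁻ w, x3 w) := by
    rw [← hbil x4 u hx4m hu, ← hbil u x4 hu hx4m, ← hbil x3 n1 hx3m hn1m, ← hbil n1 x3 hn1m hx3m,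
      ← lintegral_add_left (by fun_prop), ← lintegral_add_left (by fun_prop),
      ← lintegral_const_mul _ (by fun_prop), ← lintegral_const_mul _ (by fun_prop),
      ← lintegral_add_left (by fun_prop), ← lintegral_add_left (by fun_prop)]
    refine lintegral_mono fun v => ?_
    rw [← lintegral_add_left (by fun_prop), ← lintegral_add_left (by fun_prop),
      ← lintegral_const_mul _ (by fun_prop), ← lintegral_const_mul _ (by fun_prop),
      ← lintegral_add_left (by fun_prop), ← lintegral_add_left (by fun_prop)]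
    refine lintegral_mono fun w => ?_
    calc u v * u w * Pp v w + ENNReal.ofReal c * (x4 v * u w + u v * x4 w)
        = u v * u w * (Pp v w + ENNReal.ofReal c * (quart v + quart w)) := by
          simp only [hx4]; ring
      _ ≤ u v * u w * (Kloss v w +
          ENNReal.ofReal A * (cub v * ENNReal.ofReal ‖w‖ + ENNReal.ofReal ‖v‖ * cub w)) :=
          mul_le_mul' le_rfl (povzner_lintegral hA hc (hP v w))
      _ = _ := by simp only [hx3, hn1]; ring
  rw [lintegral_mul_gain hu hu (by fun_prop)]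
  simp_rw [hL]
  have hdouble : ∀ x y : ℝ≥0∞, x + x ≤ y + y → x ≤ y := fun x y hxy => by
    rw [← two_mul, ← two_mul] at hxy
    exact (ENNReal.mul_le_mul_iff_right two_ne_zero ENNReal.ofNat_ne_top).1 hxy
  refine hdouble _ _ ?_
  change ((∫⁻ v, ∫⁻ p, cub (postV v p) * k v p ∂((volume : Measure V3).prod surface)) +
      ENNReal.ofReal c * ((∫⁻ w, u w) * ∫⁻ v, x4 v)) +
    ((∫⁻ v, ∫⁻ p, cub (postV v p) * k v p ∂((volume : Measure V3).prod surface)) +
      ENNReal.ofReal c * ((∫⁻ w, u w) * ∫⁻ v, x4 v)) ≤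
    ((∫⁻ v, ∫⁻ p, cub v * k v p ∂((volume : Measure V3).prod surface)) +
      ENNReal.ofReal A * (energy u * ∫⁻ v, x3 v)) +
    ((∫⁻ v, ∫⁻ p, cub v * k v p ∂((volume : Measure V3).prod surface)) +
      ENNReal.ofReal A * (energy u * ∫⁻ v, x3 v))
  rw [add_add_add_comm, add_add_add_comm (∫⁻ v, ∫⁻ p, cub v * k v p ∂_)]
  nth_rewrite 2 [← hA2]
  nth_rewrite 2 [← hB2]
  rw [e1, e2]
  refine le_trans (le_of_eq ?_) (hmain.trans (add_le_add le_rfl ?_))
  · ring
  · rw [← mul_add, mul_comm (energy u)]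
    refine mul_le_mul' le_rfl (add_le_add (mul_le_mul' le_rfl hn1E) ?_)
    rw [mul_comm]
    exact mul_le_mul' le_rfl hn1E

lemma cub_mul_hone (v : V3) : cub v * hone v = cub v + quart v := by
  rw [cub, hone, quart, ← ENNReal.ofReal_mul (by positivity),
    ← ENNReal.ofReal_add (by positivity) (by positivity)]
  congr 1; ring

variable {m₀ E₀ A c : ℝ} {f₀ : V3 → ℝ}

/-- The cubic rate: the damping supplies the dissipation missing from `m(u) < m₀`. -/
lemma cub_rate (hA : 0 ≤ A) (hc : 0 ≤ c)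
    (hP : ∀ v w : V3, ∫ ω, |impact v (w, ω)| *
        (‖postV v (w, ω)‖ ^ 3 + ‖postW v (w, ω)‖ ^ 3 - ‖v‖ ^ 3 - ‖w‖ ^ 3) ∂surface
      ≤ A * (‖v‖ ^ 3 * ‖w‖ + ‖v‖ * ‖w‖ ^ 3) - c * (‖v‖ ^ 4 + ‖w‖ ^ 4))
    (hm₀ : 0 ≤ m₀) (hE₀ : 0 ≤ E₀) {u u' : V3 → ℝ≥0∞} (hu : Measurable u) (hu' : Measurable u')
    (hle : u ≤ u') (hum : ∫⁻ w, u w ≤ ENNReal.ofReal m₀) (huE : energy u ≤ ENNReal.ofReal E₀) :
    (∫⁻ v, cub v * rhs2 u v) +
        ENNReal.ofReal (min (surface univ).toReal c * m₀) * ∫⁻ v, quart v * u' v ≤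
      damped m₀ E₀ cub u' + ENNReal.ofReal (A * E₀) * ∫⁻ v, cub v * u' v := by
  set S := surface univ with hS
  set β := ENNReal.ofReal (min S.toReal c) with hβ
  have hβc : β ≤ ENNReal.ofReal c := ENNReal.ofReal_le_ofReal (min_le_right _ _)
  have hβS : β ≤ S :=
    (ENNReal.ofReal_le_ofReal (min_le_left _ _)).trans ENNReal.ofReal_toReal_le
  obtain ⟨e, he⟩ := exists_add_of_le hum
  have hX : ∫⁻ v, cub v * u v ≤ ∫⁻ v, cub v * u' v :=
    lintegral_mono fun v => mul_le_mul' le_rfl (hle v)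
  have hY : ∫⁻ v, quart v * u v ≤ ∫⁻ v, quart v * u' v :=
    lintegral_mono fun v => mul_le_mul' le_rfl (hle v)
  obtain ⟨δ, hδ⟩ := exists_add_of_le hY
  have hsplit : ∀ f : V3 → ℝ≥0∞, Measurable f → ∫⁻ v, cub v * (hone v * f v) =
      (∫⁻ v, cub v * f v) + ∫⁻ v, quart v * f v := fun f hf => by
    rw [← lintegral_add_left (by fun_prop)]
    exact lintegral_congr fun v => by rw [← mul_assoc, cub_mul_hone, add_mul]
  have hg := lintegral_cub_gain_diss hA hc hP hu
  have hres : (∫⁻ v, cub v * (u v * lossRate u v)) + (∫⁻ v, cub v * (u v * resid2 u v)) =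
      S * ((∫⁻ w, u w) * ((∫⁻ v, cub v * u v) + ∫⁻ v, quart v * u v) +
        energy u * ∫⁻ v, cub v * u v) := by
    rw [← hsplit u hu, ← lintegral_const_mul _ (by fun_prop), ← lintegral_const_mul _ (by fun_prop),
      ← lintegral_add_left (by fun_prop), ← lintegral_add_left (by fun_prop),
      ← lintegral_const_mul _ (by fun_prop)]
    refine lintegral_congr fun v => ?_
    rw [← mul_add, ← mul_add, add_comm (lossRate u v), resid2_add_lossRate hu]
    ring
  rw [damped, lintegral_weight_damp measurable_cub hu' hm₀ hE₀, hsplit u' hu',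
    ENNReal.ofReal_mul (le_min ENNReal.toReal_nonneg hc), ENNReal.ofReal_mul hA, ← hβ, hδ, he]
  simp only [rhs2, mul_add]
  rw [lintegral_add_left (by fun_prop)]
  set m := ∫⁻ w, u w
  set X := ∫⁻ v, cub v * u v
  set X' := ∫⁻ v, cub v * u' v
  set Y := ∫⁻ v, quart v * u v
  set G := ∫⁻ v, cub v * gain u u v
  set R := ∫⁻ v, cub v * (u v * resid2 u v)
  set L := ∫⁻ v, cub v * (u v * lossRate u v)
  have h1 : G + β * (m * Y) ≤ L + ENNReal.ofReal A * (ENNReal.ofReal E₀ * X') :=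
    (add_le_add le_rfl (mul_le_mul' hβc le_rfl)).trans
      (hg.trans (add_le_add le_rfl (mul_le_mul' le_rfl (mul_le_mul' huE hX))))
  have key : G + R + β * ((m + e) * (Y + δ)) ≤ (S * (m * (X' + Y) + ENNReal.ofReal E₀ * X') +
      S * (e * (X' + Y))) + S * ((m + e) * δ) + ENNReal.ofReal A * (ENNReal.ofReal E₀ * X') := by
    calc G + R + β * ((m + e) * (Y + δ))
        = (G + β * (m * Y)) + R + (β * (e * Y) + β * ((m + e) * δ)) := by ring
      _ ≤ (L + ENNReal.ofReal A * (ENNReal.ofReal E₀ * X')) + R +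
            (S * (e * Y) + S * ((m + e) * δ)) :=
          add_le_add (add_le_add h1 le_rfl)
            (add_le_add (mul_le_mul' hβS le_rfl) (mul_le_mul' hβS le_rfl))
      _ = (L + R) + (S * (e * Y) + S * ((m + e) * δ)) +
            ENNReal.ofReal A * (ENNReal.ofReal E₀ * X') := by ring
      _ ≤ _ := by
          rw [hres, ← add_assoc]
          refine add_le_add (add_le_add (add_le_add ?_ ?_) le_rfl) le_rfl
          · exact mul_le_mul' le_rfl (add_le_add (mul_le_mul' le_rfl (add_le_add hX le_rfl))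
              (mul_le_mul' huE hX))
          · exact mul_le_mul' le_rfl (mul_le_mul' le_rfl le_add_self)
  refine le_trans (le_of_eq ?_) (key.trans_eq ?_) <;> ring

/-- The triangle `p < s ≤ r ≤ t`. -/
lemma lintegral_triangle {p t : ℝ} {k : ℝ → ℝ → ℝ≥0∞}
    (hk : Measurable (Function.uncurry k)) :
    ∫⁻ r in Ioc p t, ∫⁻ s in Ioc p r, k r s = ∫⁻ s in Ioc p t, ∫⁻ r in Ioc s t, k r s := by
  have hset : MeasurableSet {w : ℝ × ℝ | p < w.2 ∧ w.2 ≤ w.1 ∧ w.1 ≤ t} :=
    (measurableSet_lt measurable_const measurable_snd).inter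
      ((measurableSet_le measurable_snd measurable_fst).inter
        (measurableSet_le measurable_fst measurable_const))
  set F : ℝ × ℝ → ℝ≥0∞ :=
    {w : ℝ × ℝ | p < w.2 ∧ w.2 ≤ w.1 ∧ w.1 ≤ t}.indicator (Function.uncurry k) with hF
  have hl : ∀ r, (Ioc p t).indicator (fun r => ∫⁻ s in Ioc p r, k r s) r = ∫⁻ s, F (r, s) := by
    intro r
    by_cases hr : r ∈ Ioc p t
    · rw [indicator_of_mem hr, ← lintegral_indicator measurableSet_Ioc]
      refine lintegral_congr fun s => ?_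
      simp only [hF, indicator_apply, mem_Ioc, mem_ofPred_eq, hr.2, and_true, Function.uncurry]
    · rw [indicator_of_notMem hr, eq_comm, ← lintegral_zero]
      refine lintegral_congr fun s => ?_
      simp only [hF, indicator_apply, mem_ofPred_eq]
      exact if_neg fun h => hr ⟨h.1.trans_le h.2.1, h.2.2⟩
  rw [← lintegral_indicator measurableSet_Ioc, lintegral_congr hl,
    lintegral_lintegral_swap (f := fun r s => F (r, s)) (hk.indicator hset).aemeasurable,
    ← lintegral_indicator measurableSet_Ioc]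
  refine lintegral_congr_ae ?_
  filter_upwards with s
  by_cases hs : s ∈ Ioc p t
  · rw [indicator_of_mem hs, ← lintegral_indicator measurableSet_Ioc]
    refine lintegral_congr_ae ?_
    filter_upwards [Measure.ae_ne volume s] with r hr
    simp only [hF, indicator_apply, mem_Ioc, mem_ofPred_eq, hs.1, true_and, Function.uncurry]
    exact if_congr ⟨fun h => ⟨lt_of_le_of_ne h.1 (Ne.symm hr), h.2⟩,
      fun h => ⟨h.1.le, h.2⟩⟩ rfl rfl
  · rw [indicator_of_notMem hs, ← lintegral_zero]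
    refine lintegral_congr fun r => ?_
    simp only [hF, indicator_apply, mem_ofPred_eq]
    exact if_neg fun h => hs ⟨h.1, h.2.1.trans h.2.2⟩

lemma lintegral_two_mul_Ioc {p q : ℝ} (hp : 0 ≤ p) (hpq : p ≤ q) :
    ∫⁻ r in Ioc p q, ENNReal.ofReal (2 * r) = ENNReal.ofReal (q ^ 2 - p ^ 2) := by
  have hd : ∀ r ∈ uIcc p q, HasDerivAt (fun r : ℝ => r ^ 2) (2 * r) r := fun r _ => by
    simpa using hasDerivAt_pow 2 r
  have hc : Continuous fun r : ℝ => 2 * r := by fun_prop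
  rw [← ofReal_integral_eq_lintegral_ofReal hc.integrableOn_Ioc
      ((ae_restrict_iff' measurableSet_Ioc).2 (Eventually.of_forall fun r hr => by
        show (0 : ℝ) ≤ 2 * r; linarith [hr.1])),
    ← intervalIntegral.integral_of_le hpq,
    intervalIntegral.integral_eq_sub_of_hasDerivAt hd (hc.intervalIntegrable p q)]

/-- An integrated equation multiplied by `t²`. -/
lemma time_weight {X l ρ : ℝ → ℝ≥0∞} {P : ℝ≥0∞} {t : ℝ} (ht : 0 < t) (hXm : Measurable X)
    (hl : Measurable l) (hρ : Measurable ρ)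
    (h : ∀ r ∈ Ioc 0 t, X r + ∫⁻ s in Ioc 0 r, l s = P + ∫⁻ s in Ioc 0 r, ρ s)
    (hfin : ∫⁻ s in Ioc 0 t, l s ≠ ⊤) :
    ENNReal.ofReal (t ^ 2) * X t + ∫⁻ s in Ioc 0 t, ENNReal.ofReal (s ^ 2) * l s =
      (∫⁻ s in Ioc 0 t, ENNReal.ofReal (2 * s) * X s) +
        ∫⁻ s in Ioc 0 t, ENNReal.ofReal (s ^ 2) * ρ s := by
  have hsplit : ∀ φ : ℝ → ℝ≥0∞, Measurable φ → ENNReal.ofReal (t ^ 2) * ∫⁻ s in Ioc 0 t, φ s =
      (∫⁻ s in Ioc 0 t, ENNReal.ofReal (t ^ 2 - s ^ 2) * φ s) +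
        ∫⁻ s in Ioc 0 t, ENNReal.ofReal (s ^ 2) * φ s := by
    intro φ hφ
    rw [← lintegral_add_left (by fun_prop), ← lintegral_const_mul _ hφ]
    refine setLIntegral_congr_fun measurableSet_Ioc fun s hs => ?_
    rw [← add_mul, ← ENNReal.ofReal_add (by nlinarith [hs.1, hs.2]) (sq_nonneg s), sub_add_cancel]
  have htri : ∀ φ : ℝ → ℝ≥0∞, Measurable φ →
      ∫⁻ r in Ioc 0 t, ENNReal.ofReal (2 * r) * ∫⁻ s in Ioc 0 r, φ s =
        ∫⁻ s in Ioc 0 t, ENNReal.ofReal (t ^ 2 - s ^ 2) * φ s := by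
    intro φ hφ
    have e : ∀ r, ENNReal.ofReal (2 * r) * ∫⁻ s in Ioc 0 r, φ s =
        ∫⁻ s in Ioc 0 r, ENNReal.ofReal (2 * r) * φ s := fun r => (lintegral_const_mul _ hφ).symm
    simp_rw [e]
    rw [lintegral_triangle (k := fun r s => ENNReal.ofReal (2 * r) * φ s) (by fun_prop)]
    refine setLIntegral_congr_fun measurableSet_Ioc fun s hs => ?_
    rw [lintegral_mul_const _ (by fun_prop), lintegral_two_mul_Ioc hs.1.le hs.2]
  have hI : ∫⁻ s in Ioc 0 t, ENNReal.ofReal (t ^ 2 - s ^ 2) * l s ≠ ⊤ :=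
    ne_top_of_le_ne_top (ENNReal.mul_ne_top ENNReal.ofReal_ne_top hfin)
      (le_self_add.trans_eq (hsplit l hl).symm)
  have hii : ENNReal.ofReal (t ^ 2) * X t +
      ((∫⁻ s in Ioc 0 t, ENNReal.ofReal (t ^ 2 - s ^ 2) * l s) +
        ∫⁻ s in Ioc 0 t, ENNReal.ofReal (s ^ 2) * l s) =
      ENNReal.ofReal (t ^ 2) * P + ((∫⁻ s in Ioc 0 t, ENNReal.ofReal (t ^ 2 - s ^ 2) * ρ s) +
        ∫⁻ s in Ioc 0 t, ENNReal.ofReal (s ^ 2) * ρ s) := by
    rw [← hsplit l hl, ← hsplit ρ hρ, ← mul_add, ← mul_add, h t ⟨ht, le_rfl⟩]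
  have hi : (∫⁻ s in Ioc 0 t, ENNReal.ofReal (2 * s) * X s) +
      ∫⁻ s in Ioc 0 t, ENNReal.ofReal (t ^ 2 - s ^ 2) * l s =
      ENNReal.ofReal (t ^ 2) * P + ∫⁻ s in Ioc 0 t, ENNReal.ofReal (t ^ 2 - s ^ 2) * ρ s := by
    rw [← htri l hl, ← htri ρ hρ, ← lintegral_add_left (by fun_prop)]
    have e : ∀ r ∈ Ioc 0 t, ENNReal.ofReal (2 * r) * X r +
        ENNReal.ofReal (2 * r) * ∫⁻ s in Ioc 0 r, l s =
        ENNReal.ofReal (2 * r) * P + ENNReal.ofReal (2 * r) * ∫⁻ s in Ioc 0 r, ρ s :=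
      fun r hr => by rw [← mul_add, ← mul_add, h r hr]
    rw [setLIntegral_congr_fun measurableSet_Ioc e, lintegral_add_left (by fun_prop),
      lintegral_mul_const _ (by fun_prop), lintegral_two_mul_Ioc le_rfl ht.le]
    simp
  rw [← add_assoc, add_right_comm, ← add_assoc, ← hi] at hii
  refine (ENNReal.add_left_inj hI).1 ?_
  rw [hii]
  exact add_right_comm _ _ _

/-- The cubic moment of each iterate is finite on compact intervals. -/
lemma cub_iter_finite (D : Data m₀ E₀ f₀) (hA : 0 ≤ A) (hc : 0 ≤ c)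
    (hP : ∀ v w : V3, ∫ ω, |impact v (w, ω)| *
        (‖postV v (w, ω)‖ ^ 3 + ‖postW v (w, ω)‖ ^ 3 - ‖v‖ ^ 3 - ‖w‖ ^ 3) ∂surface
      ≤ A * (‖v‖ ^ 3 * ‖w‖ + ‖v‖ * ‖w‖ ^ 3) - c * (‖v‖ ^ 4 + ‖w‖ ^ 4)) :
    ∀ (n : ℕ) (T : ℝ), 0 ≤ T → ∃ K : ℝ≥0∞, K ≠ ⊤ ∧
      (∀ t ∈ Icc 0 T, ∫⁻ v, cub v * iter m₀ E₀ f₀ n t v ≤ K) ∧
      ∫⁻ s in Ioc 0 T, damped m₀ E₀ cub (iter m₀ E₀ f₀ n s) ≠ ⊤
  | 0, T, _ => ⟨0, ENNReal.zero_ne_top, fun t _ => by simp [iter],
      by simp [iter, damped]⟩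
  | n + 1, T, hT => by
    obtain ⟨K, hK, hKb, hA'⟩ := cub_iter_finite D hA hc hP n T hT
    have hdat : ∫⁻ v, cub v * cut f₀ n v ≤ n * ENNReal.ofReal E₀ := by
      rw [← D.energy_eq, energy, ← lintegral_const_mul' _ _ (ENNReal.natCast_ne_top n)]
      refine lintegral_mono fun v => ?_
      by_cases hv : ‖v‖ ≤ n
      · rw [cut, indicator_of_mem (show v ∈ {w : V3 | ‖w‖ ≤ n} from hv), ← mul_assoc]
        refine mul_le_mul' ?_ le_rfl
        rw [cub, hw, ← ENNReal.ofReal_natCast, ← ENNReal.ofReal_mul (Nat.cast_nonneg n)]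
        refine ENNReal.ofReal_le_ofReal ?_
        nlinarith [mul_le_mul_of_nonneg_right hv (sq_nonneg ‖v‖), norm_nonneg v]
      · rw [cut, indicator_of_notMem (show v ∉ {w : V3 | ‖w‖ ≤ n} from hv), mul_zero]
        exact zero_le
    have hstep : ∀ t ∈ Icc 0 T, ∫⁻ s in Ioc 0 t, ∫⁻ v, cub v * rhs2 (iter m₀ E₀ f₀ n s) v ≤
        (∫⁻ s in Ioc 0 T, damped m₀ E₀ cub (iter m₀ E₀ f₀ n s)) +
          ENNReal.ofReal (A * E₀) * K * volume (Ioc (0 : ℝ) T) := by
      intro t ht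
      rw [← setLIntegral_const, ← lintegral_add_right _ measurable_const]
      refine (setLIntegral_mono' measurableSet_Ioc fun s hs => ?_).trans
        (lintegral_mono_set (Ioc_subset_Ioc_right ht.2))
      refine le_self_add.trans ((cub_rate hA hc hP D.mass_nonneg D.energy_nonneg
        (measurable_iter_time D.measurable n s) (measurable_iter_time D.measurable n s) le_rfl
        (mass_iter_le D n hs.1.le) (energy_iter_le D n hs.1.le)).trans
          (add_le_add le_rfl (mul_le_mul' le_rfl (hKb s ⟨hs.1.le, hs.2.trans ht.2⟩))))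
    have hbd : ∀ t ∈ Icc 0 T, (∫⁻ v, cub v * iter m₀ E₀ f₀ (n + 1) t v) +
        ∫⁻ s in Ioc 0 t, damped m₀ E₀ cub (iter m₀ E₀ f₀ (n + 1) s) ≤
        n * ENNReal.ofReal E₀ + ((∫⁻ s in Ioc 0 T, damped m₀ E₀ cub (iter m₀ E₀ f₀ n s)) +
          ENNReal.ofReal (A * E₀) * K * volume (Ioc (0 : ℝ) T)) := fun t ht =>
      (iter_balance D measurable_cub n ht.1).trans_le (add_le_add hdat (hstep t ht))
    have hfin := ENNReal.add_ne_top.2 ⟨ENNReal.mul_ne_top (ENNReal.natCast_ne_top n)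
      (ENNReal.ofReal_ne_top (r := E₀)), ENNReal.add_ne_top.2 ⟨hA', ENNReal.mul_ne_top
        (ENNReal.mul_ne_top (ENNReal.ofReal_ne_top (r := A * E₀)) hK)
        (measure_Ioc_lt_top (μ := volume) (a := (0 : ℝ)) (b := T)).ne⟩⟩
    exact ⟨_, hfin, fun t ht => le_self_add.trans (hbd t ht),
      ne_top_of_le_ne_top hfin (le_add_self.trans (hbd T ⟨hT, le_rfl⟩))⟩

/-- Production of the third moment. -/
lemma cub_lim_le (D : Data m₀ E₀ f₀) (hm₀ : 0 < m₀) (hA : 0 ≤ A) (hc : 0 < c)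
    (hP : ∀ v w : V3, ∫ ω, |impact v (w, ω)| *
        (‖postV v (w, ω)‖ ^ 3 + ‖postW v (w, ω)‖ ^ 3 - ‖v‖ ^ 3 - ‖w‖ ^ 3) ∂surface
      ≤ A * (‖v‖ ^ 3 * ‖w‖ + ‖v‖ * ‖w‖ ^ 3) - c * (‖v‖ ^ 4 + ‖w‖ ^ 4))
    {T t : ℝ} (ht : t ∈ Ioc 0 T) :
    ∫⁻ v, cub v * lim m₀ E₀ f₀ t v ≤ ENNReal.ofReal
      (E₀ * (2 + A * E₀ * T) ^ 2 / (4 * (min (surface univ).toReal c * m₀)) / t) := by
  set α := A * E₀
  set β := min (surface univ).toReal c * m₀
  have hα : 0 ≤ α := mul_nonneg hA D.energy_nonneg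
  have hβ : 0 < β := mul_pos (lt_min surface_pos hc) hm₀
  set Cp := (2 + α * T) ^ 2 / (4 * β) with hCp
  have hCp0 : 0 ≤ Cp := by positivity
  simp only [lim, ENNReal.mul_iSup]
  rw [lintegral_iSup (f := fun n v => cub v * iter m₀ E₀ f₀ n t v)
    (fun n => measurable_cub.mul (measurable_iter_time D.measurable n t))
    (fun i j hij v => mul_le_mul' le_rfl (iter_mono t hij v))]
  refine iSup_le fun n => ?_
  rcases n with _ | n
  · simp [iter]
  obtain ⟨-, -, -, hA'⟩ := cub_iter_finite D hA hc.le hP (n + 1) t ht.1.le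
  set U := iter m₀ E₀ f₀ (n + 1)
  have hU : Measurable (Function.uncurry U) := measurable_iter D.measurable (n + 1)
  have hXm : Measurable fun s => ∫⁻ v, cub v * U s v := measurable_moment_time measurable_cub hU
  have hYm : Measurable fun s => ∫⁻ v, quart v * U s v :=
    measurable_moment_time measurable_quart hU
  have hlm : Measurable fun s => damped m₀ E₀ cub (U s) := measurable_damped measurable_cub hU
  have hρm : Measurable fun s => ∫⁻ v, cub v * rhs2 (iter m₀ E₀ f₀ n s) v :=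
    measurable_moment_time measurable_cub
      (U := fun s v => rhs2 (iter m₀ E₀ f₀ n s) v)
      (measurable_rhs2_time (measurable_iter D.measurable n))
  have htw := time_weight ht.1 hXm hlm hρm
    (fun r hr => iter_balance D measurable_cub n hr.1.le) hA'
  have hlfin : ∫⁻ s in Ioc 0 t, ENNReal.ofReal (s ^ 2) * damped m₀ E₀ cub (U s) ≠ ⊤ := by
    refine ne_top_of_le_ne_top (ENNReal.mul_ne_top (ENNReal.ofReal_ne_top (r := t ^ 2)) hA') ?_
    rw [← lintegral_const_mul _ hlm]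
    exact setLIntegral_mono' measurableSet_Ioc fun s hs =>
      mul_le_mul' (ENNReal.ofReal_le_ofReal (pow_le_pow_left₀ hs.1.le hs.2 2)) le_rfl
  have hY : ∀ s, ENNReal.ofReal β * ∫⁻ v, quart v * U s v ≤ damped m₀ E₀ cub (U s) := fun s => by
    rw [← lintegral_const_mul' _ _ ENNReal.ofReal_ne_top, damped]
    refine lintegral_mono fun v => ?_
    rw [← mul_assoc, ← mul_assoc]
    refine mul_le_mul' ?_ le_rfl
    rw [quart, cub, ← ENNReal.ofReal_mul hβ.le, ← ENNReal.ofReal_mul (by positivity)]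
    refine ENNReal.ofReal_le_ofReal ?_
    have h1 : β ≤ (surface univ).toReal * m₀ :=
      mul_le_mul_of_nonneg_right (min_le_left _ _) hm₀.le
    calc β * ‖v‖ ^ 4 ≤ (surface univ).toReal * m₀ * ‖v‖ ^ 4 :=
          mul_le_mul_of_nonneg_right h1 (by positivity)
      _ = ‖v‖ ^ 3 * ((surface univ).toReal * (‖v‖ * m₀)) := by ring
      _ ≤ ‖v‖ ^ 3 * damp m₀ E₀ v := by
          refine mul_le_mul_of_nonneg_left (mul_le_mul_of_nonneg_left ?_ ENNReal.toReal_nonneg)
            (by positivity)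
          nlinarith [D.energy_nonneg]
  have hYfin : ∫⁻ s in Ioc 0 t, ENNReal.ofReal (s ^ 2) *
      (ENNReal.ofReal β * ∫⁻ v, quart v * U s v) ≠ ⊤ :=
    ne_top_of_le_ne_top hlfin (lintegral_mono fun s => mul_le_mul' le_rfl (hY s))
  have hρ : (∫⁻ s in Ioc 0 t, ENNReal.ofReal (s ^ 2) * ∫⁻ v, cub v * rhs2 (iter m₀ E₀ f₀ n s) v) +
      ∫⁻ s in Ioc 0 t, ENNReal.ofReal (s ^ 2) * (ENNReal.ofReal β * ∫⁻ v, quart v * U s v) ≤
      (∫⁻ s in Ioc 0 t, ENNReal.ofReal (s ^ 2) * damped m₀ E₀ cub (U s)) +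
      ∫⁻ s in Ioc 0 t, ENNReal.ofReal (s ^ 2) * (ENNReal.ofReal α * ∫⁻ v, cub v * U s v) := by
    rw [← lintegral_add_left (by fun_prop), ← lintegral_add_left (by fun_prop)]
    refine setLIntegral_mono' measurableSet_Ioc fun s hs => ?_
    rw [← mul_add, ← mul_add]
    exact mul_le_mul' le_rfl (cub_rate hA hc.le hP D.mass_nonneg D.energy_nonneg
      (measurable_iter_time D.measurable n s) (measurable_iter_time D.measurable (n + 1) s)
      (fun v => iter_le_succ n s v) (mass_iter_le D n hs.1.le) (energy_iter_le D n hs.1.le))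
  have hmain : ENNReal.ofReal (t ^ 2) * (∫⁻ v, cub v * U t v) +
      ∫⁻ s in Ioc 0 t, ENNReal.ofReal (s ^ 2) * (ENNReal.ofReal β * ∫⁻ v, quart v * U s v) ≤
      (∫⁻ s in Ioc 0 t, ENNReal.ofReal (2 * s) * ∫⁻ v, cub v * U s v) +
      ∫⁻ s in Ioc 0 t, ENNReal.ofReal (s ^ 2) * (ENNReal.ofReal α * ∫⁻ v, cub v * U s v) := by
    refine ENNReal.le_of_add_le_add_right hlfin ?_
    rw [add_right_comm, htw, add_assoc, add_assoc]
    exact add_le_add le_rfl (hρ.trans_eq (add_comm _ _))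
  have hsum : (∫⁻ s in Ioc 0 t, ENNReal.ofReal (2 * s) * ∫⁻ v, cub v * U s v) +
      ∫⁻ s in Ioc 0 t, ENNReal.ofReal (s ^ 2) * (ENNReal.ofReal α * ∫⁻ v, cub v * U s v) ≤
      (∫⁻ s in Ioc 0 t, ENNReal.ofReal (s ^ 2) * (ENNReal.ofReal β * ∫⁻ v, quart v * U s v)) +
        ENNReal.ofReal Cp * ENNReal.ofReal E₀ * volume (Ioc (0 : ℝ) t) := by
    rw [← setLIntegral_const, ← lintegral_add_left (by fun_prop),
      ← lintegral_add_right _ measurable_const]
    refine setLIntegral_mono' measurableSet_Ioc fun s hs => ?_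
    have hUs : Measurable (U s) := measurable_iter_time D.measurable (n + 1) s
    have hs2 : 0 ≤ 2 * s := by linarith [hs.1]
    have e1 : ENNReal.ofReal (2 * s) * (∫⁻ v, cub v * U s v) +
        ENNReal.ofReal (s ^ 2) * (ENNReal.ofReal α * ∫⁻ v, cub v * U s v) =
        ∫⁻ v, ENNReal.ofReal (2 * s + s ^ 2 * α) * (cub v * U s v) := by
      rw [lintegral_const_mul _ (by fun_prop), ← mul_assoc, ← ENNReal.ofReal_mul (sq_nonneg s),
        ← add_mul, ← ENNReal.ofReal_add hs2 (by positivity)]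
    have e2 : ∫⁻ v, (ENNReal.ofReal (s ^ 2 * β) * (quart v * U s v) +
          ENNReal.ofReal Cp * (hw v * U s v)) ≤
        ENNReal.ofReal (s ^ 2) * (ENNReal.ofReal β * ∫⁻ v, quart v * U s v) +
          ENNReal.ofReal Cp * ENNReal.ofReal E₀ := by
      rw [lintegral_add_left (by fun_prop), lintegral_const_mul _ (by fun_prop),
        lintegral_const_mul _ (by fun_prop), ENNReal.ofReal_mul (sq_nonneg s), mul_assoc]
      exact add_le_add le_rfl (mul_le_mul' le_rfl (energy_iter_le D (n + 1) hs.1.le))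
    refine e1.trans_le (le_trans (lintegral_mono fun v => ?_) e2)
    suffices h : ENNReal.ofReal (2 * s + s ^ 2 * α) * cub v ≤
        ENNReal.ofReal (s ^ 2 * β) * quart v + ENNReal.ofReal Cp * hw v by
      calc _ = ENNReal.ofReal (2 * s + s ^ 2 * α) * cub v * U s v := (mul_assoc _ _ _).symm
        _ ≤ _ := mul_le_mul' h le_rfl
        _ = _ := by ring
    rw [cub, quart, hw, ← ENNReal.ofReal_mul (by positivity), ← ENNReal.ofReal_mul (by positivity),
      ← ENNReal.ofReal_mul hCp0, ← ENNReal.ofReal_add (by positivity) (by positivity)]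
    refine ENNReal.ofReal_le_ofReal ?_
    have h1 : (2 + α * s) ^ 2 ≤ Cp * (4 * β) := by
      rw [hCp, div_mul_cancel₀ _ (by positivity)]
      have := mul_le_mul_of_nonneg_left (hs.2.trans ht.2) hα
      exact pow_le_pow_left₀ (by have := mul_nonneg hα hs.1.le; linarith) (by linarith) 2
    nlinarith [mul_le_mul_of_nonneg_right h1 (sq_nonneg ‖v‖), hβ,
      sq_nonneg (2 * β * s * ‖v‖ ^ 2 - (2 + α * s) * ‖v‖), mul_nonneg hCp0 hβ.le]
  have hfinal : ENNReal.ofReal (t ^ 2) * (∫⁻ v, cub v * U t v) ≤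
      ENNReal.ofReal Cp * ENNReal.ofReal E₀ * volume (Ioc (0 : ℝ) t) :=
    ENNReal.le_of_add_le_add_right hYfin ((hmain.trans hsum).trans_eq (add_comm _ _))
  rw [volume_Ioc, sub_zero, ← ENNReal.ofReal_mul hCp0,
    ← ENNReal.ofReal_mul (mul_nonneg hCp0 D.energy_nonneg), mul_comm,
    ← ENNReal.le_div_iff_mul_le (Or.inl (by simp [ht.1.ne'])) (Or.inl ENNReal.ofReal_ne_top),
    ← ENNReal.ofReal_div_of_pos (pow_pos ht.1 2)] at hfinal
  refine hfinal.trans_eq ?_
  congr 1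
  rw [hCp]
  field_simp [ht.1.ne']

end Vale.Agent.P140.Renorm.Hom2
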