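import Vale.Agent.P140.Renorm.Homogeneous3

/-!
# The monotone scheme for x-independent data of finite energy

The damping `|S²| ((1 + |v|) m₀ + E₀)` dominates the collision frequency of every profile of mass
at most `m₀` and energy at most `E₀`. The `n`-th iterate uses the datum cut off to `|v| ≤ n`, so
all its moments that enter the estimates are finite, and the iterates still increase.
-/

open MeasureTheory Real Set Filter
open scoped RealInnerProductSpace ENNReal Topology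

namespace Vale.Agent.P140.Renorm.Hom2

open Vale.Agent.P140 Vale.Agent.P140.Renorm.Hom3

/-- `1 + |v|`. -/
noncomputable def hone (v : V3) : ℝ≥0∞ := ENNReal.ofReal (1 + ‖v‖)

/-- `|v|⁴`. -/
noncomputable def quart (v : V3) : ℝ≥0∞ := ENNReal.ofReal (‖v‖ ^ 4)

/-- `|S²| ((1 + |v|) m₀ + E₀)`. -/
noncomputable def damp (m₀ E₀ : ℝ) (v : V3) : ℝ :=
  (surface univ).toReal * ((1 + ‖v‖) * m₀ + E₀)

/-- `|S²| ((1 + |v|) m(u) + E(u)) - L(u)(v)`. -/
noncomputable def resid2 (u : V3 → ℝ≥0∞) (v : V3) : ℝ≥0∞ :=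
  ∫⁻ p : V3 × S2, ENNReal.ofReal (1 + ‖v‖ + (1 + ‖p.1‖ ^ 2) - |impact v p|) * u p.1
    ∂((volume : Measure V3).prod surface)

/-- The right side `Q⁺(u,u) + u R(u)` of the scheme. -/
noncomputable def rhs2 (u : V3 → ℝ≥0∞) (v : V3) : ℝ≥0∞ := gain u u v + u v * resid2 u v

@[fun_prop]
lemma measurable_hone : Measurable hone := by unfold hone; fun_prop

@[fun_prop]
lemma measurable_quart : Measurable quart := by unfold quart; fun_prop

@[fun_prop]
lemma measurable_damp (m₀ E₀ : ℝ) : Measurable (damp m₀ E₀) := by unfold damp; fun_prop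

lemma damp_nonneg {m₀ E₀ : ℝ} (hm : 0 ≤ m₀) (hE : 0 ≤ E₀) (v : V3) : 0 ≤ damp m₀ E₀ v :=
  mul_nonneg ENNReal.toReal_nonneg (add_nonneg (mul_nonneg (by positivity) hm) hE)

lemma ofReal_damp {m₀ E₀ : ℝ} (hm : 0 ≤ m₀) (hE : 0 ≤ E₀) (v : V3) :
    ENNReal.ofReal (damp m₀ E₀ v) =
      surface univ * (hone v * ENNReal.ofReal m₀ + ENNReal.ofReal E₀) := by
  rw [damp, ENNReal.ofReal_mul ENNReal.toReal_nonneg, ENNReal.ofReal_toReal (measure_ne_top _ _),
    ENNReal.ofReal_add (mul_nonneg (by positivity) hm) hE, ENNReal.ofReal_mul (by positivity), hone]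

lemma abs_impact_le_split (v : V3) (p : V3 × S2) :
    |impact v p| ≤ 1 + ‖v‖ + (1 + ‖p.1‖ ^ 2) := by
  calc |impact v p| ≤ ‖v - p.1‖ * ‖(p.2 : V3)‖ := abs_real_inner_le_norm _ _
    _ ≤ ‖v‖ + ‖p.1‖ := by rw [norm_omega, mul_one]; exact norm_sub_le _ _
    _ ≤ _ := by nlinarith [sq_nonneg (‖p.1‖ - 1)]

@[fun_prop]
lemma measurable_resid2 {u : V3 → ℝ≥0∞} (hu : Measurable u) : Measurable (resid2 u) :=
  Measurable.lintegral_prod_right' (f := fun q : V3 × V3 × S2 =>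
    ENNReal.ofReal (1 + ‖q.1‖ + (1 + ‖q.2.1‖ ^ 2) - |impact q.1 q.2|) * u q.2.1) (by fun_prop)

lemma resid2_add_lossRate {u : V3 → ℝ≥0∞} (hu : Measurable u) (v : V3) :
    resid2 u v + lossRate u v = surface univ * (hone v * (∫⁻ w, u w) + energy u) := by
  rw [resid2, lossRate, ← lintegral_add_left (by fun_prop)]
  have h : ∀ p : V3 × S2,
      ENNReal.ofReal (1 + ‖v‖ + (1 + ‖p.1‖ ^ 2) - |impact v p|) * u p.1 +
        ENNReal.ofReal |impact v p| * u p.1 = hone v * u p.1 + hw p.1 * u p.1 := fun p => by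
    rw [← add_mul, ← add_mul, ← ENNReal.ofReal_add (sub_nonneg.2 (abs_impact_le_split v p))
      (abs_nonneg _), sub_add_cancel, hone, hw, ← ENNReal.ofReal_add (by positivity) (by positivity)]
  rw [lintegral_congr h, lintegral_prod _ (by fun_prop)]
  simp only [lintegral_const]
  rw [lintegral_mul_const _ (by fun_prop), lintegral_add_left (by fun_prop),
    lintegral_const_mul _ hu, energy]
  ring

lemma resid2_mono {u u' : V3 → ℝ≥0∞} (h : u ≤ u') (v : V3) : resid2 u v ≤ resid2 u' v :=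
  lintegral_mono fun _ => mul_le_mul' le_rfl (h _)

lemma rhs2_mono {u u' : V3 → ℝ≥0∞} (h : u ≤ u') (v : V3) : rhs2 u v ≤ rhs2 u' v :=
  add_le_add (gain_mono h h v) (mul_le_mul' (h v) (resid2_mono h v))

lemma rhs2_iSup {u : ℕ → V3 → ℝ≥0∞} (hu : ∀ n, Measurable (u n)) (hmono : Monotone u) (v : V3) :
    rhs2 (fun w => ⨆ n, u n w) v = ⨆ n, rhs2 (u n) v := by
  have hm : ∀ w, Monotone fun n => u n w := fun w i j hij => hmono hij w
  have hg : gain (fun w => ⨆ n, u n w) (fun w => ⨆ n, u n w) v = ⨆ n, gain (u n) (u n) v := by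
    simp only [gain]
    refine Eq.trans (lintegral_congr fun p => ?_) (lintegral_iSup (f := fun n p =>
      ENNReal.ofReal |impact v p| * u n (postV v p) * u n (postW v p))
      (fun n => by have := hu n; fun_prop) (fun i j hij p =>
        mul_le_mul' (mul_le_mul' le_rfl (hmono hij _)) (hmono hij _)))
    rw [mul_assoc, iSup_mul_iSup_of_monotone (hm _) (hm _), ENNReal.mul_iSup]
    simp only [mul_assoc]
  have hr : resid2 (fun w => ⨆ n, u n w) v = ⨆ n, resid2 (u n) v := by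
    simp only [resid2]
    refine Eq.trans (lintegral_congr fun p => ENNReal.mul_iSup ..) (lintegral_iSup
      (f := fun n (p : V3 × S2) =>
        ENNReal.ofReal (1 + ‖v‖ + (1 + ‖p.1‖ ^ 2) - |impact v p|) * u n p.1)
      (fun n => by have := hu n; fun_prop) (fun i j hij p => mul_le_mul' le_rfl (hmono hij _)))
  simp only [rhs2]
  rw [hg, hr, iSup_mul_iSup_of_monotone (hm v) (fun i j hij => resid2_mono (hmono hij) v),
    ENNReal.iSup_add_iSup_of_monotone (fun i j hij => gain_mono (hmono hij) (hmono hij) v)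
      (fun i j hij => mul_le_mul' (hmono hij v) (resid2_mono (hmono hij) v))]

lemma measurable_rhs2_time {U : ℝ → V3 → ℝ≥0∞} (hU : Measurable (Function.uncurry U)) :
    Measurable (Function.uncurry fun s v => rhs2 (U s) v) := by
  have h2 : Measurable fun w : ℝ × V3 => resid2 (U w.1) w.2 :=
    Measurable.lintegral_prod_right' (f := fun q : (ℝ × V3) × (V3 × S2) =>
      ENNReal.ofReal (1 + ‖q.1.2‖ + (1 + ‖q.2.1‖ ^ 2) - |impact q.1.2 q.2|) *
        Function.uncurry U (q.1.1, q.2.1)) (by fun_prop)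
  exact (measurable_gain_time hU).add (hU.mul h2)

lemma lintegral_weight_damp {ω u : V3 → ℝ≥0∞} (hω : Measurable ω) (hu : Measurable u) {m₀ E₀ : ℝ}
    (hm : 0 ≤ m₀) (hE : 0 ≤ E₀) :
    ∫⁻ v, ω v * (ENNReal.ofReal (damp m₀ E₀ v) * u v) =
      surface univ * (ENNReal.ofReal m₀ * (∫⁻ v, ω v * (hone v * u v)) +
        ENNReal.ofReal E₀ * ∫⁻ v, ω v * u v) := by
  rw [← lintegral_const_mul _ (by fun_prop), ← lintegral_const_mul _ (by fun_prop),
    ← lintegral_add_left (by fun_prop), ← lintegral_const_mul _ (by fun_prop)]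
  refine lintegral_congr fun v => ?_
  rw [ofReal_damp hm hE]; ring

lemma lintegral_weight_rhs2 {ω u : V3 → ℝ≥0∞} (hω : Measurable ω) (hu : Measurable u)
    (hinv : ∫⁻ v, ω v * gain u u v = ∫⁻ v, ω v * (u v * lossRate u v)) :
    ∫⁻ v, ω v * rhs2 u v = surface univ * ((∫⁻ w, u w) * (∫⁻ v, ω v * (hone v * u v)) +
      energy u * ∫⁻ v, ω v * u v) := by
  rw [← lintegral_const_mul _ (by fun_prop), ← lintegral_const_mul _ (by fun_prop),
    ← lintegral_add_left (by fun_prop), ← lintegral_const_mul _ (by fun_prop)]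
  simp only [rhs2, mul_add]
  rw [lintegral_add_left (by fun_prop), hinv, ← lintegral_add_left (by fun_prop)]
  refine lintegral_congr fun v => ?_
  rw [← mul_add, ← mul_add, add_comm (lossRate u v), resid2_add_lossRate hu]
  ring

/-- A weight preserved by collisions is increased less by the scheme than it is damped. -/
lemma lintegral_weight_rhs2_le {ω u u' : V3 → ℝ≥0∞} (hω : Measurable ω) (hu : Measurable u)
    (hu' : Measurable u') (huu' : u ≤ u')
    (hinv : ∫⁻ v, ω v * gain u u v = ∫⁻ v, ω v * (u v * lossRate u v)) {m₀ E₀ : ℝ}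
    (hm : 0 ≤ m₀) (hE : 0 ≤ E₀) (hum : ∫⁻ w, u w ≤ ENNReal.ofReal m₀)
    (huE : energy u ≤ ENNReal.ofReal E₀) :
    ∫⁻ v, ω v * rhs2 u v ≤ ∫⁻ v, ω v * (ENNReal.ofReal (damp m₀ E₀ v) * u' v) := by
  rw [lintegral_weight_rhs2 hω hu hinv, lintegral_weight_damp hω hu' hm hE]
  exact mul_le_mul' le_rfl (add_le_add
    (mul_le_mul' hum (lintegral_mono fun v => mul_le_mul' le_rfl (mul_le_mul' le_rfl (huu' v))))
    (mul_le_mul' huE (lintegral_mono fun v => mul_le_mul' le_rfl (huu' v))))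

/-! ### The iteration -/

/-- The datum cut off to `|v| ≤ n`. -/
noncomputable def cut (f₀ : V3 → ℝ) (n : ℕ) : V3 → ℝ≥0∞ :=
  {w : V3 | ‖w‖ ≤ n}.indicator fun w => ENNReal.ofReal (f₀ w)

/-- `u₀ = 0`, `uₙ₊₁(t) = e^{-λ t} f₀ 1_{|v|≤n} + ∫₀ᵗ e^{-λ (t-s)} (Q⁺ + u R)(uₙ(s)) ds`. -/
noncomputable def iter (m₀ E₀ : ℝ) (f₀ : V3 → ℝ) : ℕ → ℝ → V3 → ℝ≥0∞
  | 0 => fun _ _ => 0
  | n + 1 => fun t v => ENNReal.ofReal (exp (-(damp m₀ E₀ v) * t)) * cut f₀ n v +
      ∫⁻ s in Ioc 0 t,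
        ENNReal.ofReal (exp (-(damp m₀ E₀ v) * (t - s))) * rhs2 (iter m₀ E₀ f₀ n s) v

/-- The limit of the iteration. -/
noncomputable def lim (m₀ E₀ : ℝ) (f₀ : V3 → ℝ) (t : ℝ) (v : V3) : ℝ≥0∞ :=
  ⨆ n, iter m₀ E₀ f₀ n t v

/-- The data of the iteration: `m₀` is the mass and `E₀` the energy of `f₀`. -/
structure Data (m₀ E₀ : ℝ) (f₀ : V3 → ℝ) : Prop where
  measurable : Measurable f₀
  mass_nonneg : 0 ≤ m₀
  energy_nonneg : 0 ≤ E₀
  mass_eq : ∫⁻ v, ENNReal.ofReal (f₀ v) = ENNReal.ofReal m₀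
  energy_eq : energy (fun v => ENNReal.ofReal (f₀ v)) = ENNReal.ofReal E₀

variable {m₀ E₀ : ℝ} {f₀ : V3 → ℝ}

lemma measurable_cut (hf : Measurable f₀) (n : ℕ) : Measurable (cut f₀ n) :=
  hf.ennreal_ofReal.indicator (measurableSet_le measurable_norm measurable_const)

lemma cut_le (n : ℕ) (v : V3) : cut f₀ n v ≤ ENNReal.ofReal (f₀ v) :=
  indicator_le_self _ _ v

lemma cut_mono (v : V3) : Monotone fun n => cut f₀ n v := fun i j hij => by
  refine indicator_le_indicator_of_subset (fun w hw => ?_) (fun _ => zero_le) v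
  simp only [mem_ofPred_eq] at hw ⊢
  exact le_trans hw (Nat.cast_le.2 hij)

lemma iSup_cut (v : V3) : ⨆ n, cut f₀ n v = ENNReal.ofReal (f₀ v) := by
  refine le_antisymm (iSup_le fun n => cut_le n v) ?_
  obtain ⟨n, hn⟩ := exists_nat_ge ‖v‖
  exact le_iSup_of_le n (by rw [cut, indicator_of_mem (show v ∈ {w : V3 | ‖w‖ ≤ n} from hn)])

lemma measurable_iter (hf : Measurable f₀) :
    ∀ n, Measurable (Function.uncurry (iter m₀ E₀ f₀ n))
  | 0 => measurable_const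
  | n + 1 => by
    have hc := measurable_cut hf n
    simp only [iter]
    refine Measurable.add (f := fun w : ℝ × V3 =>
      ENNReal.ofReal (exp (-(damp m₀ E₀ w.2) * w.1)) * cut f₀ n w.2) (by fun_prop) ?_
    simp only [← lintegral_indicator measurableSet_Ioc]
    refine Measurable.lintegral_prod_right' (f := fun q : (ℝ × V3) × ℝ =>
      (Ioc 0 q.1.1).indicator (fun s => ENNReal.ofReal (exp (-(damp m₀ E₀ q.1.2) * (q.1.1 - s))) *
        rhs2 (iter m₀ E₀ f₀ n s) q.1.2) q.2) ?_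
    have hs : MeasurableSet {q : (ℝ × V3) × ℝ | 0 < q.2 ∧ q.2 ≤ q.1.1} :=
      (measurableSet_lt measurable_const measurable_snd).inter
        (measurableSet_le measurable_snd (by fun_prop))
    exact Measurable.ite hs (Measurable.mul (by fun_prop)
      ((measurable_rhs2_time (measurable_iter hf n)).comp
        (f := fun q : (ℝ × V3) × ℝ => (q.2, q.1.2)) (by fun_prop))) measurable_const

lemma measurable_iter_time (hf : Measurable f₀) (n : ℕ) (t : ℝ) :
    Measurable (iter m₀ E₀ f₀ n t) :=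
  (measurable_iter hf n).comp measurable_prodMk_left

lemma measurable_lim (hf : Measurable f₀) : Measurable (Function.uncurry (lim m₀ E₀ f₀)) :=
  Measurable.iSup fun n => measurable_iter hf n

lemma measurable_lim_time (hf : Measurable f₀) (t : ℝ) : Measurable (lim m₀ E₀ f₀ t) :=
  (measurable_lim hf).comp measurable_prodMk_left

lemma iter_le_succ : ∀ n t v, iter m₀ E₀ f₀ n t v ≤ iter m₀ E₀ f₀ (n + 1) t v
  | 0, _, _ => zero_le
  | n + 1, t, v => by
    simp only [iter]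
    exact add_le_add (mul_le_mul' le_rfl (cut_mono v (Nat.le_succ n)))
      (lintegral_mono fun s => mul_le_mul' le_rfl (rhs2_mono (fun w => iter_le_succ n s w) v))

lemma iter_mono (t : ℝ) : Monotone fun n => iter m₀ E₀ f₀ n t :=
  monotone_nat_of_le_succ fun n v => iter_le_succ n t v

/-- The scheme in integrated form. -/
lemma iter_equation (D : Data m₀ E₀ f₀) (n : ℕ) (v : V3) {t : ℝ} (ht : 0 ≤ t) :
    iter m₀ E₀ f₀ (n + 1) t v +
        ∫⁻ s in Ioc 0 t, ENNReal.ofReal (damp m₀ E₀ v) * iter m₀ E₀ f₀ (n + 1) s v =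
      cut f₀ n v + ∫⁻ s in Ioc 0 t, rhs2 (iter m₀ E₀ f₀ n s) v := by
  have hG : Measurable fun s => rhs2 (iter m₀ E₀ f₀ n s) v :=
    measurable_section (U := fun s v => rhs2 (iter m₀ E₀ f₀ n s) v)
      (measurable_rhs2_time (measurable_iter D.measurable n)) v
  have h := duhamel_identity (damp_nonneg D.mass_nonneg D.energy_nonneg v) ht (cut f₀ n v)
    (G := fun s => rhs2 (iter m₀ E₀ f₀ n s) v) hG
  rw [iter]
  exact h

/-- The damped part of a weighted moment. -/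
noncomputable def damped (m₀ E₀ : ℝ) (ω u : V3 → ℝ≥0∞) : ℝ≥0∞ :=
  ∫⁻ v, ω v * (ENNReal.ofReal (damp m₀ E₀ v) * u v)

lemma damped_mono {ω u u' : V3 → ℝ≥0∞} (h : u ≤ u') : damped m₀ E₀ ω u ≤ damped m₀ E₀ ω u' :=
  lintegral_mono fun v => mul_le_mul' le_rfl (mul_le_mul' le_rfl (h v))

lemma measurable_damped {ω : V3 → ℝ≥0∞} (hω : Measurable ω) {U : ℝ → V3 → ℝ≥0∞}
    (hU : Measurable (Function.uncurry U)) : Measurable fun s => damped m₀ E₀ ω (U s) :=
  Measurable.lintegral_prod_right' (f := fun q : ℝ × V3 =>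
    ω q.2 * (ENNReal.ofReal (damp m₀ E₀ q.2) * Function.uncurry U q)) (by fun_prop)

lemma measurable_moment_time {ω : V3 → ℝ≥0∞} (hω : Measurable ω) {U : ℝ → V3 → ℝ≥0∞}
    (hU : Measurable (Function.uncurry U)) : Measurable fun s => ∫⁻ v, ω v * U s v :=
  Measurable.lintegral_prod_right' (f := fun q : ℝ × V3 => ω q.2 * Function.uncurry U q)
    (by fun_prop)

/-- A weighted moment of the scheme. -/
lemma iter_balance (D : Data m₀ E₀ f₀) {ω : V3 → ℝ≥0∞} (hω : Measurable ω) (n : ℕ) {t : ℝ}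
    (ht : 0 ≤ t) :
    (∫⁻ v, ω v * iter m₀ E₀ f₀ (n + 1) t v) +
        ∫⁻ s in Ioc 0 t, damped m₀ E₀ ω (iter m₀ E₀ f₀ (n + 1) s) =
      (∫⁻ v, ω v * cut f₀ n v) + ∫⁻ s in Ioc 0 t, ∫⁻ v, ω v * rhs2 (iter m₀ E₀ f₀ n s) v := by
  have hX : Measurable (Function.uncurry fun s v =>
      ENNReal.ofReal (damp m₀ E₀ v) * iter m₀ E₀ f₀ (n + 1) s v) :=
    (ENNReal.measurable_ofReal.comp ((measurable_damp m₀ E₀).comp measurable_snd)).mul
      (measurable_iter D.measurable (n + 1))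
  have hR := measurable_rhs2_time (measurable_iter (m₀ := m₀) (E₀ := E₀) D.measurable n)
  simp only [damped]
  rw [lintegral_time_swap hω hX, lintegral_time_swap hω hR,
    ← lintegral_add_left (hω.fun_mul (measurable_iter_time D.measurable (n + 1) t)),
    ← lintegral_add_left (hω.fun_mul (measurable_cut D.measurable n))]
  refine lintegral_congr fun v => ?_
  rw [← mul_add, ← mul_add, iter_equation D n v ht]

/-- One step of the bound of a collision invariant. -/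
lemma invariant_step (D : Data m₀ E₀ f₀) {ω : V3 → ℝ≥0∞} (hω : Measurable ω) (n : ℕ) {t : ℝ}
    (ht : 0 ≤ t) {B : ℝ≥0∞} (hB : B ≠ ⊤) (hdat : ∫⁻ v, ω v * ENNReal.ofReal (f₀ v) ≤ B)
    (hinv : ∀ f : V3 → ℝ≥0∞, Measurable f →
      ∫⁻ v, ω v * gain f f v = ∫⁻ v, ω v * (f v * lossRate f v))
    (hum : ∀ s ∈ Ioc 0 t, ∫⁻ w, iter m₀ E₀ f₀ n s w ≤ ENNReal.ofReal m₀)
    (huE : ∀ s ∈ Ioc 0 t, energy (iter m₀ E₀ f₀ n s) ≤ ENNReal.ofReal E₀)
    (hA : ∫⁻ s in Ioc 0 t, damped m₀ E₀ ω (iter m₀ E₀ f₀ n s) ≠ ⊤) :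
    ∫⁻ v, ω v * iter m₀ E₀ f₀ (n + 1) t v ≤ B ∧
      ∫⁻ s in Ioc 0 t, damped m₀ E₀ ω (iter m₀ E₀ f₀ (n + 1) s) ≠ ⊤ := by
  have hb := iter_balance D hω n ht
  have hu := fun s => measurable_iter_time (m₀ := m₀) (E₀ := E₀) D.measurable n s
  have hstep : ∀ u' : ℝ → V3 → ℝ≥0∞, (∀ s, Measurable (u' s)) →
      (∀ s, iter m₀ E₀ f₀ n s ≤ u' s) →
      ∫⁻ s in Ioc 0 t, ∫⁻ v, ω v * rhs2 (iter m₀ E₀ f₀ n s) v ≤
        ∫⁻ s in Ioc 0 t, damped m₀ E₀ ω (u' s) := fun u' hm hle =>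
    setLIntegral_mono' measurableSet_Ioc fun s hs => lintegral_weight_rhs2_le hω (hu s) (hm s)
      (hle s) (hinv _ (hu s)) D.mass_nonneg D.energy_nonneg (hum s hs) (huE s hs)
  have hdat' : ∫⁻ v, ω v * cut f₀ n v ≤ B :=
    (lintegral_mono fun v => mul_le_mul' le_rfl (cut_le n v)).trans hdat
  have hfin : ∫⁻ s in Ioc 0 t, damped m₀ E₀ ω (iter m₀ E₀ f₀ (n + 1) s) ≠ ⊤ := by
    refine ne_top_of_le_ne_top (ENNReal.add_ne_top.2 ⟨hB, hA⟩) (le_add_self.trans (hb.trans_le ?_))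
    exact add_le_add hdat' (hstep _ hu fun s => le_rfl)
  refine ⟨ENNReal.le_of_add_le_add_right hfin ?_, hfin⟩
  rw [hb]
  exact add_le_add hdat' (hstep _ (fun s => measurable_iter_time D.measurable (n + 1) s)
    fun s v => iter_le_succ n s v)

lemma mass_energy_iter_le (D : Data m₀ E₀ f₀) : ∀ (n : ℕ) (t : ℝ), 0 ≤ t →
    (∫⁻ v, iter m₀ E₀ f₀ n t v ≤ ENNReal.ofReal m₀) ∧
      energy (iter m₀ E₀ f₀ n t) ≤ ENNReal.ofReal E₀ ∧
      (∫⁻ s in Ioc 0 t, damped m₀ E₀ (fun _ => 1) (iter m₀ E₀ f₀ n s) ≠ ⊤) ∧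
      ∫⁻ s in Ioc 0 t, damped m₀ E₀ hw (iter m₀ E₀ f₀ n s) ≠ ⊤
  | 0, t, _ => by simp [iter, energy, damped]
  | n + 1, t, ht => by
    obtain ⟨-, -, hA1, hA2⟩ := mass_energy_iter_le D n t ht
    have hum : ∀ s ∈ Ioc 0 t, ∫⁻ w, iter m₀ E₀ f₀ n s w ≤ ENNReal.ofReal m₀ :=
      fun s hs => (mass_energy_iter_le D n s hs.1.le).1
    have huE : ∀ s ∈ Ioc 0 t, energy (iter m₀ E₀ f₀ n s) ≤ ENNReal.ofReal E₀ :=
      fun s hs => (mass_energy_iter_le D n s hs.1.le).2.1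
    have h1 := invariant_step D (ω := fun _ => 1) measurable_const n ht ENNReal.ofReal_ne_top
      (by simp only [one_mul]; exact D.mass_eq.le)
      (fun f hf => by simp only [one_mul]; exact lintegral_gain hf hf) hum huE hA1
    have h2 := invariant_step D measurable_hw n ht ENNReal.ofReal_ne_top D.energy_eq.le
      (fun f hf => lintegral_hw_gain hf) hum huE hA2
    simp only [one_mul] at h1
    exact ⟨h1.1, h2.1, h1.2, h2.2⟩

lemma mass_iter_le (D : Data m₀ E₀ f₀) (n : ℕ) {t : ℝ} (ht : 0 ≤ t) :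
    ∫⁻ v, iter m₀ E₀ f₀ n t v ≤ ENNReal.ofReal m₀ := (mass_energy_iter_le D n t ht).1

lemma energy_iter_le (D : Data m₀ E₀ f₀) (n : ℕ) {t : ℝ} (ht : 0 ≤ t) :
    energy (iter m₀ E₀ f₀ n t) ≤ ENNReal.ofReal E₀ := (mass_energy_iter_le D n t ht).2.1

/-- The limit solves the linearly damped equation. -/
lemma lim_equation (D : Data m₀ E₀ f₀) (v : V3) {t : ℝ} (ht : 0 ≤ t) :
    lim m₀ E₀ f₀ t v + ∫⁻ s in Ioc 0 t, ENNReal.ofReal (damp m₀ E₀ v) * lim m₀ E₀ f₀ s v =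
      ENNReal.ofReal (f₀ v) + ∫⁻ s in Ioc 0 t, rhs2 (lim m₀ E₀ f₀ s) v := by
  have hI : ∀ n, Measurable fun s => iter m₀ E₀ f₀ n s v := fun n =>
    measurable_section (U := iter m₀ E₀ f₀ n) (measurable_iter D.measurable n) v
  have hR : ∀ n, Measurable fun s => rhs2 (iter m₀ E₀ f₀ n s) v := fun n =>
    measurable_section (U := fun s v => rhs2 (iter m₀ E₀ f₀ n s) v)
      (measurable_rhs2_time (measurable_iter D.measurable n)) v
  have h1 : lim m₀ E₀ f₀ t v +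
      ∫⁻ s in Ioc 0 t, ENNReal.ofReal (damp m₀ E₀ v) * lim m₀ E₀ f₀ s v =
      ⨆ n, (iter m₀ E₀ f₀ (n + 1) t v +
        ∫⁻ s in Ioc 0 t, ENNReal.ofReal (damp m₀ E₀ v) * iter m₀ E₀ f₀ (n + 1) s v) := by
    have e : ∀ s, lim m₀ E₀ f₀ s v = ⨆ n, iter m₀ E₀ f₀ (n + 1) s v := fun s => by
      have hmn : Monotone fun n => iter m₀ E₀ f₀ n s v := fun i j hij => iter_mono s hij v
      exact (hmn.iSup_nat_add 1).symm
    have hm1 : Monotone fun n => iter m₀ E₀ f₀ (n + 1) t v := fun i j hij =>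
      iter_mono t (Nat.succ_le_succ hij) v
    have hm2 : Monotone fun n => fun s =>
        ENNReal.ofReal (damp m₀ E₀ v) * iter m₀ E₀ f₀ (n + 1) s v :=
      fun i j hij s => mul_le_mul' le_rfl (iter_mono s (Nat.succ_le_succ hij) v)
    have hm3 : Monotone fun n =>
        ∫⁻ s in Ioc 0 t, ENNReal.ofReal (damp m₀ E₀ v) * iter m₀ E₀ f₀ (n + 1) s v :=
      fun i j hij => lintegral_mono (hm2 hij)
    simp only [e, ENNReal.mul_iSup]
    rw [lintegral_iSup (f := fun n s => ENNReal.ofReal (damp m₀ E₀ v) * iter m₀ E₀ f₀ (n + 1) s v)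
      (fun n => (hI (n + 1)).const_mul _) hm2, ENNReal.iSup_add_iSup_of_monotone hm1 hm3]
  have hmR : Monotone fun n => fun s => rhs2 (iter m₀ E₀ f₀ n s) v :=
    fun i j hij s => rhs2_mono (iter_mono s hij) v
  have h2 : ∫⁻ s in Ioc 0 t, rhs2 (lim m₀ E₀ f₀ s) v =
      ⨆ n, ∫⁻ s in Ioc 0 t, rhs2 (iter m₀ E₀ f₀ n s) v := by
    rw [← lintegral_iSup (f := fun n s => rhs2 (iter m₀ E₀ f₀ n s) v) hR hmR]
    exact lintegral_congr fun s =>
      rhs2_iSup (fun n => measurable_iter_time D.measurable n s) (iter_mono s) v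
  rw [h1, h2, ← iSup_cut (f₀ := f₀) v,
    ENNReal.iSup_add_iSup_of_monotone (cut_mono v) (fun i j hij => lintegral_mono (hmR hij))]
  exact iSup_congr fun n => iter_equation D n v ht

end Vale.Agent.P140.Renorm.Hom2
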