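import Vale.Agent.P140.Renorm.Existence
import Vale.Agent.P140.Renorm.HomBound

/-!
# Mild solutions on every interval from x-independent data with an exponential moment

The local existence theorem is iterated; the exponential moment of `Hom.exists_expBound` keeps the
lifespan bounded below up to any given time.
-/

open MeasureTheory Real Set Filter
open scoped RealInnerProductSpace ENNReal Topology

namespace Vale.Agent.P140.Renorm

open Vale.Agent.P140

namespace Hom

variable {a b T : ℝ} {m : V3 → ℝ} {G : ℝ → V3 → ℝ}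

lemma Qcoll_eq_qv {F : Omega → ℝ} {u : V3 → ℝ} (h : ∀ x v, F (x, v) = u v) (z : Omega) :
    Qcoll F z = qv u z.2 := by
  have hs : slice F z.1 = profileE u := funext fun v => congrArg ENNReal.ofReal (h z.1 v)
  rw [qv_eq]
  simp only [Qcoll, Qplus, Qminus, hs]
  rw [show F z = u z.2 from h z.1 z.2]
  rfl

lemma IsHomMild.toProfileMild (h : IsHomMild T m G) :
    IsProfileMild T m (fun t z => G t z.2) where
  measurable := h.measurable.comp (measurable_fst.prodMk (measurable_snd.comp measurable_snd))
  bounds t ht z := h.bounds t ht z.2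
  mild := by
    filter_upwards [Measure.quasiMeasurePreserving_snd.ae h.mild] with z hz t ht
    simp only [shift_snd]
    rw [hz t ht]
    congr 1

lemma exists_ae_velocity {P : Omega → Prop} (h : ∀ᵐ z : Omega, P z) :
    ∃ x : T3, ∀ᵐ v : V3, P (x, v) := by
  rw [Measure.volume_eq_prod] at h
  exact (Measure.ae_ae_of_ae_prod h).exists

lemma isHomMild_of_profileMild {g : ℝ → Omega → ℝ} (h : IsProfileMild T m g)
    (hx : ∀ t x y v, g t (x, v) = g t (y, v)) : IsHomMild T m (fun t v => g t ((0 : T3), v)) where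
  measurable := h.measurable.comp
    (f := fun w : ℝ × V3 => (w.1, ((0 : T3), w.2))) (by fun_prop)
  bounds t ht v := h.bounds t ht ((0 : T3), v)
  mild := by
    obtain ⟨x, hv⟩ := exists_ae_velocity h.mild
    filter_upwards [hv] with v hv t ht
    have e := hv t ht
    have e1 : g t (shift t (x, v)) = g t ((0 : T3), v) := hx t _ 0 v
    rw [e1] at e
    rw [e, hx 0 x 0 v]
    congr 1
    refine intervalIntegral.integral_congr fun s _ => ?_
    exact Qcoll_eq_qv (fun y w => hx s y 0 w) (shift s (x, v))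

lemma expMoment_mono (h : HasExpMoment a m) (hba : b ≤ a) : HasExpMoment b m := by
  refine ⟨h.measurable, h.nonneg, h.integrable.mono'
    (h.measurable.mul (by fun_prop)).aestronglyMeasurable (Eventually.of_forall fun v => ?_)⟩
  rw [Real.norm_eq_abs, abs_of_nonneg (mul_nonneg (h.nonneg v) (exp_pos _).le)]
  exact mul_le_mul_of_nonneg_left
    (exp_le_exp.2 (mul_le_mul_of_nonneg_right hba (norm_nonneg v))) (h.nonneg v)

lemma expMoment_add {n : V3 → ℝ} (h : HasExpMoment a m) (h' : HasExpMoment a n) :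
    HasExpMoment a (fun v => m v + n v) :=
  ⟨h.measurable.add h'.measurable, fun v => add_nonneg (h.nonneg v) (h'.nonneg v),
    (h.integrable.add h'.integrable).congr (Eventually.of_forall fun _ => (add_mul _ _ _).symm)⟩

/-- Continuation of an x-independent mild solution by one started at its final profile. -/
lemma glue {S S' σ : ℝ} {n : V3 → ℝ} {H : ℝ → V3 → ℝ} (hS : 0 ≤ S) (hS' : S' ≤ S + σ)
    (hG : IsHomMild S m G) (hm : HasExpMoment b m) (hH : IsHomMild σ n H)
    (hn : HasExpMoment b n) (hb : 0 < b) (hjoin : H 0 =ᵐ[volume] G S) :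
    IsHomMild S' (fun v => m v + n v) (fun t v => if t ≤ S then G t v else H (t - S) v) := by
  set K : ℝ → V3 → ℝ := fun t v => if t ≤ S then G t v else H (t - S) v with hK
  have hKm : Measurable (Function.uncurry K) :=
    Measurable.ite (measurableSet_le measurable_fst measurable_const) hG.measurable
      (hH.measurable.comp (f := fun w : ℝ × V3 => (w.1 - S, w.2)) (by fun_prop))
  have hle : ∀ t, t ≤ S → K t = G t := fun t ht => funext fun v => by simp only [hK, if_pos ht]
  have hgt : ∀ t, S < t → K t = H (t - S) := fun t ht => funext fun v => by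
    simp only [hK, if_neg (not_le.2 ht)]
  have hbd : ∀ t ∈ Icc 0 S', ∀ v, 0 ≤ K t v ∧ K t v ≤ m v + n v := by
    intro t ht v
    rcases le_or_gt t S with h | h
    · have := hG.bounds t ⟨ht.1, h⟩ v
      rw [hle t h]
      exact ⟨this.1, this.2.trans (le_add_of_nonneg_right (hn.nonneg v))⟩
    · have := hH.bounds (t - S) ⟨by linarith, by linarith [ht.2]⟩ v
      rw [hgt t h]
      exact ⟨this.1, this.2.trans (le_add_of_nonneg_left (hm.nonneg v))⟩
  refine ⟨hKm, hbd, ?_⟩
  filter_upwards [hG.mild, hH.mild, hjoin, ae_envelope_lt_top (expMoment_add hm hn) hb]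
    with v hGv hHv hj hfin t ht
  have hK0 : K 0 v = G 0 v := by rw [hle 0 hS]
  have hfirst : ∀ r ∈ Icc 0 S, ∫ s in (0 : ℝ)..r, qv (K s) v = ∫ s in (0 : ℝ)..r, qv (G s) v := by
    intro r hr
    refine intervalIntegral.integral_congr fun s hs => ?_
    rw [uIcc_of_le hr.1] at hs
    simp only [hle s (hs.2.trans hr.2)]
  rcases le_or_gt t S with h | h
  · rw [hle t h, hK0, hfirst t ⟨ht.1, h⟩]
    exact hGv t ⟨ht.1, h⟩
  · have hi : ∀ p q : ℝ, 0 ≤ p → p ≤ q → q ≤ S' →
        IntervalIntegrable (fun s => qv (K s) v) volume p q := fun p q hp hpq hq =>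
      intervalIntegrable_qv hKm hpq
        (fun r hr w => (hbd r ⟨hp.trans hr.1.le, hr.2.trans hq⟩ w).2) hfin
    have hsecond : ∫ s in S..t, qv (K s) v = ∫ s in (0 : ℝ)..(t - S), qv (H s) v := by
      rw [← sub_self S, ← intervalIntegral.integral_comp_sub_right (fun s => qv (H s) v) S]
      refine intervalIntegral.integral_congr_ae (Eventually.of_forall fun s hs => ?_)
      rw [uIoc_of_le h.le] at hs
      rw [hgt s hs.1]
    rw [hgt t h, hK0, hHv (t - S) ⟨by linarith, by linarith [ht.2]⟩, hj,
      hGv S (right_mem_Icc.2 hS),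
      ← intervalIntegral.integral_add_adjacent_intervals (hi 0 S le_rfl hS (h.le.trans ht.2))
        (hi S t hS h.le ht.2), hfirst S (right_mem_Icc.2 hS), hsecond]
    ring

end Hom

open Hom in
/-- Global mild existence for x-independent data with an exponential moment. -/
theorem exists_profileMild_homogeneous {a : ℝ} (ha : 0 < a) {f0 : V3 → ℝ}
    (hf : HasExpMoment a f0) {T : ℝ} (hT : 0 ≤ T) :
    ∃ b m g, 0 < b ∧ HasExpMoment b m ∧ IsProfileMild T m g ∧
      g 0 =ᵐ[volume] fun z : Omega => f0 z.2 := by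
  obtain ⟨a₁, M, ha₁, ha₁a, hbound⟩ := exists_expBound ha hf hT
  obtain ⟨τ, hτ, hloc⟩ := exists_profileMild (M := M) ha₁
  have hind : ∀ k : ℕ, ∃ (m : V3 → ℝ) (G : ℝ → V3 → ℝ), HasExpMoment (a₁ / 2) m ∧
      IsHomMild (min (k * τ) T) m G ∧ G 0 =ᵐ[volume] f0 := by
    intro k
    induction k with
    | zero =>
      refine ⟨f0, fun _ => f0, expMoment_mono hf (by linarith), ⟨hf.measurable.comp measurable_snd,
        fun t _ v => ⟨hf.nonneg v, le_rfl⟩, Eventually.of_forall fun v t ht => ?_⟩,
        EventuallyEq.rfl⟩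
      rw [Nat.cast_zero, zero_mul, min_eq_left hT] at ht
      obtain rfl : t = 0 := le_antisymm ht.2 ht.1
      simp
    | succ k ih =>
      obtain ⟨m, G, hm, hG, hG0⟩ := ih
      set S := min ((k : ℝ) * τ) T with hS
      have hS0 : 0 ≤ S := le_min (by positivity) hT
      obtain ⟨hGS, hGSM⟩ := hbound S (a₁ / 2) m G (min_le_right _ _) (half_pos ha₁) hG hm hG0 S
        (right_mem_Icc.2 hS0)
      obtain ⟨n, g, hn, hg, hg0, hgx⟩ := hloc (fun z => G S z.2) (G S)
        (hGS.measurable.comp measurable_snd) hGS hGSM (fun z => ⟨hGS.nonneg z.2, le_rfl⟩)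
      have hx := hgx fun x y v => rfl
      set H : ℝ → V3 → ℝ := fun t v => g t ((0 : T3), v)
      have hjoin : H 0 =ᵐ[volume] G S := by
        obtain ⟨x, hv⟩ := exists_ae_velocity hg0
        filter_upwards [hv] with v hv
        exact (hx 0 0 x v).trans hv
      have hS' : min (((k + 1 : ℕ) : ℝ) * τ) T ≤ S + τ := by
        push_cast
        rw [hS]
        rcases le_total ((k : ℝ) * τ) T with h | h
        · rw [min_eq_left h]; linarith [min_le_left (((k : ℝ) + 1) * τ) T]
        · rw [min_eq_right h]; linarith [min_le_right (((k : ℝ) + 1) * τ) T]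
      refine ⟨fun v => m v + n v, _, expMoment_add hm hn,
        glue hS0 hS' hG hm (isHomMild_of_profileMild hg hx) hn (half_pos ha₁) hjoin, ?_⟩
      simpa only [if_pos hS0] using hG0
  obtain ⟨k, hk⟩ := exists_nat_ge (T / τ)
  obtain ⟨m, G, hm, hG, hG0⟩ := hind k
  rw [min_eq_right ((div_le_iff₀ hτ).1 hk)] at hG
  exact ⟨a₁ / 2, m, fun t z => G t z.2, half_pos ha₁, hm, hG.toProfileMild,
    Measure.quasiMeasurePreserving_snd.ae hG0⟩

end Vale.Agent.P140.Renorm
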