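import Vale.Agent.P140.Renorm.Defs

/-!
# Mild solutions with finite energy and moment production
-/

open MeasureTheory Real
open scoped ENNReal

namespace Vale.Agent.P140.Renorm

open Vale.Agent.P140

/-- An energy-conserving mild solution on `[0,T]` whose second velocity moment is bounded and
whose third one is `O(1/t)`, uniformly in space. -/
structure IsProdMild (T C : ℝ) (g : ℝ → Omega → ℝ) : Prop where
  measurable : Measurable (Function.uncurry g)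
  nonneg : ∀ t ∈ Set.Icc 0 T, ∀ z : Omega, 0 ≤ g t z
  moment : ∀ t ∈ Set.Icc 0 T, ∀ x : T3,
    ∫⁻ v : V3, ENNReal.ofReal (1 + ‖v‖ ^ 2) * slice (g t) x v ≤ ENNReal.ofReal C
  production : ∀ t ∈ Set.Ioc 0 T, ∀ x : T3,
    ∫⁻ v : V3, ENNReal.ofReal ((1 + ‖v‖) ^ 3) * slice (g t) x v ≤ ENNReal.ofReal (C / t)
  energy : ∀ t ∈ Set.Icc 0 T,
    ∫ z : Omega, g t z * ‖z.2‖ ^ 2 = ∫ z : Omega, g 0 z * ‖z.2‖ ^ 2
  mild : ∀ᵐ z : Omega, ∀ t ∈ Set.Icc 0 T,
    g t (shift t z) = g 0 z + ∫ s in (0 : ℝ)..t, Qcoll (g s) (shift s z)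

end Vale.Agent.P140.Renorm
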