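import Vale.Agent.P140.Renorm.HomEnergyLimit
import Vale.Agent.P140.Renorm.ProdDefs

/-!
# Global energy-conserving mild solutions from every x-independent datum of finite mass and energy
-/

open MeasureTheory Real Set Filter
open scoped RealInnerProductSpace ENNReal Topology

namespace Vale.Agent.P140.Renorm

open Vale.Agent.P140 Hom3

namespace Hom2

lemma integral_snd_eq {u : V3 → ℝ≥0∞} (hu : Measurable u) (hfin : ∀ᵐ v : V3, u v < ⊤) :
    ∫ z : Omega, (u z.2).toReal * ‖z.2‖ ^ 2 =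
      (∫⁻ v, ENNReal.ofReal (‖v‖ ^ 2) * u v).toReal := by
  rw [integral_eq_lintegral_of_nonneg_ae
    (Eventually.of_forall fun z => mul_nonneg ENNReal.toReal_nonneg (sq_nonneg _))
    (Measurable.aestronglyMeasurable (by fun_prop :
      Measurable fun z : Omega => (u z.2).toReal * ‖z.2‖ ^ 2))]
  congr 1
  rw [Measure.volume_eq_prod, lintegral_prod _ (by fun_prop)]
  simp only [lintegral_const]
  rw [show (volume : Measure T3) univ = 1 by simp [volume_pi, Measure.pi_univ], mul_one]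
  refine lintegral_congr_ae ?_
  filter_upwards [hfin] with v hv
  rw [ENNReal.ofReal_mul ENNReal.toReal_nonneg, ENNReal.ofReal_toReal hv.ne, mul_comm]

lemma energy_eq_mass_add (u : V3 → ℝ≥0∞) (hu : Measurable u) :
    energy u = (∫⁻ v, u v) + ∫⁻ v, ENNReal.ofReal (‖v‖ ^ 2) * u v := by
  rw [← lintegral_add_left hu, energy]
  refine lintegral_congr fun v => ?_
  rw [hw, ENNReal.ofReal_add zero_le_one (sq_nonneg _), ENNReal.ofReal_one, add_mul, one_mul]

end Hom2

open Hom2 in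
/-- Global existence for x-independent data with finite mass and energy. -/
theorem exists_prodMild_homogeneous {f0 : V3 → ℝ} (hm : Measurable f0) (h0 : ∀ v, 0 ≤ f0 v)
    (hi : Integrable fun v : V3 => f0 v * (1 + ‖v‖ ^ 2)) {T : ℝ} (hT : 0 ≤ T) :
    ∃ C g, IsProdMild T C g ∧ g 0 =ᵐ[volume] fun z : Omega => f0 z.2 := by
  set fE : V3 → ℝ≥0∞ := fun v => ENNReal.ofReal (f0 v) with hfE
  have hfEm : Measurable fE := hm.ennreal_ofReal
  have hE : energy fE ≠ ⊤ := by
    refine ne_top_of_le_ne_top hi.hasFiniteIntegral.ne (le_of_eq_of_le ?_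
      (lintegral_ofReal_le_lintegral_enorm _))
    refine lintegral_congr fun v => ?_
    rw [hfE, hw, mul_comm, ENNReal.ofReal_mul (h0 v)]
  have hM : ∫⁻ v, fE v ≠ ⊤ := ne_top_of_le_ne_top hE (lintegral_le_hw _)
  set E₀ := (energy fE).toReal with hE₀
  set m₀ := (∫⁻ v, fE v).toReal with hm₀
  rcases (ENNReal.toReal_nonneg (a := ∫⁻ v, fE v)).eq_or_lt with hz | hpos
  · refine ⟨0, fun _ _ => 0, ⟨measurable_const, fun _ _ _ => le_rfl, fun t _ x => ?_,
      fun t _ x => ?_, fun t _ => rfl, ?_⟩, ?_⟩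
    · simp [slice]
    · simp [slice]
    · exact Eventually.of_forall fun z t _ => by simp [Qcoll, Qplus, Qminus, slice, gain]
    · have hzero : ∀ᵐ v : V3, f0 v = 0 := by
        have := (lintegral_eq_zero_iff hfEm).1 ((ENNReal.toReal_eq_zero_iff _).1 hz.symm |>.resolve_right hM)
        filter_upwards [this] with v hv
        exact le_antisymm (ENNReal.ofReal_eq_zero.1 hv) (h0 v)
      filter_upwards [Measure.quasiMeasurePreserving_snd.ae hzero] with z hz using hz.symm
  have D : Hom2.Data m₀ E₀ f0 := ⟨hm, ENNReal.toReal_nonneg, ENNReal.toReal_nonneg,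
    (ENNReal.ofReal_toReal hM).symm, (ENNReal.ofReal_toReal hE).symm⟩
  obtain ⟨A, c, hc, hP⟩ := povzner_cube
  have hP' : ∀ v w : V3, ∫ ω, |impact v (w, ω)| *
        (‖postV v (w, ω)‖ ^ 3 + ‖postW v (w, ω)‖ ^ 3 - ‖v‖ ^ 3 - ‖w‖ ^ 3) ∂surface
      ≤ max A 0 * (‖v‖ ^ 3 * ‖w‖ + ‖v‖ * ‖w‖ ^ 3) - c * (‖v‖ ^ 4 + ‖w‖ ^ 4) := fun v w =>
    (hP v w).trans (sub_le_sub_right (mul_le_mul_of_nonneg_right (le_max_left _ _)
      (by positivity)) _)
  set B := min (surface univ).toReal c * m₀ with hB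
  have hB0 : 0 < B := mul_pos (lt_min surface_pos hc) hpos
  set Cp := E₀ * (2 + max A 0 * E₀ * T) ^ 2 / (4 * B) with hCp
  have hE0 := D.energy_nonneg
  have hCp0 : 0 ≤ Cp := by positivity
  set u := Hom2.lim m₀ E₀ f0 with hu_def
  have hum : Measurable (Function.uncurry u) := Hom2.measurable_lim hm
  have hut : ∀ s, Measurable (u s) := fun s => hum.comp measurable_prodMk_left
  have hX : ∀ s ∈ Ioc 0 T, ∫⁻ v, cub v * u s v ≤ ENNReal.ofReal (Cp / s) := fun s hs =>
    Hom2.cub_lim_le D hpos (le_max_right _ _) hc hP' hs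
  have hW : ∀ s ∈ Ioc 0 T,
      ∫⁻ v, hw v * (hone v * u s v) ≤ ENNReal.ofReal (2 * (E₀ * T + Cp) / s) := by
    intro s hs
    refine (lintegral_hw_hone_le (hut s)).trans ((mul_le_mul' le_rfl
      (add_le_add (Hom2.energy_lim_le D hs.1.le) (hX s hs))).trans_eq' rfl |>.trans ?_)
    rw [← ENNReal.ofReal_add hE0 (div_nonneg hCp0 hs.1.le), ← ENNReal.ofReal_mul zero_le_two]
    refine ENNReal.ofReal_le_ofReal ?_
    rw [le_div_iff₀ hs.1, mul_assoc, add_mul, div_mul_cancel₀ _ hs.1.ne']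
    nlinarith [mul_le_mul_of_nonneg_left hs.2 hE0]
  have hdef := fun t (ht : t ∈ Icc 0 T) =>
    deficit_eq_zero D (C := 2 * (E₀ * T + Cp)) (by positivity) hW ht
  have hmass : ∀ t ∈ Icc 0 T, ∫⁻ v, u t v = ENNReal.ofReal m₀ := fun t ht =>
    le_antisymm (Hom2.mass_lim_le D ht.1) (tsub_eq_zero_iff_le.1 (hdef t ht).1)
  have henergy : ∀ t ∈ Icc 0 T, energy (u t) = ENNReal.ofReal E₀ := fun t ht =>
    le_antisymm (Hom2.energy_lim_le D ht.1) (tsub_eq_zero_iff_le.1 (hdef t ht).2)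
  have hzero : ∀ v, u 0 v = ENNReal.ofReal (f0 v) := fun v => by
    simpa using Hom2.lim_equation D v le_rfl
  refine ⟨E₀ + 4 * (E₀ * T + Cp), fun t z => (u t z.2).toReal,
    ⟨(hum.comp (f := fun w : ℝ × Omega => (w.1, w.2.2)) (by fun_prop)).ennreal_toReal,
      fun t _ z => ENNReal.toReal_nonneg, fun t ht x => ?_, fun t ht x => ?_, fun t ht => ?_, ?_⟩,
    ?_⟩
  · change ∫⁻ v, hw v * Hom2.fin m₀ E₀ f0 t v ≤ _
    refine (lintegral_mono fun v => mul_le_mul' le_rfl (Hom2.fin_le t v)).trans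
      ((Hom2.energy_lim_le D ht.1).trans (ENNReal.ofReal_le_ofReal ?_))
    exact le_add_of_nonneg_right (by positivity)
  · change ∫⁻ v, ENNReal.ofReal ((1 + ‖v‖) ^ 3) * Hom2.fin m₀ E₀ f0 t v ≤ _
    calc _ ≤ ∫⁻ v, ENNReal.ofReal 4 * (hw v * u t v + cub v * u t v) :=
          lintegral_mono fun v => by
            rw [← add_mul, ← mul_assoc, hw, cub, ← ENNReal.ofReal_add (by positivity)
              (by positivity), ← ENNReal.ofReal_mul (by norm_num)]
            refine mul_le_mul' (ENNReal.ofReal_le_ofReal ?_) (Hom2.fin_le t v)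
            nlinarith [mul_nonneg (add_nonneg zero_le_one (norm_nonneg v)) (sq_nonneg (‖v‖ - 1))]
      _ ≤ ENNReal.ofReal 4 * (ENNReal.ofReal E₀ + ENNReal.ofReal (Cp / t)) := by
          have := hut t
          rw [lintegral_const_mul _ (by fun_prop), lintegral_add_left (by fun_prop)]
          exact mul_le_mul' le_rfl (add_le_add (Hom2.energy_lim_le D ht.1.le) (hX t ht))
      _ ≤ _ := by
          rw [← ENNReal.ofReal_add hE0 (div_nonneg hCp0 ht.1.le),
            ← ENNReal.ofReal_mul (by norm_num)]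
          refine ENNReal.ofReal_le_ofReal ?_
          rw [le_div_iff₀ ht.1, mul_assoc, add_mul, div_mul_cancel₀ _ ht.1.ne']
          nlinarith [mul_le_mul_of_nonneg_left ht.2 hE0]
  · have key : ∀ s ∈ Icc 0 T, (∫⁻ v, ENNReal.ofReal (‖v‖ ^ 2) * u s v) + ENNReal.ofReal m₀ =
        ENNReal.ofReal E₀ := fun s hs => by
      rw [← henergy s hs, energy_eq_mass_add _ (hut s), hmass s hs, add_comm]
    rw [integral_snd_eq (hut t) (Hom2.ae_lim_lt_top D ht.1),
      integral_snd_eq (hut 0) (Hom2.ae_lim_lt_top D le_rfl)]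
    congr 1
    exact (ENNReal.add_left_inj ENNReal.ofReal_ne_top).1
      ((key t ht).trans (key 0 (left_mem_Icc.2 hT)).symm)
  · filter_upwards [Measure.quasiMeasurePreserving_snd.ae
      (Hom2.fin_equation D h0 hmass henergy)] with z hz t ht
    simp only [shift_snd, hzero, ENNReal.toReal_ofReal (h0 _)]
    exact hz t ht
  · exact Eventually.of_forall fun z => by simp only [hzero, ENNReal.toReal_ofReal (h0 _)]

end Vale.Agent.P140.Renorm
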