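import Vale.Agent.P140.Renorm.Collision

/-!
# Mild solutions on every interval from x-independent data with a finite third moment

Arkeryd's monotone iteration: with `λ(v) = 2 |S²| E₀ (1 + |v|)`, which dominates the collision
frequency of every profile of energy at most `E₀`, the iterates of
`u' + λ u = Q⁺(u,u) + u R(u)` increase, `R(u) = 2 |S²| E(u) (1 + |v|) - L(u)`. The cubic moment
stays bounded on compact time intervals, so the energy of the limit is exactly `E₀`.
-/

open MeasureTheory Real Set Filter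
open scoped RealInnerProductSpace ENNReal Topology

namespace Vale.Agent.P140.Renorm.Hom3

open Vale.Agent.P140

/-! ### Elementary facts -/

lemma iSup_mul_iSup_of_monotone {f g : ℕ → ℝ≥0∞} (hf : Monotone f) (hg : Monotone g) :
    (⨆ n, f n) * ⨆ n, g n = ⨆ n, f n * g n := by
  refine le_antisymm ?_ (iSup_le fun n => mul_le_mul' (le_iSup f n) (le_iSup g n))
  rw [ENNReal.iSup_mul]
  refine iSup_le fun i => ?_
  rw [ENNReal.mul_iSup]
  exact iSup_le fun j => le_iSup_of_le (max i j)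
    (mul_le_mul' (hf (le_max_left i j)) (hg (le_max_right i j)))

lemma lintegral_Ioc_exp {b : ℝ} (hb : 0 ≤ b) {p q : ℝ} (hpq : p ≤ q) :
    ∫⁻ r in Ioc p q, ENNReal.ofReal (b * exp (b * r)) =
      ENNReal.ofReal (exp (b * q) - exp (b * p)) := by
  have hd : ∀ r ∈ uIcc p q, HasDerivAt (fun r => exp (b * r)) (b * exp (b * r)) r := fun r _ => by
    simpa [mul_comm] using ((hasDerivAt_id r).const_mul b).exp
  have hc : Continuous fun r => b * exp (b * r) := by fun_prop
  rw [← ofReal_integral_eq_lintegral_ofReal hc.integrableOn_Ioc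
      (Eventually.of_forall fun r => mul_nonneg hb (exp_pos _).le),
    ← intervalIntegral.integral_of_le hpq,
    intervalIntegral.integral_eq_sub_of_hasDerivAt hd (hc.intervalIntegrable p q)]

lemma lintegral_Ioc_exp_neg {b : ℝ} (hb : 0 ≤ b) {p q : ℝ} (hpq : p ≤ q) :
    ∫⁻ r in Ioc p q, ENNReal.ofReal (b * exp (-b * (r - p))) =
      ENNReal.ofReal (1 - exp (-b * (q - p))) := by
  have hd : ∀ r ∈ uIcc p q, HasDerivAt (fun r => -exp (-b * (r - p))) (b * exp (-b * (r - p))) r :=
    fun r _ => by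
      refine ((((hasDerivAt_id r).sub_const p).const_mul (-b)).exp.fun_neg).congr_deriv ?_
      simp only [id]; ring
  have hc : Continuous fun r => b * exp (-b * (r - p)) := by fun_prop
  rw [← ofReal_integral_eq_lintegral_ofReal hc.integrableOn_Ioc
      (Eventually.of_forall fun r => mul_nonneg hb (exp_pos _).le),
    ← intervalIntegral.integral_of_le hpq,
    intervalIntegral.integral_eq_sub_of_hasDerivAt hd (hc.intervalIntegrable p q)]
  congr 1
  simp only [sub_self, mul_zero, exp_zero]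
  ring

/-- The variation of constants formula is the integrated linear equation. -/
lemma duhamel_identity {b t : ℝ} (hb : 0 ≤ b) (ht : 0 ≤ t) (c : ℝ≥0∞) {G : ℝ → ℝ≥0∞}
    (hG : Measurable G) :
    (ENNReal.ofReal (exp (-b * t)) * c +
        ∫⁻ s in Ioc 0 t, ENNReal.ofReal (exp (-b * (t - s))) * G s) +
      ∫⁻ r in Ioc 0 t, ENNReal.ofReal b * (ENNReal.ofReal (exp (-b * r)) * c +
        ∫⁻ s in Ioc 0 r, ENNReal.ofReal (exp (-b * (r - s))) * G s) =
    c + ∫⁻ s in Ioc 0 t, G s := by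
  set k : ℝ → ℝ → ℝ≥0∞ := fun r s => ENNReal.ofReal (b * exp (-b * (r - s))) with hk
  have hkm : Measurable fun w : ℝ × ℝ => k w.1 w.2 := by simp only [hk]; fun_prop
  have hmul : ∀ x, ENNReal.ofReal b * ENNReal.ofReal (exp x) = ENNReal.ofReal (b * exp x) :=
    fun x => (ENNReal.ofReal_mul hb).symm
  have hexp : ∀ p q : ℝ, p ≤ q → ENNReal.ofReal (exp (-b * (q - p))) +
      ∫⁻ r in Ioc p q, k r p = 1 := by
    intro p q hpq
    simp only [hk]
    rw [lintegral_Ioc_exp_neg hb hpq, ← ENNReal.ofReal_add (exp_pos _).le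
      (sub_nonneg.2 (exp_le_one_iff.2 (by nlinarith))), add_sub_cancel, ENNReal.ofReal_one]
  have h1 : ∀ r, ENNReal.ofReal b * (ENNReal.ofReal (exp (-b * r)) * c +
      ∫⁻ s in Ioc 0 r, ENNReal.ofReal (exp (-b * (r - s))) * G s) =
      k r 0 * c + ∫⁻ s in Ioc 0 r, k r s * G s := by
    intro r
    rw [mul_add, ← mul_assoc, hmul, ← lintegral_const_mul' _ _ ENNReal.ofReal_ne_top]
    simp only [hk, sub_zero, ← mul_assoc, hmul]
  have hswap : ∫⁻ r in Ioc 0 t, ∫⁻ s in Ioc 0 r, k r s * G s =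
      ∫⁻ s in Ioc 0 t, (∫⁻ r in Ioc s t, k r s) * G s := by
    have hset : MeasurableSet {w : ℝ × ℝ | 0 < w.2 ∧ w.2 ≤ w.1 ∧ w.1 ≤ t} :=
      (measurableSet_lt measurable_const measurable_snd).inter
        ((measurableSet_le measurable_snd measurable_fst).inter
          (measurableSet_le measurable_fst measurable_const))
    set F : ℝ × ℝ → ℝ≥0∞ :=
      {w : ℝ × ℝ | 0 < w.2 ∧ w.2 ≤ w.1 ∧ w.1 ≤ t}.indicator (fun w => k w.1 w.2 * G w.2) with hF
    have hFm : Measurable F := (hkm.mul (hG.comp measurable_snd)).indicator hset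
    have hl : ∀ r, (Ioc 0 t).indicator (fun r => ∫⁻ s in Ioc 0 r, k r s * G s) r =
        ∫⁻ s, F (r, s) := by
      intro r
      by_cases hr : r ∈ Ioc 0 t
      · rw [indicator_of_mem hr, ← lintegral_indicator measurableSet_Ioc]
        refine lintegral_congr fun s => ?_
        simp only [hF, indicator_apply, mem_Ioc, mem_ofPred_eq, hr.2, and_true]
      · rw [indicator_of_notMem hr, eq_comm, ← lintegral_zero]
        refine lintegral_congr fun s => ?_
        simp only [hF, indicator_apply, mem_ofPred_eq]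
        exact if_neg fun h => hr ⟨h.1.trans_le h.2.1, h.2.2⟩
    rw [← lintegral_indicator measurableSet_Ioc, lintegral_congr hl,
      lintegral_lintegral_swap (f := fun r s => F (r, s)) hFm.aemeasurable, ← lintegral_indicator measurableSet_Ioc]
    refine lintegral_congr_ae ?_
    filter_upwards with s
    by_cases hs : s ∈ Ioc 0 t
    · rw [indicator_of_mem hs, ← lintegral_mul_const _ (by fun_prop),
        ← lintegral_indicator measurableSet_Ioc]
      refine lintegral_congr_ae ?_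
      filter_upwards [Measure.ae_ne volume s] with r hr
      simp only [hF, indicator_apply, mem_Ioc, mem_ofPred_eq, hs.1, true_and]
      exact if_congr ⟨fun h => ⟨lt_of_le_of_ne h.1 (Ne.symm hr), h.2⟩,
        fun h => ⟨h.1.le, h.2⟩⟩ rfl rfl
    · rw [indicator_of_notMem hs, ← lintegral_zero]
      refine lintegral_congr fun r => ?_
      simp only [hF, indicator_apply, mem_ofPred_eq]
      exact if_neg fun h => hs ⟨h.1, h.2.1.trans h.2.2⟩
  simp only [h1]
  rw [lintegral_add_left (by fun_prop), hswap,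
    lintegral_mul_const _ (show Measurable fun r => k r 0 by fun_prop),
    add_add_add_comm, ← add_mul, ← lintegral_add_left (by fun_prop)]
  have he := hexp 0 t ht
  rw [sub_zero] at he
  rw [he, one_mul]
  congr 1
  refine setLIntegral_congr_fun measurableSet_Ioc fun s hs => ?_
  rw [← add_mul, hexp s t hs.2, one_mul]

/-! ### The monotone operator -/

/-- `1 + |v|²`. -/
noncomputable def hw (v : V3) : ℝ≥0∞ := ENNReal.ofReal (1 + ‖v‖ ^ 2)

/-- `|v|³`. -/
noncomputable def cub (v : V3) : ℝ≥0∞ := ENNReal.ofReal (‖v‖ ^ 3)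

/-- The energy `∫ (1 + |v|²) u`. -/
noncomputable def energy (u : V3 → ℝ≥0∞) : ℝ≥0∞ := ∫⁻ v, hw v * u v

/-- `2 |S²| (1 + |v|)`. -/
noncomputable def freq (v : V3) : ℝ := 2 * (surface univ).toReal * (1 + ‖v‖)

/-- `2 |S²| (1 + |v|) E(u) - L(u)(v)`. -/
noncomputable def resid (u : V3 → ℝ≥0∞) (v : V3) : ℝ≥0∞ :=
  ∫⁻ p : V3 × S2, ENNReal.ofReal (2 * (1 + ‖v‖) * (1 + ‖p.1‖ ^ 2) - |impact v p|) * u p.1
    ∂((volume : Measure V3).prod surface)

/-- The right side `Q⁺(u,u) + u R(u)` of the monotone scheme. -/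
noncomputable def rhs (u : V3 → ℝ≥0∞) (v : V3) : ℝ≥0∞ := gain u u v + u v * resid u v

@[fun_prop]
lemma measurable_hw : Measurable hw := by unfold hw; fun_prop

@[fun_prop]
lemma measurable_cub : Measurable cub := by unfold cub; fun_prop

@[fun_prop]
lemma measurable_freq : Measurable freq := by unfold freq; fun_prop

lemma freq_nonneg (v : V3) : 0 ≤ freq v :=
  mul_nonneg (mul_nonneg zero_le_two ENNReal.toReal_nonneg) (by positivity)

lemma abs_impact_le_hw (v : V3) (p : V3 × S2) :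
    |impact v p| ≤ 2 * (1 + ‖v‖) * (1 + ‖p.1‖ ^ 2) := by
  have h : 1 + ‖p.1‖ ≤ 2 * (1 + ‖p.1‖ ^ 2) := by nlinarith [sq_nonneg (‖p.1‖ - 1)]
  calc |impact v p| ≤ (1 + ‖v‖) * (1 + ‖p.1‖) := abs_impact_le v p
    _ ≤ (1 + ‖v‖) * (2 * (1 + ‖p.1‖ ^ 2)) := mul_le_mul_of_nonneg_left h (by positivity)
    _ = _ := by ring

@[fun_prop]
lemma measurable_resid {u : V3 → ℝ≥0∞} (hu : Measurable u) : Measurable (resid u) :=
  Measurable.lintegral_prod_right' (f := fun q : V3 × V3 × S2 =>
    ENNReal.ofReal (2 * (1 + ‖q.1‖) * (1 + ‖q.2.1‖ ^ 2) - |impact q.1 q.2|) * u q.2.1) (by fun_prop)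

@[fun_prop]
lemma measurable_rhs {u : V3 → ℝ≥0∞} (hu : Measurable u) : Measurable (rhs u) :=
  (measurable_gain hu hu).add (hu.mul (measurable_resid hu))

lemma resid_add_lossRate {u : V3 → ℝ≥0∞} (hu : Measurable u) (v : V3) :
    resid u v + lossRate u v = ENNReal.ofReal (freq v) * energy u := by
  rw [resid, lossRate, ← lintegral_add_left (by fun_prop)]
  have h : ∀ p : V3 × S2,
      ENNReal.ofReal (2 * (1 + ‖v‖) * (1 + ‖p.1‖ ^ 2) - |impact v p|) * u p.1 +
        ENNReal.ofReal |impact v p| * u p.1 =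
      ENNReal.ofReal (2 * (1 + ‖v‖)) * (hw p.1 * u p.1) := fun p => by
    rw [← add_mul, ← ENNReal.ofReal_add (sub_nonneg.2 (abs_impact_le_hw v p)) (abs_nonneg _),
      sub_add_cancel, hw, ENNReal.ofReal_mul (by positivity), mul_assoc]
  rw [lintegral_congr h, lintegral_const_mul _ (by fun_prop), lintegral_prod _ (by fun_prop)]
  simp only [lintegral_const]
  rw [lintegral_mul_const _ (by fun_prop), energy, freq,
    show 2 * (surface univ).toReal * (1 + ‖v‖) = (surface univ).toReal * (2 * (1 + ‖v‖)) by ring,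
    ENNReal.ofReal_mul ENNReal.toReal_nonneg, ENNReal.ofReal_toReal (measure_ne_top _ _)]
  ring

lemma resid_mono {u u' : V3 → ℝ≥0∞} (h : u ≤ u') (v : V3) : resid u v ≤ resid u' v :=
  lintegral_mono fun _ => mul_le_mul' le_rfl (h _)

lemma rhs_mono {u u' : V3 → ℝ≥0∞} (h : u ≤ u') (v : V3) : rhs u v ≤ rhs u' v :=
  add_le_add (gain_mono h h v) (mul_le_mul' (h v) (resid_mono h v))

lemma rhs_iSup {u : ℕ → V3 → ℝ≥0∞} (hu : ∀ n, Measurable (u n)) (hmono : Monotone u) (v : V3) :
    rhs (fun w => ⨆ n, u n w) v = ⨆ n, rhs (u n) v := by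
  have hm : ∀ w, Monotone fun n => u n w := fun w i j hij => hmono hij w
  have hg : gain (fun w => ⨆ n, u n w) (fun w => ⨆ n, u n w) v = ⨆ n, gain (u n) (u n) v := by
    simp only [gain]
    refine Eq.trans (lintegral_congr fun p => ?_) (lintegral_iSup (f := fun n p =>
      ENNReal.ofReal |impact v p| * u n (postV v p) * u n (postW v p))
      (fun n => by have := hu n; fun_prop) (fun i j hij p =>
        mul_le_mul' (mul_le_mul' le_rfl (hmono hij _)) (hmono hij _)))
    rw [mul_assoc, iSup_mul_iSup_of_monotone (hm _) (hm _), ENNReal.mul_iSup]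
    simp only [mul_assoc]
  have hr : resid (fun w => ⨆ n, u n w) v = ⨆ n, resid (u n) v := by
    simp only [resid]
    refine Eq.trans (lintegral_congr fun p => ENNReal.mul_iSup ..) (lintegral_iSup
      (f := fun n (p : V3 × S2) =>
        ENNReal.ofReal (2 * (1 + ‖v‖) * (1 + ‖p.1‖ ^ 2) - |impact v p|) * u n p.1)
      (fun n => by have := hu n; fun_prop) (fun i j hij p => mul_le_mul' le_rfl (hmono hij _)))
  simp only [rhs]
  rw [hg, hr, iSup_mul_iSup_of_monotone (hm v) (fun i j hij => resid_mono (hmono hij) v),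
    ENNReal.iSup_add_iSup_of_monotone (fun i j hij => gain_mono (hmono hij) (hmono hij) v)
      (fun i j hij => mul_le_mul' (hmono hij v) (resid_mono (hmono hij) v))]

lemma lintegral_hw_gain {u : V3 → ℝ≥0∞} (hu : Measurable u) :
    ∫⁻ v, hw v * gain u u v = ∫⁻ v, hw v * (u v * lossRate u v) := by
  have e : ∀ (f : V3 → ℝ≥0∞), Measurable f →
      ∫⁻ v, hw v * f v = (∫⁻ v, f v) + ∫⁻ v, ENNReal.ofReal (‖v‖ ^ 2) * f v := by
    intro f hf
    rw [← lintegral_add_left hf]
    refine lintegral_congr fun v => ?_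
    rw [hw, ENNReal.ofReal_add zero_le_one (sq_nonneg _), ENNReal.ofReal_one, add_mul, one_mul]
  rw [e _ (measurable_gain hu hu), e (fun v => u v * lossRate u v) (hu.mul (measurable_lossRate hu)), lintegral_gain hu hu,
    lintegral_sq_mul_gain hu]

lemma lintegral_hw_rhs {u : V3 → ℝ≥0∞} (hu : Measurable u) :
    ∫⁻ v, hw v * rhs u v = energy u * ∫⁻ v, hw v * (ENNReal.ofReal (freq v) * u v) := by
  simp only [rhs, mul_add]
  rw [lintegral_add_left (by fun_prop), lintegral_hw_gain hu,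
    ← lintegral_add_left (by fun_prop), ← lintegral_const_mul _ (by fun_prop)]
  refine lintegral_congr fun v => ?_
  rw [← mul_add, ← mul_add, add_comm (lossRate u v), resid_add_lossRate hu]
  ring

lemma cubic_post (v : V3) (p : V3 × S2) :
    ‖postV v p‖ ^ 3 + ‖postW v p‖ ^ 3 ≤
      ‖v‖ ^ 3 + ‖p.1‖ ^ 3 + ‖v‖ ^ 2 * ‖p.1‖ + ‖v‖ * ‖p.1‖ ^ 2 := by
  have h := energy_post v p
  have hx := norm_nonneg (postV v p)
  have hy := norm_nonneg (postW v p)
  have ha := norm_nonneg v
  have hb := norm_nonneg p.1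
  have h1 : ‖postV v p‖ ≤ ‖v‖ + ‖p.1‖ := by nlinarith [sq_nonneg ‖postW v p‖, mul_nonneg ha hb]
  have h2 : ‖postW v p‖ ≤ ‖v‖ + ‖p.1‖ := by nlinarith [sq_nonneg ‖postV v p‖, mul_nonneg ha hb]
  nlinarith [mul_le_mul_of_nonneg_left h1 (sq_nonneg ‖postV v p‖),
    mul_le_mul_of_nonneg_left h2 (sq_nonneg ‖postW v p‖)]

/-- Cubic Povzner inequality. -/
lemma lintegral_cub_gain {u : V3 → ℝ≥0∞} (hu : Measurable u) :
    ∫⁻ v, cub v * gain u u v ≤ (∫⁻ v, cub v * (u v * lossRate u v)) +
      surface univ * energy u * ((∫⁻ v, cub v * u v) + energy u) := by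
  set k : V3 → V3 × S2 → ℝ≥0∞ := fun v p => ENNReal.ofReal |impact v p| * u v * u p.1 with hk
  set e : V3 → ℝ≥0∞ := fun v => hw v * u v with he
  set f : V3 → ℝ≥0∞ := fun v => cub v * u v with hf
  have hem : Measurable e := by simp only [he]; fun_prop
  have hfm : Measurable f := by simp only [hf]; fun_prop
  have hA : Measurable (Function.uncurry fun v p => cub (postV v p) * k v p) := by
    simp only [hk]; fun_prop
  have hB : Measurable (Function.uncurry fun v p => cub v * k v p) := by simp only [hk]; fun_prop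
  have hkswap : ∀ v (p : V3 × S2), k p.1 (v, p.2) = k v p := by
    intro v p; simp only [hk, impact_swap, abs_neg]; ring
  have hA2 := lintegral_swap_velocities hA
  simp only [postV_swap, hkswap] at hA2
  have hB2 := lintegral_swap_velocities hB
  simp only [hkswap] at hB2
  have hL : ∀ v, cub v * (u v * lossRate u v) =
      ∫⁻ p, cub v * k v p ∂((volume : Measure V3).prod surface) := by
    intro v
    rw [lossRate, ← lintegral_const_mul _ (by fun_prop), ← lintegral_const_mul _ (by fun_prop)]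
    exact lintegral_congr fun p => by simp only [hk]; ring
  have hpt : ∀ v (p : V3 × S2), cub (postV v p) * k v p + cub (postW v p) * k v p ≤
      cub v * k v p + cub p.1 * k v p + (f v * e p.1 + e v * f p.1 + 2 * (e v * e p.1)) := by
    intro v p
    have ha := norm_nonneg v
    have hb := norm_nonneg p.1
    set X := ‖v‖ ^ 2 * ‖p.1‖ + ‖v‖ * ‖p.1‖ ^ 2 with hX
    have hadd : ‖postV v p‖ ^ 3 + ‖postW v p‖ ^ 3 ≤ (‖v‖ ^ 3 + ‖p.1‖ ^ 3) + X := by
      linarith [cubic_post v p]
    have himp : |impact v p| ≤ ‖v‖ + ‖p.1‖ := by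
      calc |impact v p| ≤ ‖v - p.1‖ * ‖(p.2 : V3)‖ := abs_real_inner_le_norm _ _
        _ ≤ _ := by rw [norm_omega, mul_one]; exact norm_sub_le _ _
    have hexc : X * |impact v p| ≤ ‖v‖ ^ 3 * (1 + ‖p.1‖ ^ 2) + (1 + ‖v‖ ^ 2) * ‖p.1‖ ^ 3 +
        2 * ((1 + ‖v‖ ^ 2) * (1 + ‖p.1‖ ^ 2)) := by
      refine (mul_le_mul_of_nonneg_left himp (by positivity)).trans ?_
      nlinarith [mul_nonneg (pow_nonneg ha 3) (sq_nonneg (‖p.1‖ - 1)),
        mul_nonneg (pow_nonneg hb 3) (sq_nonneg (‖v‖ - 1)),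
        mul_nonneg (pow_nonneg ha 3) hb, mul_nonneg (pow_nonneg hb 3) ha,
        sq_nonneg ‖v‖, sq_nonneg ‖p.1‖]
    simp only [cub, hk, he, hf, hw]
    rw [← add_mul, ← ENNReal.ofReal_add (by positivity) (by positivity)]
    refine (mul_le_mul' (ENNReal.ofReal_le_ofReal hadd) le_rfl).trans ?_
    rw [ENNReal.ofReal_add (by positivity) (by positivity),
      ENNReal.ofReal_add (by positivity) (by positivity), add_mul, add_mul]
    refine add_le_add le_rfl ?_
    calc ENNReal.ofReal X * (ENNReal.ofReal |impact v p| * u v * u p.1)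
        = ENNReal.ofReal (X * |impact v p|) * (u v * u p.1) := by
          rw [ENNReal.ofReal_mul (by positivity)]; ring
      _ ≤ _ * (u v * u p.1) := mul_le_mul' (ENNReal.ofReal_le_ofReal hexc) le_rfl
      _ = _ := by
          rw [ENNReal.ofReal_add (by positivity) (by positivity),
            ENNReal.ofReal_add (by positivity) (by positivity),
            ENNReal.ofReal_mul (by positivity : (0 : ℝ) ≤ 2),
            ENNReal.ofReal_mul (by positivity : 0 ≤ ‖v‖ ^ 3),
            ENNReal.ofReal_mul (by positivity : 0 ≤ 1 + ‖v‖ ^ 2),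
            ENNReal.ofReal_mul (by positivity : 0 ≤ 1 + ‖v‖ ^ 2), ENNReal.ofReal_ofNat]
          ring
  have hint : ∀ (p₁ p₂ : V3 → ℝ≥0∞), Measurable p₁ → Measurable p₂ →
      ∫⁻ v, ∫⁻ p : V3 × S2, p₁ v * p₂ p.1 ∂((volume : Measure V3).prod surface) =
        (∫⁻ v, p₁ v) * ((∫⁻ w, p₂ w) * surface univ) := by
    intro p₁ p₂ h1 h2
    have e' : ∀ v, ∫⁻ p : V3 × S2, p₁ v * p₂ p.1 ∂((volume : Measure V3).prod surface) =
        p₁ v * ((∫⁻ w, p₂ w) * surface univ) := fun v => by
      rw [lintegral_const_mul _ (by fun_prop), lintegral_prod _ (by fun_prop)]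
      simp only [lintegral_const]
      rw [lintegral_mul_const' _ _ (measure_ne_top _ _)]
    simp_rw [e']
    rw [lintegral_mul_const _ h1]
  rw [lintegral_mul_gain hu hu (by fun_prop)]
  simp_rw [hL]
  have hdouble : ∀ x y : ℝ≥0∞, x + x ≤ y + y → x ≤ y := fun x y hxy => by
    rw [← two_mul, ← two_mul] at hxy
    exact (ENNReal.mul_le_mul_iff_right two_ne_zero ENNReal.ofNat_ne_top).1 hxy
  refine hdouble _ _ ?_
  have hm1 : Measurable fun v =>
      ∫⁻ p, cub (postV v p) * k v p ∂((volume : Measure V3).prod surface) :=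
    Measurable.lintegral_prod_right hA
  calc _ = (∫⁻ v, ∫⁻ p, cub (postV v p) * k v p ∂((volume : Measure V3).prod surface)) +
        ∫⁻ v, ∫⁻ p, cub (postW v p) * k v p ∂((volume : Measure V3).prod surface) := by rw [hA2]
    _ = ∫⁻ v, ∫⁻ p, (cub (postV v p) * k v p + cub (postW v p) * k v p)
          ∂((volume : Measure V3).prod surface) := by
      rw [← lintegral_add_left hm1]
      exact lintegral_congr fun v => (lintegral_add_left (by simp only [hk]; fun_prop) _).symm
    _ ≤ ∫⁻ v, ∫⁻ p, (cub v * k v p + cub p.1 * k v p +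
          (f v * e p.1 + e v * f p.1 + 2 * (e v * e p.1)))
          ∂((volume : Measure V3).prod surface) :=
      lintegral_mono fun v => lintegral_mono (hpt v)
    _ = (∫⁻ v, ∫⁻ p, cub v * k v p ∂((volume : Measure V3).prod surface)) +
          (∫⁻ v, ∫⁻ p, cub p.1 * k v p ∂((volume : Measure V3).prod surface)) +
          ((∫⁻ v, f v) * ((∫⁻ w, e w) * surface univ) +
            (∫⁻ v, e v) * ((∫⁻ w, f w) * surface univ) +
            2 * ((∫⁻ v, e v) * ((∫⁻ w, e w) * surface univ))) := by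
      have hC : Measurable (Function.uncurry fun v (p : V3 × S2) => cub p.1 * k v p) := by
        simp only [hk]; fun_prop
      have hF : Measurable (Function.uncurry fun v (p : V3 × S2) => f v * e p.1) := by fun_prop
      have hG : Measurable (Function.uncurry fun v (p : V3 × S2) => e v * f p.1) := by fun_prop
      have e1 : ∀ v, ∫⁻ p, (cub v * k v p + cub p.1 * k v p +
            (f v * e p.1 + e v * f p.1 + 2 * (e v * e p.1))) ∂((volume : Measure V3).prod surface) =
          (∫⁻ p, cub v * k v p ∂((volume : Measure V3).prod surface)) +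
            (∫⁻ p, cub p.1 * k v p ∂((volume : Measure V3).prod surface)) +
          ((∫⁻ p : V3 × S2, f v * e p.1 ∂((volume : Measure V3).prod surface)) +
            (∫⁻ p : V3 × S2, e v * f p.1 ∂((volume : Measure V3).prod surface)) +
            2 * ∫⁻ p : V3 × S2, e v * e p.1 ∂((volume : Measure V3).prod surface)) := by
        intro v
        rw [lintegral_add_left (by simp only [hk]; fun_prop),
          lintegral_add_left (by simp only [hk]; fun_prop), lintegral_add_left (by fun_prop),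
          lintegral_add_left (by fun_prop),
          lintegral_const_mul (2 : ℝ≥0∞) (show Measurable fun p : V3 × S2 => e v * e p.1 by fun_prop)]
      rw [lintegral_congr e1, lintegral_add_left
          (Measurable.fun_add (Measurable.lintegral_prod_right hB)
            (Measurable.lintegral_prod_right hC)),
        lintegral_add_left (Measurable.lintegral_prod_right hB),
        lintegral_add_left (Measurable.fun_add (Measurable.lintegral_prod_right hF)
            (Measurable.lintegral_prod_right hG)),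
        lintegral_add_left (Measurable.lintegral_prod_right hF),
        lintegral_const_mul' _ _ ENNReal.ofNat_ne_top,
        hint f e hfm hem, hint e f hem hfm, hint e e hem hem]
    _ = _ := by
      rw [hB2]
      simp only [he, hf, energy]
      ring

lemma lintegral_cub_rhs {u : V3 → ℝ≥0∞} (hu : Measurable u) :
    ∫⁻ v, cub v * rhs u v ≤ energy u * (∫⁻ v, cub v * (ENNReal.ofReal (freq v) * u v)) +
      surface univ * energy u * ((∫⁻ v, cub v * u v) + energy u) := by
  simp only [rhs, mul_add]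
  rw [lintegral_add_left (by fun_prop)]
  refine (add_le_add (lintegral_cub_gain hu) le_rfl).trans_eq ?_
  rw [add_right_comm, ← lintegral_add_left (by fun_prop), ← lintegral_const_mul _ (by fun_prop),
    mul_add]
  congr 1
  refine lintegral_congr fun v => ?_
  rw [← mul_add, ← mul_add, add_comm (lossRate u v), resid_add_lossRate hu]
  ring

/-! ### The iteration -/

/-- `u₀ = 0`, `uₙ₊₁(t) = e^{-λ t} f₀ + ∫₀ᵗ e^{-λ (t-s)} (Q⁺ + u R)(uₙ(s)) ds`. -/
noncomputable def iter (E₀ : ℝ) (f₀ : V3 → ℝ) : ℕ → ℝ → V3 → ℝ≥0∞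
  | 0 => fun _ _ => 0
  | n + 1 => fun t v => ENNReal.ofReal (exp (-(freq v * E₀) * t)) * ENNReal.ofReal (f₀ v) +
      ∫⁻ s in Ioc 0 t, ENNReal.ofReal (exp (-(freq v * E₀) * (t - s))) * rhs (iter E₀ f₀ n s) v

/-- The limit of the iteration. -/
noncomputable def lim (E₀ : ℝ) (f₀ : V3 → ℝ) (t : ℝ) (v : V3) : ℝ≥0∞ := ⨆ n, iter E₀ f₀ n t v

lemma measurable_rhs_param {U : ℝ → V3 → ℝ≥0∞} (hU : Measurable (Function.uncurry U)) :
    Measurable fun w : ℝ × V3 => rhs (U w.1) w.2 := by
  have h1 : Measurable fun w : ℝ × V3 => gain (U w.1) (U w.1) w.2 :=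
    Measurable.lintegral_prod_right' (f := fun q : (ℝ × V3) × (V3 × S2) =>
      ENNReal.ofReal |impact q.1.2 q.2| * Function.uncurry U (q.1.1, postV q.1.2 q.2) *
        Function.uncurry U (q.1.1, postW q.1.2 q.2)) (by fun_prop)
  have h2 : Measurable fun w : ℝ × V3 => resid (U w.1) w.2 :=
    Measurable.lintegral_prod_right' (f := fun q : (ℝ × V3) × (V3 × S2) =>
      ENNReal.ofReal (2 * (1 + ‖q.1.2‖) * (1 + ‖q.2.1‖ ^ 2) - |impact q.1.2 q.2|) *
        Function.uncurry U (q.1.1, q.2.1)) (by fun_prop)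
  exact h1.add (hU.mul h2)

variable {E₀ : ℝ} {f₀ : V3 → ℝ}

lemma measurable_iter (hf : Measurable f₀) :
    ∀ n, Measurable (Function.uncurry (iter E₀ f₀ n))
  | 0 => measurable_const
  | n + 1 => by
    simp only [iter]
    refine Measurable.add (f := fun w : ℝ × V3 =>
      ENNReal.ofReal (exp (-(freq w.2 * E₀) * w.1)) * ENNReal.ofReal (f₀ w.2)) (by fun_prop) ?_
    simp only [← lintegral_indicator measurableSet_Ioc]
    refine Measurable.lintegral_prod_right' (f := fun q : (ℝ × V3) × ℝ =>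
      (Ioc 0 q.1.1).indicator (fun s => ENNReal.ofReal (exp (-(freq q.1.2 * E₀) * (q.1.1 - s))) *
        rhs (iter E₀ f₀ n s) q.1.2) q.2) ?_
    have hs : MeasurableSet {q : (ℝ × V3) × ℝ | 0 < q.2 ∧ q.2 ≤ q.1.1} :=
      (measurableSet_lt measurable_const measurable_snd).inter
        (measurableSet_le measurable_snd (by fun_prop))
    exact Measurable.ite hs (Measurable.mul (by fun_prop)
      ((measurable_rhs_param (measurable_iter hf n)).comp
        (f := fun q : (ℝ × V3) × ℝ => (q.2, q.1.2)) (by fun_prop))) measurable_const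

lemma measurable_iter_time (hf : Measurable f₀) (n : ℕ) (t : ℝ) : Measurable (iter E₀ f₀ n t) :=
  (measurable_iter hf n).comp measurable_prodMk_left

lemma measurable_lim (hf : Measurable f₀) : Measurable (Function.uncurry (lim E₀ f₀)) :=
  Measurable.iSup fun n => measurable_iter hf n

lemma measurable_lim_time (hf : Measurable f₀) (t : ℝ) : Measurable (lim E₀ f₀ t) :=
  (measurable_lim hf).comp measurable_prodMk_left

lemma iter_le_succ : ∀ n t v, iter E₀ f₀ n t v ≤ iter E₀ f₀ (n + 1) t v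
  | 0, _, _ => zero_le
  | n + 1, t, v => by
    simp only [iter]
    exact add_le_add le_rfl (lintegral_mono fun s => mul_le_mul' le_rfl
      (rhs_mono (fun w => iter_le_succ n s w) v))

lemma iter_mono (t : ℝ) : Monotone fun n => iter E₀ f₀ n t :=
  monotone_nat_of_le_succ fun n v => iter_le_succ n t v

lemma measurable_section {U : ℝ → V3 → ℝ≥0∞} (hU : Measurable (Function.uncurry U)) (v : V3) :
    Measurable fun s => U s v :=
  hU.comp measurable_prodMk_right

lemma lintegral_time_swap {ω : V3 → ℝ≥0∞} (hω : Measurable ω) {U : ℝ → V3 → ℝ≥0∞}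
    (hU : Measurable (Function.uncurry U)) (t : ℝ) :
    ∫⁻ s in Ioc 0 t, ∫⁻ v, ω v * U s v = ∫⁻ v, ω v * ∫⁻ s in Ioc 0 t, U s v := by
  have hm : Measurable (Function.uncurry fun (s : ℝ) (v : V3) => ω v * U s v) :=
    (hω.comp measurable_snd).mul hU
  rw [lintegral_lintegral_swap hm.aemeasurable]
  exact lintegral_congr fun v => lintegral_const_mul _ (hU.comp measurable_prodMk_right)

lemma energy_mul_weight (ω u : V3 → ℝ≥0∞) :
    ENNReal.ofReal E₀ * ∫⁻ v, ω v * (ENNReal.ofReal (freq v) * u v) =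
      ∫⁻ v, ω v * (ENNReal.ofReal (freq v * E₀) * u v) := by
  rw [← lintegral_const_mul' _ _ ENNReal.ofReal_ne_top]
  refine lintegral_congr fun v => ?_
  rw [ENNReal.ofReal_mul (freq_nonneg v)]; ring

lemma measurable_freq_mul {U : ℝ → V3 → ℝ≥0∞} (hU : Measurable (Function.uncurry U)) :
    Measurable (Function.uncurry fun s v => ENNReal.ofReal (freq v * E₀) * U s v) :=
  (ENNReal.measurable_ofReal.comp ((measurable_freq.comp measurable_snd).mul_const E₀)).mul hU

/-- A weighted moment of the scheme. -/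
lemma iter_balance (hE₀ : 0 ≤ E₀) (hf : Measurable f₀) {ω : V3 → ℝ≥0∞} (hω : Measurable ω)
    (n : ℕ) {t : ℝ} (ht : 0 ≤ t) :
    (∫⁻ v, ω v * iter E₀ f₀ (n + 1) t v) + ∫⁻ s in Ioc 0 t,
        ENNReal.ofReal E₀ * ∫⁻ v, ω v * (ENNReal.ofReal (freq v) * iter E₀ f₀ (n + 1) s v) =
      (∫⁻ v, ω v * ENNReal.ofReal (f₀ v)) +
        ∫⁻ s in Ioc 0 t, ∫⁻ v, ω v * rhs (iter E₀ f₀ n s) v := by
  have hX := measurable_iter (E₀ := E₀) hf (n + 1)
  have hR : Measurable (Function.uncurry fun s v => rhs (iter E₀ f₀ n s) v) :=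
    measurable_rhs_param (measurable_iter (E₀ := E₀) hf n)
  simp only [energy_mul_weight]
  rw [lintegral_time_swap hω (measurable_freq_mul hX), lintegral_time_swap hω hR,
    ← lintegral_add_left (hω.fun_mul (measurable_iter_time hf (n + 1) t)),
    ← lintegral_add_left (hω.fun_mul hf.ennreal_ofReal)]
  refine lintegral_congr fun v => ?_
  rw [← mul_add, ← mul_add]
  congr 1
  have hG : Measurable fun s => rhs (iter E₀ f₀ n s) v :=
    measurable_section (U := fun s v => rhs (iter E₀ f₀ n s) v) hR v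
  have h := duhamel_identity (mul_nonneg (freq_nonneg v) hE₀) ht (ENNReal.ofReal (f₀ v))
    (G := fun s => rhs (iter E₀ f₀ n s) v) hG
  rw [iter]
  exact h

/-- Data for the iteration: `E₀` is the energy and `P` the third moment. -/
structure Data (E₀ P : ℝ) (f₀ : V3 → ℝ) : Prop where
  measurable : Measurable f₀
  energy_nonneg : 0 ≤ E₀
  energy_eq : energy (fun v => ENNReal.ofReal (f₀ v)) = ENNReal.ofReal E₀
  cub_nonneg : 0 ≤ P
  cub_eq : ∫⁻ v, cub v * ENNReal.ofReal (f₀ v) = ENNReal.ofReal P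

variable {P : ℝ}

lemma energy_iter_le (D : Data E₀ P f₀) : ∀ (n : ℕ) (t : ℝ), 0 ≤ t →
    energy (iter E₀ f₀ n t) ≤ ENNReal.ofReal E₀ ∧ ∫⁻ s in Ioc 0 t, ENNReal.ofReal E₀ *
      ∫⁻ v, hw v * (ENNReal.ofReal (freq v) * iter E₀ f₀ n s v) ≠ ⊤
  | 0, t, _ => by simp [iter, energy]
  | n + 1, t, ht => by
    have hb := iter_balance D.energy_nonneg D.measurable measurable_hw n ht
    have hstep : ∫⁻ s in Ioc 0 t, ∫⁻ v, hw v * rhs (iter E₀ f₀ n s) v ≤
        ∫⁻ s in Ioc 0 t, ENNReal.ofReal E₀ *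
          ∫⁻ v, hw v * (ENNReal.ofReal (freq v) * iter E₀ f₀ n s v) := by
      refine setLIntegral_mono' measurableSet_Ioc fun s hs => ?_
      rw [lintegral_hw_rhs (measurable_iter_time D.measurable n s)]
      exact mul_le_mul' (energy_iter_le D n s hs.1.le).1 le_rfl
    set A := ∫⁻ s in Ioc 0 t, ENNReal.ofReal E₀ *
      ∫⁻ v, hw v * (ENNReal.ofReal (freq v) * iter E₀ f₀ (n + 1) s v)
    have hA : ∫⁻ s in Ioc 0 t, ENNReal.ofReal E₀ *
        ∫⁻ v, hw v * (ENNReal.ofReal (freq v) * iter E₀ f₀ n s v) ≤ A :=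
      lintegral_mono fun s => mul_le_mul' le_rfl (lintegral_mono fun v =>
        mul_le_mul' le_rfl (mul_le_mul' le_rfl (iter_le_succ n s v)))
    have h0 := D.energy_eq
    simp only [energy] at h0 ⊢
    rw [h0] at hb
    have hAtop : A ≠ ⊤ := by
      refine ne_top_of_le_ne_top ?_ (le_add_self.trans_eq hb)
      exact ENNReal.add_ne_top.2 ⟨ENNReal.ofReal_ne_top,
        ne_top_of_le_ne_top (energy_iter_le D n t ht).2 hstep⟩
    refine ⟨ENNReal.le_of_add_le_add_right hAtop ?_, hAtop⟩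
    rw [hb]
    exact add_le_add le_rfl (hstep.trans hA)

/-- The growth rate of the third moment. -/
noncomputable def growth (E₀ : ℝ) : ℝ := (surface univ).toReal * E₀

lemma cub_iter_le (D : Data E₀ P f₀) : ∀ (n : ℕ) (t : ℝ), 0 ≤ t →
    (∫⁻ v, cub v * iter E₀ f₀ n t v) + ENNReal.ofReal E₀ ≤
        ENNReal.ofReal ((P + E₀) * exp (growth E₀ * t)) ∧
      ∫⁻ s in Ioc 0 t, ENNReal.ofReal E₀ *
        ∫⁻ v, cub v * (ENNReal.ofReal (freq v) * iter E₀ f₀ n s v) ≠ ⊤
  | 0, t, ht => by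
    have h1 : (1 : ℝ) ≤ exp (growth E₀ * t) :=
      one_le_exp (mul_nonneg (mul_nonneg ENNReal.toReal_nonneg D.energy_nonneg) ht)
    have := D.cub_nonneg
    simp only [iter, mul_zero, lintegral_zero, zero_add, ne_eq, ENNReal.zero_ne_top,
      not_false_eq_true, and_true]
    exact ENNReal.ofReal_le_ofReal (by nlinarith [D.energy_nonneg])
  | n + 1, t, ht => by
    have hE0 := D.energy_nonneg
    have hPE : 0 ≤ P + E₀ := add_nonneg D.cub_nonneg hE0
    have hg : 0 ≤ growth E₀ := mul_nonneg ENNReal.toReal_nonneg hE0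
    have hb := iter_balance hE0 D.measurable measurable_cub n ht
    have hstep : ∫⁻ s in Ioc 0 t, ∫⁻ v, cub v * rhs (iter E₀ f₀ n s) v ≤
        (∫⁻ s in Ioc 0 t, ENNReal.ofReal E₀ *
          ∫⁻ v, cub v * (ENNReal.ofReal (freq v) * iter E₀ f₀ n s v)) +
        ENNReal.ofReal ((P + E₀) * (exp (growth E₀ * t) - 1)) := by
      have hexp : ∫⁻ s in Ioc 0 t,
          ENNReal.ofReal (P + E₀) * ENNReal.ofReal (growth E₀ * exp (growth E₀ * s)) =
          ENNReal.ofReal ((P + E₀) * (exp (growth E₀ * t) - 1)) := by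
        rw [lintegral_const_mul' _ _ ENNReal.ofReal_ne_top, lintegral_Ioc_exp hg ht, mul_zero,
          exp_zero, ← ENNReal.ofReal_mul hPE]
      rw [← hexp, ← lintegral_add_right _ (by fun_prop)]
      refine setLIntegral_mono' measurableSet_Ioc fun s hs => ?_
      refine (lintegral_cub_rhs (measurable_iter_time D.measurable n s)).trans ?_
      refine add_le_add (mul_le_mul' (energy_iter_le D n s hs.1.le).1 le_rfl) ?_
      refine (mul_le_mul' (mul_le_mul' le_rfl (energy_iter_le D n s hs.1.le).1)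
        ((add_le_add le_rfl (energy_iter_le D n s hs.1.le).1).trans
          (cub_iter_le D n s hs.1.le).1)).trans_eq ?_
      rw [← ENNReal.ofReal_toReal (measure_ne_top surface univ),
        ← ENNReal.ofReal_mul ENNReal.toReal_nonneg, ← ENNReal.ofReal_mul hPE,
        ← ENNReal.ofReal_mul (mul_nonneg ENNReal.toReal_nonneg hE0), growth]
      congr 1; ring
    set A := ∫⁻ s in Ioc 0 t, ENNReal.ofReal E₀ *
      ∫⁻ v, cub v * (ENNReal.ofReal (freq v) * iter E₀ f₀ (n + 1) s v)
    have hA : ∫⁻ s in Ioc 0 t, ENNReal.ofReal E₀ *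
        ∫⁻ v, cub v * (ENNReal.ofReal (freq v) * iter E₀ f₀ n s v) ≤ A :=
      lintegral_mono fun s => mul_le_mul' le_rfl (lintegral_mono fun v =>
        mul_le_mul' le_rfl (mul_le_mul' le_rfl (iter_le_succ n s v)))
    rw [D.cub_eq] at hb
    have hAtop : A ≠ ⊤ := by
      refine ne_top_of_le_ne_top ?_ (le_add_self.trans_eq hb)
      exact ENNReal.add_ne_top.2 ⟨ENNReal.ofReal_ne_top, ne_top_of_le_ne_top
        (ENNReal.add_ne_top.2 ⟨(cub_iter_le D n t ht).2, ENNReal.ofReal_ne_top⟩) hstep⟩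
    refine ⟨ENNReal.le_of_add_le_add_right hAtop ?_, hAtop⟩
    rw [add_right_comm, hb]
    have hsum : ENNReal.ofReal ((P + E₀) * exp (growth E₀ * t)) =
        ENNReal.ofReal P + ENNReal.ofReal ((P + E₀) * (exp (growth E₀ * t) - 1)) +
          ENNReal.ofReal E₀ := by
      have h1 : 0 ≤ (P + E₀) * (exp (growth E₀ * t) - 1) :=
        mul_nonneg hPE (sub_nonneg.2 (one_le_exp (mul_nonneg hg ht)))
      rw [← ENNReal.ofReal_add D.cub_nonneg h1,
        ← ENNReal.ofReal_add (add_nonneg D.cub_nonneg h1) hE0]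
      congr 1; ring
    rw [hsum]
    refine le_trans (add_le_add (add_le_add le_rfl (hstep.trans (add_le_add hA le_rfl))) le_rfl) ?_
    exact le_of_eq (by ring)

/-! ### The limit -/

lemma energy_lim_le (D : Data E₀ P f₀) {t : ℝ} (ht : 0 ≤ t) :
    energy (lim E₀ f₀ t) ≤ ENNReal.ofReal E₀ := by
  have h : energy (lim E₀ f₀ t) = ⨆ n, energy (iter E₀ f₀ n t) := by
    simp only [energy, lim, ENNReal.mul_iSup]
    exact lintegral_iSup (f := fun n v => hw v * iter E₀ f₀ n t v)
      (fun n => measurable_hw.mul (measurable_iter_time D.measurable n t))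
      fun i j hij v => mul_le_mul' le_rfl (iter_mono t hij v)
  rw [h]
  exact iSup_le fun n => (energy_iter_le D n t ht).1

lemma cub_lim_le (D : Data E₀ P f₀) {T t : ℝ} (ht : t ∈ Icc 0 T) :
    ∫⁻ v, cub v * lim E₀ f₀ t v ≤ ENNReal.ofReal ((P + E₀) * exp (growth E₀ * T)) := by
  simp only [lim, ENNReal.mul_iSup]
  rw [lintegral_iSup (f := fun n v => cub v * iter E₀ f₀ n t v)
    (fun n => measurable_cub.mul (measurable_iter_time D.measurable n t))
    (fun i j hij v => mul_le_mul' le_rfl (iter_mono t hij v))]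
  refine iSup_le fun n => (le_self_add.trans (cub_iter_le D n t ht.1).1).trans ?_
  refine ENNReal.ofReal_le_ofReal (mul_le_mul_of_nonneg_left ?_
    (add_nonneg D.cub_nonneg D.energy_nonneg))
  exact exp_le_exp.2 (mul_le_mul_of_nonneg_left ht.2
    (mul_nonneg ENNReal.toReal_nonneg D.energy_nonneg))

/-- The limit solves the linearly shifted equation. -/
lemma lim_equation (D : Data E₀ P f₀) (v : V3) {t : ℝ} (ht : 0 ≤ t) :
    lim E₀ f₀ t v + ∫⁻ s in Ioc 0 t, ENNReal.ofReal (freq v * E₀) * lim E₀ f₀ s v =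
      ENNReal.ofReal (f₀ v) + ∫⁻ s in Ioc 0 t, rhs (lim E₀ f₀ s) v := by
  have hb := mul_nonneg (freq_nonneg v) D.energy_nonneg
  have hI : ∀ n, Measurable fun s => iter E₀ f₀ n s v := fun n =>
    measurable_section (U := iter E₀ f₀ n) (measurable_iter D.measurable n) v
  have hR : ∀ n, Measurable fun s => rhs (iter E₀ f₀ n s) v := fun n =>
    measurable_section (U := fun s v => rhs (iter E₀ f₀ n s) v)
      (measurable_rhs_param (measurable_iter D.measurable n)) v
  have h1 : lim E₀ f₀ t v + ∫⁻ s in Ioc 0 t, ENNReal.ofReal (freq v * E₀) * lim E₀ f₀ s v =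
      ⨆ n, (iter E₀ f₀ (n + 1) t v +
        ∫⁻ s in Ioc 0 t, ENNReal.ofReal (freq v * E₀) * iter E₀ f₀ (n + 1) s v) := by
    have e : ∀ s, lim E₀ f₀ s v = ⨆ n, iter E₀ f₀ (n + 1) s v := fun s => by
      have hmn : Monotone fun n => iter E₀ f₀ n s v := fun i j hij => iter_mono s hij v
      exact (hmn.iSup_nat_add 1).symm
    have hm1 : Monotone fun n => iter E₀ f₀ (n + 1) t v := fun i j hij =>
      iter_mono t (Nat.succ_le_succ hij) v
    have hm2 : Monotone fun n => fun s => ENNReal.ofReal (freq v * E₀) * iter E₀ f₀ (n + 1) s v :=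
      fun i j hij s => mul_le_mul' le_rfl (iter_mono s (Nat.succ_le_succ hij) v)
    have hm3 : Monotone fun n =>
        ∫⁻ s in Ioc 0 t, ENNReal.ofReal (freq v * E₀) * iter E₀ f₀ (n + 1) s v :=
      fun i j hij => lintegral_mono (hm2 hij)
    simp only [e, ENNReal.mul_iSup]
    rw [lintegral_iSup (f := fun n s => ENNReal.ofReal (freq v * E₀) * iter E₀ f₀ (n + 1) s v)
      (fun n => (hI (n + 1)).const_mul _) hm2, ENNReal.iSup_add_iSup_of_monotone hm1 hm3]
  have h2 : ∫⁻ s in Ioc 0 t, rhs (lim E₀ f₀ s) v =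
      ⨆ n, ∫⁻ s in Ioc 0 t, rhs (iter E₀ f₀ n s) v := by
    rw [← lintegral_iSup (f := fun n s => rhs (iter E₀ f₀ n s) v) hR
      (fun i j hij s => rhs_mono (iter_mono s hij) v)]
    exact lintegral_congr fun s =>
      rhs_iSup (fun n => measurable_iter_time D.measurable n s) (iter_mono s) v
  rw [h1, h2, ENNReal.add_iSup]
  refine iSup_congr fun n => ?_
  have h := duhamel_identity hb ht (ENNReal.ofReal (f₀ v))
    (G := fun s => rhs (iter E₀ f₀ n s) v) (hR n)
  rw [iter]
  exact h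

lemma lintegral_hw_freq_le (v : V3) :
    hw v * ENNReal.ofReal (freq v) ≤ ENNReal.ofReal (4 * (surface univ).toReal) * (hw v + cub v) := by
  rw [hw, cub, ← ENNReal.ofReal_mul (by positivity), ← ENNReal.ofReal_add (by positivity)
    (by positivity), ← ENNReal.ofReal_mul (by positivity)]
  refine ENNReal.ofReal_le_ofReal ?_
  simp only [freq]
  have h : (1 + ‖v‖ ^ 2) * (1 + ‖v‖) ≤ 2 * (1 + ‖v‖ ^ 2 + ‖v‖ ^ 3) := by
    nlinarith [sq_nonneg (‖v‖ - 1), pow_nonneg (norm_nonneg v) 3]
  nlinarith [mul_le_mul_of_nonneg_left h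
    (mul_nonneg zero_le_two ENNReal.toReal_nonneg : (0:ℝ) ≤ 2 * (surface univ).toReal)]

lemma weight_lim_le (D : Data E₀ P f₀) {T t : ℝ} (ht : t ∈ Icc 0 T) :
    ∫⁻ v, hw v * (ENNReal.ofReal (freq v) * lim E₀ f₀ t v) ≤
      ENNReal.ofReal (4 * (surface univ).toReal * (E₀ + (P + E₀) * exp (growth E₀ * T))) := by
  have hu := measurable_lim_time (E₀ := E₀) D.measurable t
  calc _ ≤ ∫⁻ v, ENNReal.ofReal (4 * (surface univ).toReal) *
        (hw v * lim E₀ f₀ t v + cub v * lim E₀ f₀ t v) := lintegral_mono fun v => by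
        rw [← mul_assoc, ← add_mul, ← mul_assoc]
        exact mul_le_mul' (lintegral_hw_freq_le v) le_rfl
    _ ≤ _ := by
      rw [lintegral_const_mul _ (by fun_prop), lintegral_add_left (by fun_prop),
        ENNReal.ofReal_mul (p := 4 * (surface univ).toReal) (by positivity), ENNReal.ofReal_add D.energy_nonneg
          (mul_nonneg (add_nonneg D.cub_nonneg D.energy_nonneg) (exp_pos _).le)]
      exact mul_le_mul' le_rfl (add_le_add (energy_lim_le D ht.1) (cub_lim_le D ht))

/-- The energy of the limit is conserved. -/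
lemma energy_lim_eq (D : Data E₀ P f₀) {T t : ℝ} (ht : t ∈ Icc 0 T) :
    energy (lim E₀ f₀ t) = ENNReal.ofReal E₀ := by
  have hE0 := D.energy_nonneg
  set c := 4 * (surface univ).toReal * (E₀ + (P + E₀) * exp (growth E₀ * T)) with hc
  have hc0 : 0 ≤ c := mul_nonneg (by positivity) (add_nonneg hE0
    (mul_nonneg (add_nonneg D.cub_nonneg hE0) (exp_pos _).le))
  have hu := measurable_lim (E₀ := E₀) D.measurable
  set W : ℝ → ℝ≥0∞ := fun s => ∫⁻ v, hw v * (ENNReal.ofReal (freq v) * lim E₀ f₀ s v) with hW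
  set d : ℝ → ℝ≥0∞ := fun s => ENNReal.ofReal E₀ - energy (lim E₀ f₀ s) with hd
  have hWm : Measurable W := Measurable.lintegral_prod_right' (f := fun q : ℝ × V3 =>
    hw q.2 * (ENNReal.ofReal (freq q.2) * Function.uncurry (lim E₀ f₀) q)) (by fun_prop)
  have hEm : Measurable fun s => energy (lim E₀ f₀ s) := Measurable.lintegral_prod_right'
    (f := fun q : ℝ × V3 => hw q.2 * Function.uncurry (lim E₀ f₀) q) (by fun_prop)
  have hdm : Measurable d := measurable_const.sub hEm
  have key : ∀ r ∈ Icc 0 T, d r ≤ ∫⁻ s in Ioc 0 r, ENNReal.ofReal c * d s := by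
    intro r hr
    have hR := measurable_rhs_param hu
    have hb : energy (lim E₀ f₀ r) + ∫⁻ s in Ioc 0 r, ENNReal.ofReal E₀ * W s =
        ENNReal.ofReal E₀ + ∫⁻ s in Ioc 0 r, energy (lim E₀ f₀ s) * W s := by
      have e2 : ∀ s, ENNReal.ofReal E₀ * W s =
          ∫⁻ v, hw v * (ENNReal.ofReal (freq v * E₀) * lim E₀ f₀ s v) :=
        fun s => energy_mul_weight hw _
      have e3 : ∀ s, energy (lim E₀ f₀ s) * W s = ∫⁻ v, hw v * rhs (lim E₀ f₀ s) v :=
        fun s => (lintegral_hw_rhs (measurable_lim_time D.measurable s)).symm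
      simp_rw [e2, e3]
      have hR' : Measurable (Function.uncurry fun s v => rhs (lim E₀ f₀ s) v) := hR
      rw [lintegral_time_swap measurable_hw (measurable_freq_mul hu),
        lintegral_time_swap measurable_hw hR',
        energy, ← lintegral_add_left (measurable_hw.fun_mul (measurable_lim_time D.measurable r))]
      conv_rhs => rw [← D.energy_eq, energy, ← lintegral_add_left (measurable_hw.fun_mul D.measurable.ennreal_ofReal)]
      refine lintegral_congr fun v => ?_
      rw [← mul_add, ← mul_add, lim_equation D v hr.1]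
    have hsplit : ∫⁻ s in Ioc 0 r, ENNReal.ofReal E₀ * W s =
        (∫⁻ s in Ioc 0 r, energy (lim E₀ f₀ s) * W s) + ∫⁻ s in Ioc 0 r, d s * W s := by
      rw [← lintegral_add_left (hEm.fun_mul hWm)]
      refine setLIntegral_congr_fun measurableSet_Ioc fun s hs => ?_
      simp only [hd]
      rw [← add_mul, add_tsub_cancel_of_le (energy_lim_le D hs.1.le)]
    have hfin : ∫⁻ s in Ioc 0 r, energy (lim E₀ f₀ s) * W s ≠ ⊤ := by
      refine ne_top_of_le_ne_top (ENNReal.mul_ne_top
        (ENNReal.mul_ne_top (ENNReal.ofReal_ne_top (r := E₀)) (ENNReal.ofReal_ne_top (r := c)))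
        (measure_Ioc_lt_top (μ := volume) (a := (0 : ℝ)) (b := r)).ne) ?_
      rw [← setLIntegral_const]
      exact setLIntegral_mono' measurableSet_Ioc fun s hs =>
        mul_le_mul' (energy_lim_le D hs.1.le) (weight_lim_le D ⟨hs.1.le, hs.2.trans hr.2⟩)
    rw [hsplit, add_comm (ENNReal.ofReal E₀), ← add_assoc,
      add_comm (energy (lim E₀ f₀ r)), add_assoc, ENNReal.add_right_inj hfin] at hb
    calc d r = ENNReal.ofReal E₀ - energy (lim E₀ f₀ r) := rfl
      _ ≤ ∫⁻ s in Ioc 0 r, d s * W s := tsub_le_iff_left.2 hb.ge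
      _ ≤ _ := setLIntegral_mono' measurableSet_Ioc fun s hs => by
        rw [mul_comm]
        exact mul_le_mul' (weight_lim_le D ⟨hs.1.le, hs.2.trans hr.2⟩) le_rfl
  have hiter : ∀ n : ℕ, ∀ r ∈ Icc 0 T,
      d r ≤ ENNReal.ofReal ((1 / 2) ^ n * E₀ * exp (2 * c * r)) := by
    intro n
    induction n with
    | zero =>
      intro r hr
      refine tsub_le_self.trans (ENNReal.ofReal_le_ofReal ?_)
      rw [pow_zero, one_mul]
      exact le_mul_of_one_le_right hE0 (one_le_exp (mul_nonneg (by positivity) hr.1))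
    | succ n ih =>
      intro r hr
      refine (key r hr).trans ((setLIntegral_mono' measurableSet_Ioc fun s hs =>
        mul_le_mul' le_rfl (ih s ⟨hs.1.le, hs.2.trans hr.2⟩)).trans ?_)
      have e : ∀ s, ENNReal.ofReal c * ENNReal.ofReal ((1 / 2) ^ n * E₀ * exp (2 * c * s)) =
          ENNReal.ofReal ((1 / 2) ^ (n + 1) * E₀) * ENNReal.ofReal (2 * c * exp (2 * c * s)) :=
        fun s => by
          rw [← ENNReal.ofReal_mul hc0, ← ENNReal.ofReal_mul (by positivity)]
          congr 1; ring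
      simp_rw [e]
      rw [lintegral_const_mul' _ _ ENNReal.ofReal_ne_top,
        lintegral_Ioc_exp (by positivity : 0 ≤ 2 * c) hr.1,
        ← ENNReal.ofReal_mul (by positivity : (0:ℝ) ≤ (1 / 2) ^ (n + 1) * E₀)]
      refine ENNReal.ofReal_le_ofReal (mul_le_mul_of_nonneg_left ?_ (by positivity))
      rw [mul_zero, exp_zero]; linarith
  have hzero : d t = 0 := by
    refine le_antisymm ?_ zero_le
    have hl : Tendsto (fun n : ℕ => ENNReal.ofReal ((1 / 2) ^ n * E₀ * exp (2 * c * t))) atTop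
        (𝓝 0) := by
      have := (((tendsto_pow_atTop_nhds_zero_of_lt_one (by norm_num : (0 : ℝ) ≤ 1 / 2)
        (by norm_num)).mul_const E₀).mul_const (exp (2 * c * t)))
      rw [zero_mul, zero_mul] at this
      simpa [Function.comp_def] using (ENNReal.continuous_ofReal.tendsto 0).comp this
    exact ge_of_tendsto' hl fun n => hiter n t ht
  exact le_antisymm (energy_lim_le D ht.1) (tsub_eq_zero_iff_le.1 hzero)

/-! ### Back to real-valued solutions -/

lemma one_le_hw (v : V3) : 1 ≤ hw v := by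
  rw [hw, ← ENNReal.ofReal_one]
  exact ENNReal.ofReal_le_ofReal (le_add_of_nonneg_right (sq_nonneg _))

lemma lintegral_le_hw (f : V3 → ℝ≥0∞) : ∫⁻ v, f v ≤ ∫⁻ v, hw v * f v :=
  lintegral_mono fun v => le_mul_of_one_le_left' (one_le_hw v)

lemma lim_zero (D : Data E₀ P f₀) (v : V3) : lim E₀ f₀ 0 v = ENNReal.ofReal (f₀ v) := by
  simpa using lim_equation D v le_rfl

lemma ae_lim_lt_top (D : Data E₀ P f₀) {t : ℝ} (ht : 0 ≤ t) : ∀ᵐ v : V3, lim E₀ f₀ t v < ⊤ :=
  ae_lt_top (measurable_lim_time D.measurable t) (ne_top_of_le_ne_top ENNReal.ofReal_ne_top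
    ((lintegral_le_hw _).trans (energy_lim_le D ht)))

/-- The finite part of the limit. -/
noncomputable def fin (E₀ : ℝ) (f₀ : V3 → ℝ) (t : ℝ) (v : V3) : ℝ≥0∞ :=
  ENNReal.ofReal (lim E₀ f₀ t v).toReal

lemma measurable_fin (hf : Measurable f₀) : Measurable (Function.uncurry (fin E₀ f₀)) :=
  (measurable_lim hf).ennreal_toReal.ennreal_ofReal

lemma measurable_gain_time {U : ℝ → V3 → ℝ≥0∞} (hU : Measurable (Function.uncurry U)) :
    Measurable (Function.uncurry fun s v => gain (U s) (U s) v) :=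
  Measurable.lintegral_prod_right' (f := fun q : (ℝ × V3) × (V3 × S2) =>
    ENNReal.ofReal |impact q.1.2 q.2| * Function.uncurry U (q.1.1, postV q.1.2 q.2) *
      Function.uncurry U (q.1.1, postW q.1.2 q.2)) (by fun_prop)

lemma measurable_lossRate_time {U : ℝ → V3 → ℝ≥0∞} (hU : Measurable (Function.uncurry U)) :
    Measurable (Function.uncurry fun s v => lossRate (U s) v) :=
  Measurable.lintegral_prod_right' (f := fun q : (ℝ × V3) × (V3 × S2) =>
    ENNReal.ofReal |impact q.1.2 q.2| * Function.uncurry U (q.1.1, q.2.1)) (by fun_prop)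

lemma fin_le (t : ℝ) : fin E₀ f₀ t ≤ lim E₀ f₀ t := fun _ => ENNReal.ofReal_toReal_le

lemma fin_ae_eq (D : Data E₀ P f₀) {t : ℝ} (ht : 0 ≤ t) : fin E₀ f₀ t =ᵐ[volume] lim E₀ f₀ t :=
  (ae_lim_lt_top D ht).mono fun _ h => ENNReal.ofReal_toReal h.ne

lemma lossRate_fin (D : Data E₀ P f₀) {t : ℝ} (ht : 0 ≤ t) (v : V3) :
    lossRate (fin E₀ f₀ t) v = lossRate (lim E₀ f₀ t) v := by
  refine lintegral_congr_ae ?_
  filter_upwards [Measure.quasiMeasurePreserving_fst.ae (fin_ae_eq D ht)] with p hp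
  rw [hp]

lemma gain_fin_ae_eq (D : Data E₀ P f₀) {T t : ℝ} (ht : t ∈ Icc 0 T) :
    gain (fin E₀ f₀ t) (fin E₀ f₀ t) =ᵐ[volume] gain (lim E₀ f₀ t) (lim E₀ f₀ t) := by
  have hu := measurable_lim_time (E₀ := E₀) D.measurable t
  have hu' : Measurable (fin E₀ f₀ t) := hu.ennreal_toReal.ennreal_ofReal
  have hL : ∫⁻ v, fin E₀ f₀ t v * lossRate (fin E₀ f₀ t) v =
      ∫⁻ v, lim E₀ f₀ t v * lossRate (lim E₀ f₀ t) v :=
    lintegral_congr_ae ((fin_ae_eq D ht.1).mono fun v hv => by
      simp only [hv, lossRate_fin D ht.1 v])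
  refine ae_eq_of_ae_le_of_lintegral_le
    (Eventually.of_forall fun v => gain_mono (fin_le t) (fin_le t) v) ?_
    (measurable_gain hu hu).aemeasurable (by rw [lintegral_gain hu hu, lintegral_gain hu' hu', hL])
  rw [lintegral_gain hu' hu', hL]
  refine ne_top_of_le_ne_top (ENNReal.mul_ne_top (ENNReal.ofReal_ne_top (r := E₀))
    ENNReal.ofReal_ne_top) (le_trans ?_ (mul_le_mul' le_rfl (weight_lim_le D ht)))
  rw [← lintegral_const_mul' _ _ ENNReal.ofReal_ne_top]
  refine lintegral_mono fun v => ?_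
  calc lim E₀ f₀ t v * lossRate (lim E₀ f₀ t) v
      ≤ lim E₀ f₀ t v * (ENNReal.ofReal (freq v) * energy (lim E₀ f₀ t)) :=
        mul_le_mul' le_rfl ((le_add_self).trans_eq (resid_add_lossRate hu v))
    _ ≤ 1 * (lim E₀ f₀ t v * (ENNReal.ofReal (freq v) * ENNReal.ofReal E₀)) := by
        rw [one_mul]
        exact mul_le_mul' le_rfl (mul_le_mul' le_rfl (energy_lim_le D ht.1))
    _ ≤ hw v * (lim E₀ f₀ t v * (ENNReal.ofReal (freq v) * ENNReal.ofReal E₀)) :=
        mul_le_mul' (one_le_hw v) le_rfl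
    _ = _ := by ring

lemma lintegral_rhs_time_ne_top (D : Data E₀ P f₀) (T : ℝ) :
    ∫⁻ v, ∫⁻ s in Ioc 0 T, rhs (lim E₀ f₀ s) v ≠ ⊤ := by
  have hR : Measurable (Function.uncurry fun s v => rhs (lim E₀ f₀ s) v) :=
    measurable_rhs_param (measurable_lim D.measurable)
  refine ne_top_of_le_ne_top ?_ (lintegral_le_hw _)
  rw [← lintegral_time_swap measurable_hw hR]
  refine ne_top_of_le_ne_top (ENNReal.mul_ne_top
    (ENNReal.mul_ne_top (ENNReal.ofReal_ne_top (r := E₀)) (ENNReal.ofReal_ne_top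
      (r := 4 * (surface univ).toReal * (E₀ + (P + E₀) * exp (growth E₀ * T)))))
    (measure_Ioc_lt_top (μ := volume) (a := (0 : ℝ)) (b := T)).ne) ?_
  rw [← setLIntegral_const]
  refine setLIntegral_mono' measurableSet_Ioc fun s hs => ?_
  rw [lintegral_hw_rhs (measurable_lim_time D.measurable s)]
  exact mul_le_mul' (energy_lim_le D hs.1.le) (weight_lim_le D ⟨hs.1.le, hs.2⟩)

/-- The finite part solves the mild equation at almost every velocity. -/
lemma fin_equation (D : Data E₀ P f₀) (hf0 : ∀ v, 0 ≤ f₀ v) (T : ℝ) :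
    ∀ᵐ v : V3, ∀ t ∈ Icc 0 T, (lim E₀ f₀ t v).toReal = f₀ v + ∫ s in (0 : ℝ)..t,
      ((gain (fin E₀ f₀ s) (fin E₀ f₀ s) v).toReal -
        (fin E₀ f₀ s v * lossRate (fin E₀ f₀ s) v).toReal) := by
  have hu := measurable_lim (E₀ := E₀) D.measurable
  have hR : Measurable (Function.uncurry fun s v => rhs (lim E₀ f₀ s) v) :=
    measurable_rhs_param hu
  have hRv := ae_lt_top
    (show Measurable fun v => ∫⁻ s in Ioc 0 T, rhs (lim E₀ f₀ s) v from
      Measurable.lintegral_prod_left' (f := fun q : ℝ × V3 => rhs (lim E₀ f₀ q.1) q.2) hR)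
    (lintegral_rhs_time_ne_top D T)
  have hgae : ∀ᵐ v : V3, ∀ᵐ s ∂((volume : Measure ℝ).restrict (Ioc 0 T)),
      gain (fin E₀ f₀ s) (fin E₀ f₀ s) v = gain (lim E₀ f₀ s) (lim E₀ f₀ s) v := by
    have hm : MeasurableSet {w : ℝ × V3 | gain (fin E₀ f₀ w.1) (fin E₀ f₀ w.1) w.2 =
        gain (lim E₀ f₀ w.1) (lim E₀ f₀ w.1) w.2} :=
      measurableSet_eq_fun (measurable_gain_time (measurable_fin D.measurable))
        (measurable_gain_time hu)
    have h1 : ∀ᵐ s ∂((volume : Measure ℝ).restrict (Ioc 0 T)), ∀ᵐ v : V3,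
        gain (fin E₀ f₀ s) (fin E₀ f₀ s) v = gain (lim E₀ f₀ s) (lim E₀ f₀ s) v :=
      (ae_restrict_iff' measurableSet_Ioc).2
        (Eventually.of_forall fun s hs => gain_fin_ae_eq D ⟨hs.1.le, hs.2⟩)
    exact (Measure.ae_ae_comm hm).1 h1
  filter_upwards [hRv, hgae] with v hv hgv t ht
  set μ := (volume : Measure ℝ).restrict (Ioc 0 t) with hμ
  have hsub : Ioc (0 : ℝ) t ⊆ Ioc 0 T := Ioc_subset_Ioc_right ht.2
  have hle : ∀ s, 0 ≤ s → s ≤ T → lim E₀ f₀ s v ≠ ⊤ := fun s h1 h2 =>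
    ne_top_of_le_ne_top (ENNReal.add_ne_top.2 ⟨ENNReal.ofReal_ne_top,
      ne_top_of_le_ne_top hv.ne (lintegral_mono_set (Ioc_subset_Ioc_right h2))⟩)
      (le_self_add.trans_eq (lim_equation D v h1))
  have hA := measurable_section (U := fun s v => gain (lim E₀ f₀ s) (lim E₀ f₀ s) v)
    (measurable_gain_time hu) v
  have hB := measurable_section (U := fun s v => lim E₀ f₀ s v * lossRate (lim E₀ f₀ s) v)
    (hu.mul (measurable_lossRate_time hu)) v
  have hRes : ∫⁻ s in Ioc 0 t, lim E₀ f₀ s v * resid (lim E₀ f₀ s) v ≠ ⊤ :=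
    ne_top_of_le_ne_top hv.ne ((lintegral_mono fun s => le_add_self).trans
      (lintegral_mono_set hsub))
  have hAfin : ∫⁻ s in Ioc 0 t, gain (lim E₀ f₀ s) (lim E₀ f₀ s) v ≠ ⊤ :=
    ne_top_of_le_ne_top hv.ne ((lintegral_mono fun s => le_self_add).trans
      (lintegral_mono_set hsub))
  have heq : lim E₀ f₀ t v + ∫⁻ s in Ioc 0 t, lim E₀ f₀ s v * lossRate (lim E₀ f₀ s) v =
      ENNReal.ofReal (f₀ v) + ∫⁻ s in Ioc 0 t, gain (lim E₀ f₀ s) (lim E₀ f₀ s) v := by
    have h := lim_equation D v ht.1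
    have e1 : ∫⁻ s in Ioc 0 t, ENNReal.ofReal (freq v * E₀) * lim E₀ f₀ s v =
        (∫⁻ s in Ioc 0 t, lim E₀ f₀ s v * lossRate (lim E₀ f₀ s) v) +
          ∫⁻ s in Ioc 0 t, lim E₀ f₀ s v * resid (lim E₀ f₀ s) v := by
      rw [← lintegral_add_left hB]
      refine setLIntegral_congr_fun measurableSet_Ioc fun s hs => ?_
      rw [← mul_add, add_comm (lossRate _ v),
        resid_add_lossRate (measurable_lim_time D.measurable s),
        energy_lim_eq D (T := T) ⟨hs.1.le, hs.2.trans ht.2⟩, ENNReal.ofReal_mul (freq_nonneg v)]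
      ring
    have e2 : ∫⁻ s in Ioc 0 t, rhs (lim E₀ f₀ s) v =
        (∫⁻ s in Ioc 0 t, gain (lim E₀ f₀ s) (lim E₀ f₀ s) v) +
          ∫⁻ s in Ioc 0 t, lim E₀ f₀ s v * resid (lim E₀ f₀ s) v :=
      lintegral_add_left hA _
    rwa [e1, e2, ← add_assoc, ← add_assoc, ENNReal.add_left_inj hRes] at h
  have hBfin : ∫⁻ s in Ioc 0 t, lim E₀ f₀ s v * lossRate (lim E₀ f₀ s) v ≠ ⊤ :=
    ne_top_of_le_ne_top (ENNReal.add_ne_top.2 ⟨ENNReal.ofReal_ne_top, hAfin⟩)
      (le_add_self.trans_eq heq)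
  have hreal := congrArg ENNReal.toReal heq
  rw [ENNReal.toReal_add (hle t ht.1 ht.2) hBfin,
    ENNReal.toReal_add ENNReal.ofReal_ne_top hAfin, ENNReal.toReal_ofReal (hf0 v)] at hreal
  have hAi := integrable_toReal_of_lintegral_ne_top hA.aemeasurable (μ := μ) hAfin
  have hBi := integrable_toReal_of_lintegral_ne_top hB.aemeasurable (μ := μ) hBfin
  have hcong : ∀ᵐ s ∂μ, (gain (fin E₀ f₀ s) (fin E₀ f₀ s) v).toReal -
      (fin E₀ f₀ s v * lossRate (fin E₀ f₀ s) v).toReal =
      (gain (lim E₀ f₀ s) (lim E₀ f₀ s) v).toReal -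
        (lim E₀ f₀ s v * lossRate (lim E₀ f₀ s) v).toReal := by
    filter_upwards [ae_restrict_of_ae_restrict_of_subset hsub hgv,
      ae_restrict_mem measurableSet_Ioc] with s hs hmem
    rw [hs, lossRate_fin D hmem.1.le,
      show fin E₀ f₀ s v = lim E₀ f₀ s v from
        ENNReal.ofReal_toReal (hle s hmem.1.le (hmem.2.trans ht.2))]
  rw [intervalIntegral.integral_of_le ht.1, integral_congr_ae hcong, integral_sub hAi hBi,
    integral_toReal hA.aemeasurable (ae_lt_top hA hAfin),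
    integral_toReal hB.aemeasurable (ae_lt_top hB hBfin)]
  linarith

end Vale.Agent.P140.Renorm.Hom3

namespace Vale.Agent.P140.Renorm

open Vale.Agent.P140 Hom3

/-- Global mild existence for x-independent data with a finite third moment. -/
theorem exists_momentMild_homogeneous {f0 : V3 → ℝ} (hm : Measurable f0) (h0 : ∀ v, 0 ≤ f0 v)
    (h3 : ∫⁻ v : V3, ENNReal.ofReal ((1 + ‖v‖) ^ 3) * ENNReal.ofReal (f0 v) ≠ ⊤) (T : ℝ) :
    ∃ C g, IsMomentMild T C g ∧ g 0 =ᵐ[volume] fun z : Omega => f0 z.2 := by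
  have hcube : ∀ r : ℝ, 0 ≤ r → 1 + r ^ 2 ≤ (1 + r) ^ 3 ∧ r ^ 3 ≤ (1 + r) ^ 3 ∧
      (1 + r) ^ 3 ≤ 4 * (1 + r ^ 2 + r ^ 3) := fun r hr =>
    ⟨by nlinarith [pow_nonneg hr 3], pow_le_pow_left₀ hr (by linarith) 3,
      by nlinarith [mul_nonneg (add_nonneg zero_le_one hr) (sq_nonneg (r - 1))]⟩
  have hE : energy (fun v => ENNReal.ofReal (f0 v)) ≠ ⊤ :=
    ne_top_of_le_ne_top h3 (lintegral_mono fun v => mul_le_mul'
      (ENNReal.ofReal_le_ofReal (hcube _ (norm_nonneg v)).1) le_rfl)
  have hP : ∫⁻ v, cub v * ENNReal.ofReal (f0 v) ≠ ⊤ :=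
    ne_top_of_le_ne_top h3 (lintegral_mono fun v => mul_le_mul'
      (ENNReal.ofReal_le_ofReal (hcube _ (norm_nonneg v)).2.1) le_rfl)
  set E₀ := (energy (fun v => ENNReal.ofReal (f0 v))).toReal
  set P := (∫⁻ v, cub v * ENNReal.ofReal (f0 v)).toReal
  have D : Data E₀ P f0 :=
    ⟨hm, ENNReal.toReal_nonneg, (ENNReal.ofReal_toReal hE).symm, ENNReal.toReal_nonneg,
      (ENNReal.ofReal_toReal hP).symm⟩
  refine ⟨4 * (E₀ + (P + E₀) * exp (growth E₀ * T)), fun t z => (lim E₀ f0 t z.2).toReal,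
    ⟨((measurable_lim hm).comp (f := fun w : ℝ × Omega => (w.1, w.2.2)) (by fun_prop)).ennreal_toReal,
      fun t _ z => ENNReal.toReal_nonneg, fun t ht x => ?_, ?_⟩, ?_⟩
  · change ∫⁻ v, ENNReal.ofReal ((1 + ‖v‖) ^ 3) * fin E₀ f0 t v ≤ _
    calc _ ≤ ∫⁻ v, ENNReal.ofReal 4 * (hw v * lim E₀ f0 t v + cub v * lim E₀ f0 t v) :=
          lintegral_mono fun v => by
            rw [← add_mul, ← mul_assoc, hw, cub, ← ENNReal.ofReal_add (by positivity)
              (by positivity), ← ENNReal.ofReal_mul (by norm_num)]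
            exact mul_le_mul' (ENNReal.ofReal_le_ofReal (hcube _ (norm_nonneg v)).2.2) (fin_le t v)
      _ ≤ _ := by
          have hu := measurable_lim_time (E₀ := E₀) hm t
          rw [lintegral_const_mul _ (by fun_prop), lintegral_add_left (by fun_prop),
            ENNReal.ofReal_mul (p := 4) (by norm_num), ENNReal.ofReal_add D.energy_nonneg
              (mul_nonneg (add_nonneg D.cub_nonneg D.energy_nonneg) (exp_pos _).le)]
          exact mul_le_mul' le_rfl (add_le_add (energy_lim_le D ht.1) (cub_lim_le D ht))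
  · filter_upwards [Measure.quasiMeasurePreserving_snd.ae (fin_equation D h0 T)] with z hz t ht
    simp only [shift_snd, lim_zero D, ENNReal.toReal_ofReal (h0 _)]
    exact hz t ht
  · exact Eventually.of_forall fun z => by
      simp only [lim_zero D, ENNReal.toReal_ofReal (h0 _)]

end Vale.Agent.P140.Renorm
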