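import Vale.Agent.P140.Renorm.Moments

/-!
# Global Maxwellians are renormalized solutions and mild solutions below a profile
-/

open MeasureTheory Real Set Filter
open scoped RealInnerProductSpace ENNReal Topology

namespace Vale.Agent.P140.Renorm

open Vale.Agent.P140

variable {ρ θ : ℝ} {u : V3}

lemma post_add (v : V3) (p : V3 × S2) : postV v p + postW v p = v + p.1 := by
  rw [postV, postW]; module

lemma maxwellian_post (v : V3) (p : V3 × S2) :
    maxwellian ρ u θ (postV v p) * maxwellian ρ u θ (postW v p)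
      = maxwellian ρ u θ v * maxwellian ρ u θ p.1 := by
  have h2 : ⟪postV v p, u⟫ + ⟪postW v p, u⟫ = ⟪v, u⟫ + ⟪p.1, u⟫ := by
    rw [← inner_add_left, ← inner_add_left, post_add]
  have h : ‖postV v p - u‖ ^ 2 + ‖postW v p - u‖ ^ 2 = ‖v - u‖ ^ 2 + ‖p.1 - u‖ ^ 2 := by
    simp only [norm_sub_sq_real]
    linarith [energy_post v p]
  have e : exp (-‖postV v p - u‖ ^ 2 / (2 * θ)) * exp (-‖postW v p - u‖ ^ 2 / (2 * θ)) =
      exp (-‖v - u‖ ^ 2 / (2 * θ)) * exp (-‖p.1 - u‖ ^ 2 / (2 * θ)) := by
    rw [← exp_add, ← exp_add]; congr 1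
    rw [← add_div, ← add_div, ← neg_add, ← neg_add, h]
  simp only [maxwellian]
  linear_combination (ρ * (2 * π * θ) ^ (-(3 / 2 : ℝ))) ^ 2 * e

/-- The collision operator vanishes at a Maxwellian. -/
lemma Qcoll_maxwellian (hρ : 0 < ρ) (hθ : 0 < θ) (z : Omega) :
    Qcoll (fun z : Omega => maxwellian ρ u θ z.2) z = 0 := by
  have hm : Measurable (maxwellian ρ u θ) := continuous_maxwellian.measurable
  have h : Qplus (fun z : Omega => maxwellian ρ u θ z.2) z
      = Qminus (fun z : Omega => maxwellian ρ u θ z.2) z := by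
    simp only [Qplus, Qminus, gain, lossRate, slice]
    rw [← lintegral_const_mul _ (by fun_prop)]
    refine lintegral_congr fun p => ?_
    rw [mul_assoc, ← ENNReal.ofReal_mul (maxwellian_pos hρ hθ _).le, maxwellian_post,
      ENNReal.ofReal_mul (maxwellian_pos hρ hθ _).le]
    ring
  rw [Qcoll, h, sub_self]

/-- A global Maxwellian is a mild solution below itself on every time interval. -/
theorem isProfileMild_maxwellian (hρ : 0 < ρ) (hθ : 0 < θ) (u : V3) :
    ∃ m, HasExpMoment 1 m ∧ ∀ T, 0 ≤ T →
      IsProfileMild T m (fun _ z => maxwellian ρ u θ z.2) := by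
  refine ⟨maxwellian ρ u θ, ⟨continuous_maxwellian.measurable,
    fun v => (maxwellian_pos hρ hθ v).le, ?_⟩, fun T _ => ⟨?_,
    fun t _ z => ⟨(maxwellian_pos hρ hθ _).le, le_rfl⟩, ?_⟩⟩
  · have hi := (integrable_exp_sq (1 / (4 * θ)) (by positivity) u).const_mul
      (ρ * (2 * π * θ) ^ (-(3 / 2 : ℝ)) * exp (θ + ‖u‖))
    refine hi.mono' (continuous_maxwellian.mul (by fun_prop)).aestronglyMeasurable
      (Eventually.of_forall fun v => ?_)
    rw [Real.norm_eq_abs, abs_of_nonneg (mul_nonneg (maxwellian_pos hρ hθ v).le (exp_pos _).le),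
      maxwellian, mul_assoc _ (exp _), mul_assoc _ (exp (θ + ‖u‖)), ← exp_add, ← exp_add]
    refine mul_le_mul_of_nonneg_left (exp_le_exp.2 ?_) (by positivity)
    have h1 : ‖v‖ ≤ ‖v - u‖ + ‖u‖ := norm_le_norm_sub_add _ _
    have h2 : -‖v - u‖ ^ 2 / (2 * θ) + ‖v - u‖
        ≤ θ + -(1 / (4 * θ)) * ‖v - u‖ ^ 2 := by
      field_simp
      nlinarith [sq_nonneg (‖v - u‖ - 2 * θ)]
    linarith
  · exact (continuous_maxwellian.measurable.comp measurable_snd).comp measurable_snd
  · filter_upwards with z t _
    simp [Qcoll_maxwellian hρ hθ]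

/-- A measurable section of the projection `ℝ³ → 𝕋³`. -/
noncomputable def unitCell (x : T3) : V3 :=
  WithLp.toLp 2 fun i => (AddCircle.measurableEquivIco 1 0 (x i) : ℝ)

lemma toT3_unitCell (x : T3) : toT3 (unitCell x) = x := by
  funext i
  exact AddCircle.coe_equivIco (p := (1 : ℝ)) (a := 0)

lemma measurable_unitCell : Measurable unitCell :=
  (WithLp.measurable_toLp 2 _).comp (measurable_pi_lambda _ fun i =>
    measurable_subtype_coe.comp
      ((AddCircle.measurableEquivIco (T := (1 : ℝ)) 0).measurable.comp (measurable_pi_apply i)))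

lemma norm_unitCell_le (x : T3) : ‖unitCell x‖ ≤ 2 := by
  rw [EuclideanSpace.norm_eq]
  refine Real.sqrt_le_iff.2 ⟨by norm_num, ?_⟩
  have h : ∀ i, ‖unitCell x i‖ ^ 2 ≤ 1 := fun i => by
    have h := (AddCircle.measurableEquivIco (T := (1 : ℝ)) 0 (x i)).2
    have h1 : unitCell x i = (AddCircle.measurableEquivIco (T := (1 : ℝ)) 0 (x i) : ℝ) := rfl
    rw [h1, Real.norm_eq_abs, sq_abs]
    nlinarith [h.1, h.2]
  simp only [Fin.sum_univ_three]
  linarith [h 0, h 1, h 2]

/-- A test function in coordinates of `ℝ × ℝ³ × ℝ³`. -/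
noncomputable def lift (φ : ℝ → Omega → ℝ) (w : ℝ × V3 × V3) : ℝ := φ w.1 (toT3 w.2.1, w.2.2)

/-- The transport derivative in coordinates. -/
noncomputable def liftTransport (φ : ℝ → Omega → ℝ) (w : ℝ × V3 × V3) : ℝ :=
  fderiv ℝ (lift φ) w (1, w.2.2, 0)

variable {φ : ℝ → Omega → ℝ}

lemma hasDerivAt_line (hφ : IsTest φ) (y v : V3) (t : ℝ) :
    HasDerivAt (fun s => φ s (shift s (toT3 y, v))) (liftTransport φ (t, y + t • v, v)) t := by
  have hd : HasFDerivAt (lift φ) (fderiv ℝ (lift φ) (t, y + t • v, v)) (t, y + t • v, v) :=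
    (hφ.1.differentiable (by simp)).differentiableAt.hasFDerivAt
  have hc : HasDerivAt (fun s : ℝ => (s, y + s • v, v)) ((1 : ℝ), v, (0 : V3)) t := by
    have h1 : HasDerivAt (fun s : ℝ => y + s • v) v t := by
      simpa using ((hasDerivAt_id t).smul_const v).const_add y
    exact (hasDerivAt_id t).prodMk (h1.prodMk (hasDerivAt_const t v))
  refine (hd.comp_hasDerivAt t hc).congr_of_eventuallyEq (Eventually.of_forall fun s => ?_)
  simp [lift, shift, toT3_add]

lemma transport_line (φ : ℝ → Omega → ℝ) (t : ℝ) (z : Omega) :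
    transport φ t (shift t z) = deriv (fun s => φ s (shift s z)) t := by
  have e : (fun s : ℝ => φ (t + s) (shift s (shift t z)))
      = fun s => (fun r => φ r (shift r z)) (t + s) := by
    funext s; rw [shift_shift]
  rw [transport, e, deriv_comp_const_add (f := fun r => φ r (shift r z)) t 0, add_zero]

lemma transport_eq (hφ : IsTest φ) (t : ℝ) (z : Omega) :
    transport φ t z = liftTransport φ (t, unitCell z.1, z.2) := by
  have h := (hasDerivAt_line hφ (unitCell z.1 - t • z.2) z.2 t).deriv
  rw [sub_add_cancel, ← transport_line] at h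
  rwa [shift, show toT3 (unitCell z.1 - t • z.2) + toT3 (t • z.2) = z.1 by
    rw [← toT3_add, sub_add_cancel, toT3_unitCell], Prod.mk.eta] at h

lemma continuous_liftTransport (hφ : IsTest φ) : Continuous (liftTransport φ) := by
  have h : Continuous (fderiv ℝ (lift φ)) := hφ.1.continuous_fderiv (by simp)
  exact h.clm_apply (by fun_prop)

lemma measurable_transport (hφ : IsTest φ) :
    Measurable (fun q : ℝ × Omega => transport φ q.1 q.2) := by
  simp_rw [transport_eq hφ]
  exact (continuous_liftTransport hφ).measurable.comp (measurable_fst.prodMk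
    ((measurable_unitCell.comp (measurable_fst.comp measurable_snd)).prodMk
      (measurable_snd.comp measurable_snd)))

lemma transport_eq_zero {R : ℝ} (hR : ∀ t z, R < |t| ∨ R < ‖z.2‖ → φ t z = 0) (t : ℝ) (z : Omega)
    (h : R < |t| ∨ R < ‖z.2‖) : transport φ t z = 0 := by
  have he : (fun s : ℝ => φ (t + s) (shift s z)) =ᶠ[𝓝 0] fun _ => (0 : ℝ) := by
    rcases h with ht | hv
    · have hopen : IsOpen {s : ℝ | R < |t + s|} := isOpen_lt continuous_const (by fun_prop)
      filter_upwards [hopen.mem_nhds (show R < |t + 0| by rwa [add_zero])] with s hs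
      exact hR _ _ (Or.inl hs)
    · exact Eventually.of_forall fun s => hR _ _ (Or.inr hv)
  rw [transport, he.deriv_eq, deriv_const]

/-- The transport term of a time-independent profile of velocity alone. -/
lemma integral_mul_transport (hφ : IsTest φ) {h : V3 → ℝ} (hc : Continuous h) :
    (∫ t in Ioi (0 : ℝ), ∫ z : Omega, h z.2 * transport φ t z)
      + ∫ z : Omega, h z.2 * φ 0 z = 0 := by
  obtain ⟨R, hR⟩ := hφ.2
  set K : ℝ × Omega → ℝ := fun q => h q.2.2 * transport φ q.1 (shift q.1 q.2) with hK
  have hKm : Measurable K := ((hc.measurable.comp measurable_snd).comp measurable_snd).mul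
    ((measurable_transport hφ).comp (measurable_fst.prodMk measurable_shift'))
  set S : Set (ℝ × Omega) := Icc (-|R|) |R| ×ˢ (univ ×ˢ Metric.closedBall 0 |R|) with hS
  obtain ⟨B, hB⟩ := (isCompact_Icc (a := -|R|) (b := |R|) |>.prod
    ((isCompact_closedBall (0 : V3) 2).prod (isCompact_closedBall (0 : V3) |R|))).exists_bound_of_continuousOn
      ((continuous_liftTransport hφ).continuousOn)
  obtain ⟨D, hD⟩ := (isCompact_closedBall (0 : V3) |R|).exists_bound_of_continuousOn hc.continuousOn
  have hbound : ∀ q, ‖K q‖ ≤ S.indicator (fun _ => |D| * |B|) q := by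
    intro q
    by_cases hq : q ∈ S
    · rw [indicator_of_mem hq]
      simp only [hK, norm_mul, transport_eq hφ]
      obtain ⟨h1, -, h2⟩ := hq
      refine mul_le_mul ((hD _ h2).trans (le_abs_self D)) ((hB _ ⟨h1, ?_, ?_⟩).trans (le_abs_self B))
        (norm_nonneg _) (abs_nonneg _)
      · exact mem_closedBall_zero_iff.2 (norm_unitCell_le _)
      · simpa using h2
    · rw [indicator_of_notMem hq]
      have hz : R < |q.1| ∨ R < ‖q.2.2‖ := by
        by_contra hn
        push Not at hn
        exact hq ⟨abs_le.1 (hn.1.trans (le_abs_self R)), trivial,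
          mem_closedBall_zero_iff.2 (hn.2.trans (le_abs_self R))⟩
      simp [hK, transport_eq_zero hR q.1 (shift q.1 q.2) (by simpa using hz)]
  have hKi : Integrable K ((volume.restrict (Ioi (0 : ℝ))).prod (volume : Measure Omega)) := by
    have hSm : MeasurableSet S := measurableSet_Icc.prod (MeasurableSet.univ.prod
      Metric.isClosed_closedBall.measurableSet)
    have hfin : ((volume.restrict (Ioi (0 : ℝ))).prod (volume : Measure Omega)) S < ⊤ := by
      rw [hS, Measure.prod_prod, Measure.volume_eq_prod T3 V3, Measure.prod_prod]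
      exact ENNReal.mul_lt_top ((Measure.restrict_apply_le _ _).trans_lt measure_Icc_lt_top)
        (ENNReal.mul_lt_top (measure_lt_top _ _) measure_closedBall_lt_top)
    refine Integrable.mono' ?_ hKm.aestronglyMeasurable (Eventually.of_forall hbound)
    exact (integrable_indicator_iff hSm).2 (integrableOn_const hfin.ne)
  have hshift : ∀ t : ℝ, ∫ z : Omega, h z.2 * transport φ t z = ∫ z : Omega, K (t, z) := fun t => by
    have hm : Measurable (fun z : Omega => h z.2 * transport φ t z) :=
      (hc.measurable.comp measurable_snd).mul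
        ((measurable_transport hφ).comp measurable_prodMk_left)
    have e := integral_map (measurable_shift t).aemeasurable hm.aestronglyMeasurable (μ := volume)
    rw [(measurePreserving_shift t).map_eq] at e
    exact e
  have hftc : ∀ z : Omega, ∫ t in Ioi (0 : ℝ), K (t, z) = -(h z.2 * φ 0 z) := by
    intro z
    set G : ℝ → ℝ := fun s => φ s (shift s z) with hG
    have hGd : ContDiff ℝ 1 G := by
      have e : G = fun s : ℝ => lift φ (s, unitCell z.1 + s • z.2, z.2) := by
        funext s
        simp [hG, lift, shift, toT3_add, toT3_unitCell]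
      rw [e]
      exact (hφ.1.of_le (by simp)).comp (by fun_prop)
    have hGs : HasCompactSupport G := by
      refine HasCompactSupport.intro (isCompact_Icc (a := -|R|) (b := |R|)) fun s hs => ?_
      refine hR _ _ (Or.inl (lt_of_le_of_lt (le_abs_self R) ?_))
      by_contra hn
      exact hs (abs_le.1 (not_lt.1 hn))
    simp only [hK, transport_line]
    rw [integral_const_mul, hGs.integral_Ioi_deriv_eq hGd 0, hG]
    simp [shift_zero]
  rw [setIntegral_congr_fun measurableSet_Ioi fun t _ => hshift t,
    integral_integral_swap (f := fun t z => K (t, z)) hKi,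
    integral_congr_ae (Eventually.of_forall hftc), integral_neg, neg_add_cancel]

/-- A global Maxwellian is a renormalized solution. -/
theorem isRenormSolution_maxwellian (hρ : 0 < ρ) (hθ : 0 < θ) (u : V3) :
    IsRenormSolution (fun z => maxwellian ρ u θ z.2) (fun _ z => maxwellian ρ u θ z.2) := by
  obtain ⟨m, hm, hg⟩ := isProfileMild_maxwellian hρ hθ u
  refine ⟨?_, fun _ z => (maxwellian_pos hρ hθ _).le, fun t _ => ⟨?_, ?_⟩, EventuallyEq.rfl,
    fun g _ _ => continuousOn_const, ?_, fun t _ => le_rfl, ?_, ?_⟩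
  · exact (continuous_maxwellian.measurable.comp measurable_snd).comp measurable_snd
  · exact integrable_snd (integrable_maxwellian hθ)
  · exact (integrable_snd (integrable_sq_mul_maxwellian hθ)).congr
      (Eventually.of_forall fun z => mul_comm _ _)
  · intro ψ hψ hs
    rw [integral_mul_const, hs.integral_Ioi_deriv_eq (hψ.of_le (by simp)) 0]
    ring
  · intro T hT
    have hE : ∫⁻ z : Omega, envelope m z.2 < ⊤ := by
      have he : ∫⁻ v, envelope m v < ⊤ :=
        lt_of_le_of_lt (lintegral_mono fun v => le_mul_of_one_le_left' (by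
          rw [← ENNReal.ofReal_one]
          exact ENNReal.ofReal_le_ofReal (one_le_pow₀ (le_add_of_nonneg_right (norm_nonneg v)))))
          (lintegral_weight_envelope hm one_pos).lt_top
      rw [Measure.volume_eq_prod T3 V3,
        lintegral_prod (fun z : Omega => envelope m z.2)
          ((measurable_envelope hm.measurable).comp measurable_snd).aemeasurable]
      simp only [lintegral_const]
      exact ENNReal.mul_lt_top he (measure_lt_top _ _)
    have key : ∀ Q : ℝ → Omega → ℝ≥0∞,
        (∀ t ∈ Icc 0 T, ∀ z, Q t z ≤ envelope m z.2) →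
        (∫⁻ t in Icc 0 T, ∫⁻ z : Omega, Q t z / ENNReal.ofReal
          (1 + maxwellian ρ u θ z.2 / M0 z.2)) < ⊤ := by
      intro Q hQ
      refine lt_of_le_of_lt (setLIntegral_mono measurable_const fun t ht => lintegral_mono fun z => ?_)
        (show (∫⁻ _ in Icc 0 T, ∫⁻ z : Omega, envelope m z.2) < ⊤ from ?_)
      · have h1 : 1 ≤ ENNReal.ofReal (1 + maxwellian ρ u θ z.2 / M0 z.2) := by
          rw [← ENNReal.ofReal_one]
          refine ENNReal.ofReal_le_ofReal (le_add_of_nonneg_right ?_)
          exact (div_pos (maxwellian_pos hρ hθ _) (maxwellian_pos one_pos one_pos _)).le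
        exact ((ENNReal.div_le_div le_rfl h1).trans (div_one _).le).trans (hQ t ht z)
      · rw [setLIntegral_const]
        refine ENNReal.mul_lt_top ?_ measure_Icc_lt_top
        exact hE
    exact ⟨key _ fun t ht z => Qplus_profile_le (hg T hT) ht z,
      key _ fun t ht z => Qminus_profile_le (hg T hT) ht z⟩
  · intro β hβ _ _ φ hφ
    have hpos : ∀ v, maxwellian ρ u θ v / M0 v ∈ Ici (0 : ℝ) := fun v =>
      (div_pos (maxwellian_pos hρ hθ v) (maxwellian_pos one_pos one_pos v)).le
    have hc : Continuous (fun v => M0 v * β (maxwellian ρ u θ v / M0 v)) :=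
      continuous_maxwellian.mul (hβ.continuousOn.comp_continuous
        (continuous_maxwellian.div₀ continuous_maxwellian
          fun v => (maxwellian_pos one_pos one_pos v).ne') hpos)
    simpa [Qcoll_maxwellian hρ hθ] using integral_mul_transport hφ hc

end Vale.Agent.P140.Renorm
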