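import Vale.Agent.P140.Renorm.ProdLine

/-!
# Weak-strong uniqueness under finite energy and moment production

The weight-one inequality gives `∫ (g-F)₊ ≤ K ∫₀ᵗ y`, `y = ∫ (1+|v|²)(g-F)₊`, which absorbs the
factor `1/s` of the third moment in the weighted inequality on `[r,t]`; the limit `r → 0` uses
only conservation of mass and energy.
-/

open MeasureTheory Real Set
open scoped RealInnerProductSpace ENNReal NNReal BoundedContinuousFunction

namespace Vale.Agent.P140.Renorm

open Vale.Agent.P140

variable {T C : ℝ} {g : ℝ → Omega → ℝ} {F₀ : Omega → ℝ} {F : ℝ → Omega → ℝ}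

/-- The rate of the unweighted inequality. -/
noncomputable def rate0 (C : ℝ) : ℝ≥0∞ := 4 * (ENNReal.ofReal C * surface univ)

/-- The bounded part of the rate of the weighted inequality. -/
noncomputable def rate2 (C : ℝ) : ℝ≥0∞ := 2 * (ENNReal.ofReal C * surface univ)

lemma rate0_ne_top (C : ℝ) : rate0 C ≠ ⊤ :=
  ENNReal.mul_ne_top ENNReal.ofNat_ne_top
    (ENNReal.mul_ne_top ENNReal.ofReal_ne_top (measure_ne_top _ _))

lemma rate2_ne_top (C : ℝ) : rate2 C ≠ ⊤ :=
  ENNReal.mul_ne_top ENNReal.ofNat_ne_top
    (ENNReal.mul_ne_top ENNReal.ofReal_ne_top (measure_ne_top _ _))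

lemma prod_rate_one_le (hg : IsProdMild T C g) (h : IsRenormSolution (g 0) F) {s : ℝ}
    (hs : s ∈ Icc 0 T) :
    (∫⁻ z : Omega, 1 * (majorant (F s) (g s) z + selfLoss (F s) (g s) z)) ≤
      (∫⁻ z : Omega, 1 * (ENNReal.ofReal (g s z - F s z) * lossRate (slice (g s) z.1) z.2)) +
        3 * rate0 C * wMass (fun z => g s z - F s z) := by
  have hgm : Measurable (g s) := hg.measurable.comp measurable_prodMk_left
  have hFm : Measurable (F s) := h.measurable.comp measurable_prodMk_left
  refine (prod_rate_le (w := fun _ => (1 : ℝ≥0∞)) measurable_const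
    (fun f k hf hk => by
      simp only [one_mul]; rw [lintegral_gain hf hk, lintegral_gain hk hf])
    hFm hgm (h.nonneg s) (a := 0) (b := rate0 C) (fun x k hk => ?_)).trans
      (add_le_add le_rfl ?_)
  · simp only [one_mul, zero_mul, zero_add]
    refine (lintegral_loss_le (measurable_slice hgm x) hk).trans ?_
    calc (∫⁻ v, w1 v * slice (g s) x v) * ((∫⁻ w, w1 w * k w) * surface univ)
        ≤ 2 * ENNReal.ofReal C * ((2 * ∫⁻ w, wt w * k w) * surface univ) := by
          gcongr
          · exact hg.moment_one hs x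
          · exact lintegral_w1_le_two
      _ = _ := by rw [rate0]; ring
  · rw [zero_mul, zero_add]
    calc rate0 C * (wMass (fun z => F s z - g s z) + 2 * wMass (fun z => g s z - F s z))
        ≤ rate0 C * (wMass (fun z => g s z - F s z) + 2 * wMass (fun z => g s z - F s z)) := by
          gcongr; exact prod_wMass_pos_le hg h hs
      _ = _ := by ring

lemma prod_rate_wt_le (hg : IsProdMild T C g) (h : IsRenormSolution (g 0) F) {s : ℝ}
    (hs : s ∈ Ioc 0 T) :
    (∫⁻ z : Omega, wt z.2 * (majorant (F s) (g s) z + selfLoss (F s) (g s) z)) ≤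
      (∫⁻ z : Omega, wt z.2 * (ENNReal.ofReal (g s z - F s z) * lossRate (slice (g s) z.1) z.2)) +
        (3 * (ENNReal.ofReal (C / s) * surface univ) * posMass (fun z => g s z - F s z) +
          3 * rate2 C * wMass (fun z => g s z - F s z)) := by
  have hgm : Measurable (g s) := hg.measurable.comp measurable_prodMk_left
  have hFm : Measurable (F s) := h.measurable.comp measurable_prodMk_left
  have hsI : s ∈ Icc 0 T := Ioc_subset_Icc_self hs
  refine (prod_rate_le measurable_wt (fun f k hf hk => lintegral_wt_gain_add hf hk)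
    hFm hgm (h.nonneg s) (a := ENNReal.ofReal (C / s) * surface univ) (b := rate2 C)
    (fun x k hk => ?_)).trans (add_le_add le_rfl ?_)
  · refine (lintegral_wt_loss_split_le (measurable_slice hgm x) hk).trans ?_
    calc ((∫⁻ v, w3 v * slice (g s) x v) * (∫⁻ w, k w) +
          (∫⁻ v, wt v * slice (g s) x v) * ∫⁻ w, w1 w * k w) * surface univ
        ≤ (ENNReal.ofReal (C / s) * (∫⁻ w, k w) +
          ENNReal.ofReal C * (2 * ∫⁻ w, wt w * k w)) * surface univ := by
          gcongr
          · exact hg.production s hs x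
          · exact hg.moment_wt hsI x
          · exact lintegral_w1_le_two
      _ = _ := by rw [rate2]; ring
  · calc ENNReal.ofReal (C / s) * surface univ *
          (posMass (fun z => F s z - g s z) + 2 * posMass (fun z => g s z - F s z)) +
        rate2 C * (wMass (fun z => F s z - g s z) + 2 * wMass (fun z => g s z - F s z))
        ≤ ENNReal.ofReal (C / s) * surface univ *
          (posMass (fun z => g s z - F s z) + 2 * posMass (fun z => g s z - F s z)) +
        rate2 C * (wMass (fun z => g s z - F s z) + 2 * wMass (fun z => g s z - F s z)) := by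
          gcongr
          · exact prod_posMass_pos_le hg h hsI
          · exact prod_wMass_pos_le hg h hsI
      _ = _ := by ring

/-- `∫ (g-F)₊ ≤ K ∫₀ᵗ ∫ (1+|v|²)(g-F)₊`. -/
lemma prod_posMass_le (hg : IsProdMild T C g) (hT : 0 ≤ T) (h : IsRenormSolution (g 0) F) :
    ∀ᵐ t ∂((volume : Measure ℝ).restrict (Ioc 0 T)),
      posMass (fun z => g t z - F t z) ≤
        ∫⁻ s in Ioc 0 t, 3 * rate0 C * wMass (fun z => g s z - F s z) := by
  filter_upwards [prod_pos_part_le hg hT h, ae_restrict_mem measurableSet_Ioc] with t ht htT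
  have hbound : ∀ s ∈ Ioc 0 t, (∫⁻ z : Omega,
      1 * (ENNReal.ofReal (g s z - F s z) * lossRate (slice (g s) z.1) z.2)) ≤
        collConst0 C * (volume : Measure T3) univ := fun s hs => by
    refine le_trans (lintegral_mono fun z => ?_)
      (lintegral_coll_le hg ⟨hs.1.le, hs.2.trans htT.2⟩)
    rw [one_mul]
    exact le_trans (mul_le_mul' (ENNReal.ofReal_le_ofReal (by linarith [h.nonneg s z])) le_rfl)
      le_add_self
  have := weighted_step (w := fun _ => (1 : ℝ≥0∞)) measurable_const (fun _ => ENNReal.one_ne_top)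
    hg.measurable h.measurable (r := 0) (t := t) ht.1 ?_
    (R := fun s => 3 * rate0 C * wMass (fun z => g s z - F s z))
    (fun s hs => prod_rate_one_le hg h ⟨hs.1.le, hs.2.trans htT.2⟩)
  · refine le_trans (le_of_eq ?_) (this.trans (le_of_eq ?_))
    · simp [posMass]
    · have h0 : (∫⁻ z : Omega, 1 * ENNReal.ofReal (g 0 z - F 0 z)) = 0 := by
        have hae : (fun z : Omega => 1 * ENNReal.ofReal (g 0 z - F 0 z)) =ᵐ[volume] fun _ => 0 := by
          filter_upwards [h.datum] with z hz
          simp [hz]
        rw [lintegral_congr_ae hae, lintegral_zero]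
      rw [h0, zero_add]
  · refine ne_top_of_le_ne_top ?_ (lintegral_mono_ae
      ((ae_restrict_iff' measurableSet_Ioc).2 (Filter.Eventually.of_forall hbound)))
    rw [lintegral_const]
    exact ENNReal.mul_ne_top (ENNReal.mul_ne_top (collConst0_ne_top C) (measure_ne_top _ _))
      (measure_ne_top _ _)

/-- Truncation: the weighted positive part at time `r` is controlled by the initial tail. -/
lemma wMass_trunc_le (hg : IsProdMild T C g) (h : IsRenormSolution (g 0) F) {r : ℝ}
    (hr : r ∈ Icc 0 T) (n : ℕ) :
    wMass (fun z => g r z - F r z) +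
        (∫⁻ z : Omega, min (wt z.2) n * ENNReal.ofReal (g 0 z)) ≤
      wMass (g 0) + n * (posMass (fun z => g r z - F r z) + ∫⁻ z, collLine r g z) := by
  have hgm : Measurable (g r) := hg.measurable.comp measurable_prodMk_left
  have hFm : Measurable (F r) := h.measurable.comp measurable_prodMk_left
  have hmin : Measurable fun z : Omega => min (wt z.2) (n : ℝ≥0∞) := by fun_prop
  have hm1 : Measurable fun z : Omega => min (wt z.2) (n : ℝ≥0∞) * ENNReal.ofReal (g r z) :=
    hmin.mul hgm.ennreal_ofReal
  have hm2 : Measurable fun z : Omega => wt z.2 * ENNReal.ofReal (g r z - F r z) :=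
    (measurable_wt.comp measurable_snd).mul (hgm.sub hFm).ennreal_ofReal
  have h0 : (∫⁻ z : Omega, min (wt z.2) n * ENNReal.ofReal (g 0 z)) ≤
      (∫⁻ z : Omega, min (wt z.2) n * ENNReal.ofReal (g r z)) + n * ∫⁻ z, collLine r g z := by
    rw [← (measurePreserving_shift r).lintegral_comp hm1,
      ← lintegral_const_mul _ (measurable_collLine hg.measurable)]
    simp only [shift_snd]
    rw [← lintegral_add_left (show Measurable (fun z : Omega =>
      min (wt z.2) (n : ℝ≥0∞) * ENNReal.ofReal (g r (shift r z))) from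
        hm1.comp (measurable_shift r))]
    refine lintegral_mono_ae (hg.mild.mono fun z hz => ?_)
    have hpt : ENNReal.ofReal (g 0 z) ≤ ENNReal.ofReal (g r (shift r z)) + collLine r g z := by
      have e : g 0 z ≤ g r (shift r z) + ‖∫ s in Ioc 0 r, Qcoll (g s) (shift s z)‖ := by
        rw [hz r hr, intervalIntegral.integral_of_le hr.1, Real.norm_eq_abs]
        linarith [neg_abs_le (∫ s in Ioc 0 r, Qcoll (g s) (shift s z))]
      refine (ENNReal.ofReal_le_ofReal e).trans (ENNReal.ofReal_add_le.trans (add_le_add le_rfl ?_))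
      rw [ofReal_norm]
      refine (enorm_integral_le_lintegral_enorm _).trans (lintegral_mono fun s => ?_)
      rw [← ofReal_norm, Real.norm_eq_abs]
      exact ofReal_abs_Qcoll_le _ _
    calc min (wt z.2) (n : ℝ≥0∞) * ENNReal.ofReal (g 0 z)
        ≤ min (wt z.2) (n : ℝ≥0∞) * (ENNReal.ofReal (g r (shift r z)) + collLine r g z) :=
          mul_le_mul' le_rfl hpt
      _ ≤ _ := by rw [mul_add]; exact add_le_add le_rfl (mul_le_mul' (min_le_right _ _) le_rfl)
  have h1 : wMass (fun z => g r z - F r z) +
      (∫⁻ z : Omega, min (wt z.2) n * ENNReal.ofReal (g r z)) ≤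
      n * posMass (fun z => g r z - F r z) + wMass (g r) := by
    rw [wMass, wMass, posMass,
      ← lintegral_const_mul _ (show Measurable (fun z : Omega => ENNReal.ofReal (g r z - F r z))
        from (hgm.sub hFm).ennreal_ofReal),
      ← lintegral_add_left hm2, ← lintegral_add_left (show Measurable (fun z : Omega =>
        (n : ℝ≥0∞) * ENNReal.ofReal (g r z - F r z)) from
          (hgm.sub hFm).ennreal_ofReal.const_mul _)]
    refine lintegral_mono fun z => ?_
    set m := min (wt z.2) (n : ℝ≥0∞) with hmd
    set a := ENNReal.ofReal (g r z - F r z)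
    set b := ENNReal.ofReal (g r z)
    have hab : a ≤ b := ENNReal.ofReal_le_ofReal (by linarith [h.nonneg r z])
    have hwt : wt z.2 = m + (wt z.2 - m) := (add_tsub_cancel_of_le (min_le_left _ _)).symm
    calc wt z.2 * a + m * b = m * a + (wt z.2 - m) * a + m * b := by rw [← add_mul, ← hwt]
      _ ≤ (n : ℝ≥0∞) * a + (wt z.2 - m) * b + m * b := by
          gcongr
          exact min_le_right _ _
      _ = (n : ℝ≥0∞) * a + wt z.2 * b := by
          rw [add_assoc, ← add_mul, add_comm (wt z.2 - m), ← hwt]
  calc wMass (fun z => g r z - F r z) + (∫⁻ z : Omega, min (wt z.2) n * ENNReal.ofReal (g 0 z))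
      ≤ wMass (fun z => g r z - F r z) + ((∫⁻ z : Omega, min (wt z.2) n * ENNReal.ofReal (g r z)) +
          n * ∫⁻ z, collLine r g z) := add_le_add le_rfl h0
    _ ≤ n * posMass (fun z => g r z - F r z) + wMass (g r) + n * ∫⁻ z, collLine r g z := by
        rw [← add_assoc]; exact add_le_add h1 le_rfl
    _ = _ := by rw [hg.wMass_const hr]; ring

/-- The integrand of the closed inequality. -/
noncomputable def prodRate (C : ℝ) (F g : ℝ → Omega → ℝ) (s : ℝ) : ℝ≥0∞ :=
  3 * (ENNReal.ofReal (C / s) * surface univ) * posMass (fun z => g s z - F s z) +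
    3 * rate2 C * wMass (fun z => g s z - F s z)

lemma prod_wMass_bound (hg : IsProdMild T C g) (h : IsRenormSolution (g 0) F) {t : ℝ}
    (ht : t ∈ Icc 0 T) :
    wMass (fun z => g t z - F t z) ≤ ENNReal.ofReal C * (volume : Measure T3) univ :=
  (lintegral_mono fun z => mul_le_mul' le_rfl (ENNReal.ofReal_le_ofReal
    (by linarith [h.nonneg t z]))).trans (hg.lintegral_weighted ht)

lemma prod_wMass_le (hg : IsProdMild T C g) (hT : 0 ≤ T) (h : IsRenormSolution (g 0) F) :
    ∀ᵐ t ∂((volume : Measure ℝ).restrict (Ioc 0 T)),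
      wMass (fun z => g t z - F t z) ≤ ∫⁻ s in Ioc 0 t, prodRate C F g s := by
  set B := ENNReal.ofReal C * (volume : Measure T3) univ with hB
  filter_upwards [prod_pos_part_le hg hT h, ae_restrict_mem measurableSet_Ioc] with t ht htT
  set Y := wMass (fun z => g t z - F t z)
  set Z := ∫⁻ s in Ioc 0 t, prodRate C F g s
  have hY : ∀ n : ℕ, Y + (∫⁻ z : Omega, min (wt z.2) n * ENNReal.ofReal (g 0 z)) ≤
      Z + wMass (g 0) := by
    intro n
    refine ENNReal.le_of_forall_pos_le_add fun δ hδ _ => ?_
    set M : ℝ≥0∞ := n * (3 * rate0 C * B + collConst0 C * (volume : Measure T3) univ) with hM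
    have hMt : M ≠ ⊤ := ENNReal.mul_ne_top (ENNReal.natCast_ne_top n) (ENNReal.add_ne_top.2
      ⟨ENNReal.mul_ne_top (ENNReal.mul_ne_top ENNReal.ofNat_ne_top (rate0_ne_top C))
        (ENNReal.mul_ne_top ENNReal.ofReal_ne_top (measure_ne_top _ _)),
        ENNReal.mul_ne_top (collConst0_ne_top C) (measure_ne_top _ _)⟩)
    set ρ := min t ((δ : ℝ) / (M.toReal + 1)) with hρ
    have hρ0 : 0 < ρ := lt_min htT.1 (div_pos hδ (by linarith [ENNReal.toReal_nonneg (a := M)]))
    have hρT : Ioc 0 ρ ⊆ Ioc 0 T := Ioc_subset_Ioc_right ((min_le_left _ _).trans htT.2)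
    haveI : (ae ((volume : Measure ℝ).restrict (Ioc 0 ρ))).NeBot := by
      rw [ae_neBot, ne_eq, Measure.restrict_eq_zero, Real.volume_Ioc, sub_zero,
        ENNReal.ofReal_eq_zero]
      exact hρ0.not_ge
    obtain ⟨r, hrP, hrU, hr⟩ := ((ae_restrict_of_ae_restrict_of_subset hρT ht.2).and
      ((ae_restrict_of_ae_restrict_of_subset hρT (prod_posMass_le hg hT h)).and
        (ae_restrict_mem measurableSet_Ioc))).exists
    have hrt : r ≤ t := hr.2.trans (min_le_left _ _)
    have hrI : r ∈ Icc 0 T := ⟨hr.1.le, hrt.trans htT.2⟩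
    have hA : (∫⁻ s in Ioc r t, ∫⁻ z : Omega, wt z.2 *
        (ENNReal.ofReal (g s z - F s z) * lossRate (slice (g s) z.1) z.2)) ≠ ⊤ := by
      refine ne_top_of_le_ne_top (b := (ENNReal.ofReal (C / r) * (2 * ENNReal.ofReal C *
        surface univ) * (volume : Measure T3) univ) *
          ((volume : Measure ℝ).restrict (Ioc r t)) univ) ?_ ?_
      · exact ENNReal.mul_ne_top (ENNReal.mul_ne_top (ENNReal.mul_ne_top ENNReal.ofReal_ne_top
          (ENNReal.mul_ne_top (ENNReal.mul_ne_top ENNReal.ofNat_ne_top ENNReal.ofReal_ne_top)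
            (measure_ne_top _ _))) (measure_ne_top _ _)) (measure_ne_top _ _)
      rw [← lintegral_const]
      refine lintegral_mono_ae ((ae_restrict_iff' measurableSet_Ioc).2
        (Filter.Eventually.of_forall fun s hs => ?_))
      have hsT : s ∈ Ioc 0 T := ⟨hr.1.trans hs.1, hs.2.trans htT.2⟩
      have hgm : Measurable (g s) := hg.measurable.comp measurable_prodMk_left
      have hm : Measurable fun z : Omega =>
          wt z.2 * (ENNReal.ofReal (g s z) * lossRate (slice (g s) z.1) z.2) :=
        (measurable_wt.comp measurable_snd).mul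
          (hgm.ennreal_ofReal.mul (measurable_lossRate_slices hgm))
      refine le_trans (lintegral_mono (g := fun z : Omega =>
        wt z.2 * (ENNReal.ofReal (g s z) * lossRate (slice (g s) z.1) z.2)) fun z =>
          mul_le_mul' le_rfl (mul_le_mul' (ENNReal.ofReal_le_ofReal
            (by linarith [h.nonneg s z])) le_rfl)) ?_
      rw [Measure.volume_eq_prod, lintegral_prod _ hm.aemeasurable, ← lintegral_const]
      refine lintegral_mono fun x => (lintegral_wt_loss_le (measurable_slice hgm x)
        (measurable_slice hgm x)).trans ?_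
      gcongr
      · refine (hg.production s hsT x).trans ?_
        rcases le_total 0 C with hC | hC
        · exact ENNReal.ofReal_le_ofReal (div_le_div_of_nonneg_left hC hr.1 hs.1.le)
        · rw [ENNReal.ofReal_eq_zero.2 (div_nonpos_of_nonpos_of_nonneg hC hsT.1.le)]
          exact zero_le
      · exact hg.moment_one (Ioc_subset_Icc_self hsT) x
    have hstep : Y ≤ wMass (fun z => g r z - F r z) + Z := by
      refine (weighted_step measurable_wt (fun v => ENNReal.ofReal_ne_top) hg.measurable
        h.measurable (hrP hrt) hA (R := prodRate C F g)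
        (fun s hs => prod_rate_wt_le hg h ⟨hr.1.trans hs.1, hs.2.trans htT.2⟩)).trans ?_
      exact add_le_add le_rfl (lintegral_mono_set (Ioc_subset_Ioc_left hr.1.le))
    have hsmall : (n : ℝ≥0∞) * (posMass (fun z => g r z - F r z) + ∫⁻ z, collLine r g z) ≤
        (δ : ℝ≥0∞) := by
      calc (n : ℝ≥0∞) * (posMass (fun z => g r z - F r z) + ∫⁻ z, collLine r g z)
          ≤ n * (3 * rate0 C * B * ENNReal.ofReal r +
              collConst0 C * (volume : Measure T3) univ * ENNReal.ofReal r) := by
            gcongr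
            · refine hrU.trans ((lintegral_mono_ae ((ae_restrict_iff' measurableSet_Ioc).2
                (Filter.Eventually.of_forall fun s hs => mul_le_mul' le_rfl
                  (prod_wMass_bound hg h ⟨hs.1.le, hs.2.trans hrI.2⟩)))).trans_eq ?_)
              rw [lintegral_const, Measure.restrict_apply_univ, Real.volume_Ioc, sub_zero]
            · exact lintegral_collLine_le hg hrI
        _ = M * ENNReal.ofReal r := by rw [hM]; ring
        _ ≤ ENNReal.ofReal M.toReal * ENNReal.ofReal ((δ : ℝ) / (M.toReal + 1)) :=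
            mul_le_mul' (ENNReal.ofReal_toReal hMt).ge
              (ENNReal.ofReal_le_ofReal (hr.2.trans (min_le_right _ _)))
        _ ≤ _ := by
          rw [← ENNReal.ofReal_mul ENNReal.toReal_nonneg, ← ENNReal.ofReal_coe_nnreal]
          refine ENNReal.ofReal_le_ofReal ?_
          have hd : (0 : ℝ) ≤ δ := δ.2
          have hMn := ENNReal.toReal_nonneg (a := M)
          rw [mul_div_assoc', div_le_iff₀ (by linarith)]
          nlinarith
    calc Y + (∫⁻ z : Omega, min (wt z.2) n * ENNReal.ofReal (g 0 z))
        ≤ wMass (fun z => g r z - F r z) + Z +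
          (∫⁻ z : Omega, min (wt z.2) n * ENNReal.ofReal (g 0 z)) := add_le_add hstep le_rfl
      _ = Z + (wMass (fun z => g r z - F r z) +
          ∫⁻ z : Omega, min (wt z.2) n * ENNReal.ofReal (g 0 z)) := by ring
      _ ≤ Z + (wMass (g 0) + (δ : ℝ≥0∞)) :=
          add_le_add le_rfl ((wMass_trunc_le hg h hrI n).trans (add_le_add le_rfl hsmall))
      _ = _ := by ring
  have hsup : ⨆ n : ℕ, (∫⁻ z : Omega, min (wt z.2) n * ENNReal.ofReal (g 0 z)) = wMass (g 0) := by
    have hg0 : Measurable (g 0) := hg.measurable.comp measurable_prodMk_left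
    rw [← lintegral_iSup (f := fun (n : ℕ) (z : Omega) =>
        min (wt z.2) (n : ℝ≥0∞) * ENNReal.ofReal (g 0 z)) (fun n => by fun_prop)
      (fun i j hij z => mul_le_mul' (min_le_min le_rfl (Nat.cast_le.2 hij)) le_rfl), wMass]
    refine lintegral_congr fun z => ?_
    rw [← ENNReal.iSup_mul]
    congr 1
    refine le_antisymm (iSup_le fun n => min_le_left _ _) ?_
    obtain ⟨n, hn⟩ := ENNReal.exists_nat_gt (show wt z.2 ≠ ⊤ from ENNReal.ofReal_ne_top)
    exact le_iSup_of_le n (by rw [min_eq_left hn.le])
  refine ENNReal.le_of_add_le_add_right (a := wMass (g 0))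
    (hg.weighted_ne_top (left_mem_Icc.2 hT)) ?_
  conv_lhs => rw [← hsup, ENNReal.add_iSup]
  exact iSup_le hY

lemma prod_ae_eq_of_ae_time (hg : IsProdMild T C g) (hT : 0 ≤ T)
    (h : IsRenormSolution (g 0) F) :
    ∀ᵐ t ∂((volume : Measure ℝ).restrict (Ioc 0 T)), F t =ᵐ[volume] g t := by
  set K := 3 * (ENNReal.ofReal C * surface univ) * (3 * rate0 C) + 3 * rate2 C with hKd
  set B := ENNReal.ofReal C * (volume : Measure T3) univ with hB
  set Y := fun t => wMass (fun z => g t z - F t z) with hY
  set Z := fun t => ∫⁻ s in Ioc 0 t, prodRate C F g s with hZ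
  have hK : K ≠ ⊤ := ENNReal.add_ne_top.2 ⟨ENNReal.mul_ne_top
    (ENNReal.mul_ne_top ENNReal.ofNat_ne_top
      (ENNReal.mul_ne_top ENNReal.ofReal_ne_top (measure_ne_top _ _)))
    (ENNReal.mul_ne_top ENNReal.ofNat_ne_top (rate0_ne_top C)),
    ENNReal.mul_ne_top ENNReal.ofNat_ne_top (rate2_ne_top C)⟩
  have hBt : B ≠ ⊤ := ENNReal.mul_ne_top ENNReal.ofReal_ne_top (measure_ne_top _ _)
  have hmain : ∀ (W : ℝ → ℝ≥0∞) (s : ℝ), 0 < s → (∫⁻ r in Ioc 0 s, Y r) ≤ ENNReal.ofReal s * W s →
      posMass (fun z => g s z - F s z) ≤ (∫⁻ r in Ioc 0 s, 3 * rate0 C * Y r) → Y s ≤ W s →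
      prodRate C F g s ≤ K * W s := by
    intro W s hs hint hU hYW
    rw [lintegral_const_mul' _ _
      (ENNReal.mul_ne_top ENNReal.ofNat_ne_top (rate0_ne_top C))] at hU
    calc prodRate C F g s
        ≤ 3 * (ENNReal.ofReal (C / s) * surface univ) * (3 * rate0 C * (ENNReal.ofReal s * W s)) +
          3 * rate2 C * W s := by
          unfold prodRate
          gcongr
          exact hU.trans (mul_le_mul' le_rfl hint)
      _ = 3 * (ENNReal.ofReal (C / s) * ENNReal.ofReal s * surface univ) * (3 * rate0 C) * W s +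
          3 * rate2 C * W s := by ring
      _ = K * W s := by
          rw [← ENNReal.ofReal_mul' hs.le, div_mul_cancel₀ C hs.ne', hKd]; ring
  have hU := prod_posMass_le hg hT h
  have hZB : ∀ t ∈ Ioc 0 T, Z t ≤ K * B * ENNReal.ofReal T := fun t ht => by
    refine (lintegral_mono_ae (g := fun _ => K * B) ?_).trans ?_
    · filter_upwards [ae_restrict_of_ae_restrict_of_subset (Ioc_subset_Ioc_right ht.2) hU,
        ae_restrict_mem measurableSet_Ioc] with s hs hsI
      refine hmain (fun _ => B) s hsI.1 ?_ hs
        (prod_wMass_bound hg h ⟨hsI.1.le, hsI.2.trans ht.2⟩)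
      refine (lintegral_mono_ae ((ae_restrict_iff' measurableSet_Ioc).2
        (Filter.Eventually.of_forall fun r hr =>
          prod_wMass_bound hg h ⟨hr.1.le, hr.2.trans (hsI.2.trans ht.2)⟩))).trans_eq ?_
      rw [lintegral_const, Measure.restrict_apply_univ, Real.volume_Ioc, sub_zero, mul_comm]
    · rw [lintegral_const, Measure.restrict_apply_univ, Real.volume_Ioc, sub_zero]
      gcongr
      exact ht.2
  have hYZ := prod_wMass_le hg hT h
  have hgr := gronwall_bound (y := Z) (b := K.toReal) (c := 0)
    (B := K * B * ENNReal.ofReal T) hT ENNReal.toReal_nonneg le_rfl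
    (ENNReal.mul_ne_top (ENNReal.mul_ne_top hK hBt) ENNReal.ofReal_ne_top) hZB
    (by
      filter_upwards [ae_restrict_mem measurableSet_Ioc] with t ht
      rw [ENNReal.ofReal_toReal hK]
      simp only [ENNReal.ofReal_zero, add_zero]
      refine lintegral_mono_ae ?_
      filter_upwards [ae_restrict_of_ae_restrict_of_subset (Ioc_subset_Ioc_right ht.2) hU,
        ae_restrict_of_ae_restrict_of_subset (Ioc_subset_Ioc_right ht.2) hYZ,
        ae_restrict_mem measurableSet_Ioc] with s hs hsZ hsI
      refine hmain Z s hsI.1 ?_ hs hsZ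
      refine (lintegral_mono_ae (g := fun _ => Z s) ?_).trans_eq ?_
      · filter_upwards [ae_restrict_of_ae_restrict_of_subset
          (Ioc_subset_Ioc_right (hsI.2.trans ht.2)) hYZ, ae_restrict_mem measurableSet_Ioc]
          with r hr hrI
        exact hr.trans (lintegral_mono_set (Ioc_subset_Ioc_right hrI.2))
      · rw [lintegral_const, Measure.restrict_apply_univ, Real.volume_Ioc, sub_zero, mul_comm])
  filter_upwards [hgr, hYZ, ae_restrict_mem measurableSet_Ioc] with t ht htY htT
  have hz : Z t = 0 := by simpa using ht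
  have hy : wMass (fun z => g t z - F t z) = 0 := le_antisymm (htY.trans hz.le) zero_le
  have hp : wMass (fun z => F t z - g t z) = 0 :=
    le_antisymm ((prod_wMass_pos_le hg h ⟨htT.1.le, htT.2⟩).trans_eq hy) zero_le
  have hgm : Measurable (g t) := hg.measurable.comp measurable_prodMk_left
  have hFm : Measurable (F t) := h.measurable.comp measurable_prodMk_left
  rw [wMass, lintegral_eq_zero_iff
    (show Measurable (fun z : Omega => wt z.2 * ENNReal.ofReal (g t z - F t z)) from
      (measurable_wt.comp measurable_snd).mul (hgm.sub hFm).ennreal_ofReal)] at hy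
  rw [wMass, lintegral_eq_zero_iff
    (show Measurable (fun z : Omega => wt z.2 * ENNReal.ofReal (F t z - g t z)) from
      (measurable_wt.comp measurable_snd).mul (hFm.sub hgm).ennreal_ofReal)] at hp
  filter_upwards [hy, hp] with z hz1 hz2
  have hne : wt z.2 ≠ 0 := fun h0 => by simpa [h0] using one_le_wt z.2
  simp only [Pi.zero_apply, mul_eq_zero, hne, false_or, ENNReal.ofReal_eq_zero, sub_nonpos]
    at hz1 hz2
  exact le_antisymm hz2 hz1

lemma prod_continuousOn_test (hg : IsProdMild T C g) (f : Omega →ᵇ ℝ) :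
    ContinuousOn (fun t => ∫ z, f z * g t z) (Icc 0 T) := by
  intro t₀ ht₀
  have hT : 0 ≤ T := ht₀.1.trans ht₀.2
  have hline : ∀ t ∈ Icc 0 T,
      ∫ z, f z * g t z = ∫ z, f (shift t z) * g t (shift t z) := by
    intro t _
    have hgm : Measurable (g t) := hg.measurable.comp measurable_prodMk_left
    have h := integral_map (measurable_shift t).aemeasurable (μ := volume)
      (f := fun z : Omega => f z * g t z) (f.continuous.measurable.mul hgm).aestronglyMeasurable
    rw [(measurePreserving_shift t).map_eq] at h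
    exact h
  refine ContinuousWithinAt.congr ?_ (fun t ht => hline t ht) (hline t₀ ht₀)
  have hdom : Integrable (fun z : Omega => ‖f‖ * (g 0 z + (collLine T g z).toReal)) :=
    ((hg.integrable (left_mem_Icc.2 hT)).add (integrable_toReal_of_lintegral_ne_top
      (measurable_collLine hg.measurable).aemeasurable
      (lintegral_collLine_ne_top hg (right_mem_Icc.2 hT)))).const_mul _
  refine continuousWithinAt_of_dominated
    (bound := fun z : Omega => ‖f‖ * (g 0 z + (collLine T g z).toReal)) ?_ ?_ hdom ?_
  · exact Filter.Eventually.of_forall fun t => ((f.continuous.measurable.comp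
      (measurable_shift t)).mul ((hg.measurable.comp measurable_prodMk_left).comp
        (measurable_shift t))).aestronglyMeasurable
  · filter_upwards [self_mem_nhdsWithin] with t ht
    filter_upwards [hg.mild, ae_collLine_finite hg hT] with z hzm hzl
    rw [norm_mul, Real.norm_eq_abs (g t _), abs_of_nonneg (hg.nonneg t ht _)]
    refine mul_le_mul (f.norm_coe_le_norm _) ?_ (hg.nonneg t ht _) (norm_nonneg _)
    rw [hzm t ht]
    refine add_le_add le_rfl ((le_abs_self _).trans ?_)
    rw [intervalIntegral.integral_of_le ht.1, ← Real.norm_eq_abs]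
    refine norm_integral_le_lintegral_norm _ |>.trans (ENNReal.toReal_mono hzl ?_)
    refine le_trans (lintegral_mono fun s => ?_) (lintegral_mono_set (Ioc_subset_Ioc_right ht.2))
    rw [Real.norm_eq_abs]
    exact ofReal_abs_Qcoll_le _ _
  · filter_upwards [hg.mild, ae_collLine_finite hg hT] with z hzm hzl
    have hs : Continuous (fun t => shift t z) := by unfold shift; fun_prop
    refine ((f.continuous.comp hs).continuousWithinAt).mul ?_
    have hG : ContinuousOn (fun t => g 0 z + ∫ s in (0 : ℝ)..t, Qcoll (g s) (shift s z))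
        (Icc 0 T) := by
      refine continuousOn_const.add ?_
      have := intervalIntegral.continuousOn_primitive_interval' (μ := volume)
        (intervalIntegrable_prod_line hg hT hzl) left_mem_uIcc
      rwa [uIcc_of_le hT] at this
    exact (hG.congr fun t ht => hzm t ht) t₀ ht₀

/-- Weak-strong uniqueness under finite energy and moment production. -/
theorem eq_prodMild (hg : IsProdMild T C g) (h : IsRenormSolution F₀ F)
    (hdat : F₀ =ᵐ[volume] g 0) : ∀ t ∈ Icc 0 T, F t =ᵐ[volume] g t := by
  intro t ht
  have h' := h.congr_datum hdat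
  rcases (ht.1.trans ht.2).eq_or_lt with hT0 | hT
  · obtain rfl : t = 0 := le_antisymm (ht.2.trans_eq hT0.symm) ht.1
    exact h'.datum
  have hgm : Measurable (g t) := hg.measurable.comp measurable_prodMk_left
  have hFm : Measurable (F t) := h.measurable.comp measurable_prodMk_left
  have hgi := hg.integrable ht
  have hFi := (h.integrable t ht.1).1
  have htest : ∀ f : Omega →ᵇ ℝ, ∫ z, f z * F t z = ∫ z, f z * g t z := by
    intro f
    have hF := (h.weakCont f f.continuous.measurable
      ⟨‖f‖, fun z => by simpa [Real.norm_eq_abs] using f.norm_coe_le_norm z⟩).mono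
        (Icc_subset_Ici_self : Icc (0 : ℝ) T ⊆ Ici 0)
    refine Measure.eqOn_Icc_of_ae_eq (μ := volume) hT.ne ?_ hF (prod_continuousOn_test hg f) ht
    rw [← restrict_Ioc_eq_restrict_Icc]
    filter_upwards [prod_ae_eq_of_ae_time hg hT.le h'] with s hs
    exact integral_congr_ae (by filter_upwards [hs] with z hz; rw [hz])
  have hμ : (volume : Measure Omega).withDensity (fun z => ENNReal.ofReal (F t z)) =
      (volume : Measure Omega).withDensity (fun z => ENNReal.ofReal (g t z)) := by
    have := isFiniteMeasure_withDensity_ofReal hFi.hasFiniteIntegral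
    have := isFiniteMeasure_withDensity_ofReal hgi.hasFiniteIntegral
    refine ext_of_forall_integral_eq_of_IsFiniteMeasure fun f => ?_
    rw [integral_withDensity_eq_integral_toReal_smul hFm.ennreal_ofReal
        (Filter.Eventually.of_forall fun _ => ENNReal.ofReal_lt_top),
      integral_withDensity_eq_integral_toReal_smul hgm.ennreal_ofReal
        (Filter.Eventually.of_forall fun _ => ENNReal.ofReal_lt_top)]
    simpa [ENNReal.toReal_ofReal, h.nonneg, hg.nonneg t ht, mul_comm] using htest f
  have hae := (withDensity_eq_iff hFm.ennreal_ofReal.aemeasurable hgm.ennreal_ofReal.aemeasurable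
    (ne_top_of_le_ne_top hFi.hasFiniteIntegral.ne (lintegral_ofReal_le_lintegral_enorm _))).1 hμ
  filter_upwards [hae] with z hz
  exact (ENNReal.ofReal_eq_ofReal_iff (h.nonneg t z) (hg.nonneg t ht z)).1 hz

end Vale.Agent.P140.Renorm
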