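import Vale.Agent.P140.Renorm.Existence
import Vale.Agent.P140.Renorm.Homogeneous2
import Vale.Agent.P140.Renorm.Maxwellian
import Vale.Agent.P140.Renorm.ProdUnique

/-!
# Global uniqueness from every homogeneous datum, local uniqueness below a profile
-/

open MeasureTheory Real Set

namespace Vale.Agent.P140.Renorm

open Vale.Agent.P140

theorem eq_maxwellian_of_solution {ρ θ : ℝ} {u : V3} (hρ : 0 < ρ) (hθ : 0 < θ)
    {F : ℝ → Omega → ℝ} (h : IsRenormSolution (fun z => maxwellian ρ u θ z.2) F) {t : ℝ}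
    (ht : 0 ≤ t) : F t =ᵐ[volume] fun z => maxwellian ρ u θ z.2 := by
  obtain ⟨m, hm, hg⟩ := isProfileMild_maxwellian hρ hθ u
  exact eq_prodMild ((hg t ht).isMomentMild hm one_pos).isProdMild h Filter.EventuallyEq.rfl t
    (right_mem_Icc.2 ht)

theorem local_uniqueness {a M : ℝ} (ha : 0 < a) :
    ∃ T > 0, ∀ (F₀ : Omega → ℝ) (m : V3 → ℝ), HasExpMoment a m →
      (∫ v, m v * exp (a * ‖v‖)) ≤ M → (∀ᵐ z : Omega, F₀ z ≤ m z.2) →
      ∀ F F' : ℝ → Omega → ℝ, IsRenormSolution F₀ F → IsRenormSolution F₀ F' →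
        ∀ t ∈ Icc 0 T, F t =ᵐ[volume] F' t := by
  obtain ⟨T, hT, hT'⟩ := exists_profileMild (a := a) (M := M) ha
  refine ⟨T, hT, fun F₀ m hm hM hb F F' hF hF' t ht => ?_⟩
  set g₀ := fun z : Omega => min (F 0 z) (m z.2)
  have he : F₀ =ᵐ[volume] g₀ := by
    filter_upwards [hb, hF.datum] with z h1 h2
    simp only [g₀, h2]
    rw [min_eq_left h1]
  obtain ⟨m', g, hm', hg, hg0, -⟩ := hT' g₀ m
    ((hF.measurable.comp measurable_prodMk_left).min (hm.measurable.comp measurable_snd)) hm hM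
    (fun z => ⟨le_min (hF.nonneg 0 z) (hm.nonneg _), min_le_right _ _⟩)
  have he' : F₀ =ᵐ[volume] g 0 := he.trans hg0.symm
  have hP := (hg.isMomentMild hm' (by positivity)).isProdMild
  exact (eq_prodMild hP hF he' t ht).trans (eq_prodMild hP hF' he' t ht).symm

theorem homogeneous_uniqueness {f₀ : V3 → ℝ} (hm : Measurable f₀) (h0 : ∀ v, 0 ≤ f₀ v)
    (hi : Integrable fun v => f₀ v * (1 + ‖v‖ ^ 2))
    {F F' : ℝ → Omega → ℝ} (hF : IsRenormSolution (fun z => f₀ z.2) F)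
    (hF' : IsRenormSolution (fun z => f₀ z.2) F') {t : ℝ} (ht : 0 ≤ t) :
    F t =ᵐ[volume] F' t ∧
      ∫ z : Omega, F t z * ‖z.2‖ ^ 2 = ∫ z : Omega, f₀ z.2 * ‖z.2‖ ^ 2 := by
  obtain ⟨C, g, hg, hg0⟩ := exists_prodMild_homogeneous hm h0 hi (T := t + 1) (by linarith)
  have htI : t ∈ Icc 0 (t + 1) := ⟨ht, by linarith⟩
  have h1 := eq_prodMild hg hF hg0.symm t htI
  refine ⟨h1.trans (eq_prodMild hg hF' hg0.symm t htI).symm, ?_⟩
  refine (integral_congr_ae ?_).trans ((hg.energy t htI).trans (integral_congr_ae ?_))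
  · filter_upwards [h1] with z hz; rw [hz]
  · filter_upwards [hg0] with z hz; rw [hz]

end Vale.Agent.P140.Renorm
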