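import Vale.Agent.P140.Renorm.Collision

/-!
# From the renormalized equation to its mild form

The renormalized equation with `β z = z / (1 + z)`, tested against `ψ t * χ (shift (-t) z)`,
becomes an identity along characteristics: for almost every time and almost every starting point,
`beta1 (F t)` differs from `beta1 F₀` by the time integral of `betaRate`.
-/

open MeasureTheory Real Set
open scoped RealInnerProductSpace ENNReal

namespace Vale.Agent.P140.Renorm

open Vale.Agent.P140

namespace Mild

variable {F₀ : Omega → ℝ} {F : ℝ → Omega → ℝ}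

/-! ## Measurability -/

lemma measurable_Qplus (hF : Measurable (Function.uncurry F)) :
    Measurable (fun w : ℝ × Omega => Qplus (F w.1) w.2) := by
  have hv : Measurable (fun q : (ℝ × Omega) × (V3 × S2) => (q.1.2.2, q.2)) := by fun_prop
  have hV : Measurable (fun q : (ℝ × Omega) × (V3 × S2) =>
      (q.1.1, ((q.1.2.1, postV q.1.2.2 q.2) : Omega))) := by
    exact (by fun_prop : Measurable fun q : (ℝ × Omega) × (V3 × S2) => q.1.1).prodMk
      ((by fun_prop : Measurable fun q : (ℝ × Omega) × (V3 × S2) => q.1.2.1).prodMk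
        (measurable_postV.comp hv))
  have hW : Measurable (fun q : (ℝ × Omega) × (V3 × S2) =>
      (q.1.1, ((q.1.2.1, postW q.1.2.2 q.2) : Omega))) := by
    exact (by fun_prop : Measurable fun q : (ℝ × Omega) × (V3 × S2) => q.1.1).prodMk
      ((by fun_prop : Measurable fun q : (ℝ × Omega) × (V3 × S2) => q.1.2.1).prodMk
        (measurable_postW.comp hv))
  have h : Measurable (fun q : (ℝ × Omega) × (V3 × S2) =>
      ENNReal.ofReal |impact q.1.2.2 q.2| * ENNReal.ofReal (F q.1.1 (q.1.2.1, postV q.1.2.2 q.2))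
        * ENNReal.ofReal (F q.1.1 (q.1.2.1, postW q.1.2.2 q.2))) :=
    ((measurable_impact.comp hv).abs.ennreal_ofReal.mul (hF.comp hV).ennreal_ofReal).mul
      (hF.comp hW).ennreal_ofReal
  exact h.lintegral_prod_right'

lemma measurable_Qminus (hF : Measurable (Function.uncurry F)) :
    Measurable (fun w : ℝ × Omega => Qminus (F w.1) w.2) := by
  have hv : Measurable (fun q : (ℝ × Omega) × (V3 × S2) => (q.1.2.2, q.2)) := by fun_prop
  have hS : Measurable (fun q : (ℝ × Omega) × (V3 × S2) =>
      (q.1.1, ((q.1.2.1, q.2.1) : Omega))) := by fun_prop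
  have h : Measurable (fun q : (ℝ × Omega) × (V3 × S2) =>
      ENNReal.ofReal |impact q.1.2.2 q.2| * ENNReal.ofReal (F q.1.1 (q.1.2.1, q.2.1))) :=
    (measurable_impact.comp hv).abs.ennreal_ofReal.mul (hF.comp hS).ennreal_ofReal
  exact hF.ennreal_ofReal.mul h.lintegral_prod_right'

lemma measurable_shift_pair : Measurable (fun w : ℝ × Omega => (w.1, shift w.1 w.2)) :=
  measurable_fst.prodMk measurable_shift'

lemma measurable_Fshift (hF : Measurable (Function.uncurry F)) :
    Measurable (fun w : ℝ × Omega => F w.1 (shift w.1 w.2)) :=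
  hF.comp measurable_shift_pair

lemma measurable_betaRate (hF : Measurable (Function.uncurry F)) :
    Measurable (fun w : ℝ × Omega => betaRate F w.1 w.2) := by
  have hp : Measurable (fun w : ℝ × Omega => Qplus (F w.1) (shift w.1 w.2)) :=
    (measurable_Qplus hF).comp measurable_shift_pair
  have hm : Measurable (fun w : ℝ × Omega => Qminus (F w.1) (shift w.1 w.2)) :=
    (measurable_Qminus hF).comp measurable_shift_pair
  have hs := measurable_Fshift hF
  unfold betaRate Qcoll
  fun_prop

lemma measurable_beta1 {G : Omega → ℝ} (hG : Measurable G) : Measurable (beta1 G) := by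
  unfold beta1; fun_prop

lemma measurable_beta1_shift (hF : Measurable (Function.uncurry F)) :
    Measurable (fun w : ℝ × Omega => beta1 (F w.1) (shift w.1 w.2)) := by
  have hs := measurable_Fshift hF
  simp only [beta1, shift_snd]
  fun_prop

/-! ## Bounds -/

lemma abs_beta1_le {G : Omega → ℝ} {z : Omega} (h : 0 ≤ G z) : |beta1 G z| ≤ M0 z.2 := by
  have hM := M0_pos z.2
  rw [beta1, abs_of_nonneg (by positivity), div_le_iff₀ (by positivity)]
  nlinarith

lemma integrable_M0_snd : Integrable (fun z : Omega => M0 z.2) := integrable_snd integrable_M0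

lemma abs_betaRate_le (hn : ∀ t z, 0 ≤ F t z) (s : ℝ) (z : Omega) :
    ENNReal.ofReal |betaRate F s z| ≤
      Qplus (F s) (shift s z) / ENNReal.ofReal (1 + F s (shift s z) / M0 (shift s z).2) +
        Qminus (F s) (shift s z) / ENNReal.ofReal (1 + F s (shift s z) / M0 (shift s z).2) := by
  have hM := M0_pos z.2
  rw [shift_snd]
  set y := F s (shift s z) with hy
  have hy0 : 0 ≤ y := hn _ _
  set a := Qplus (F s) (shift s z) with ha
  set b := Qminus (F s) (shift s z) with hb
  have hG : (0 : ℝ) < 1 + y / M0 z.2 := by positivity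
  have hr : M0 z.2 / (M0 z.2 + y) = 1 / (1 + y / M0 z.2) := by field_simp
  have hw0 : 0 ≤ M0 z.2 / (M0 z.2 + y) := by positivity
  have hw1 : M0 z.2 / (M0 z.2 + y) ≤ 1 := by
    rw [div_le_one (by positivity)]; linarith
  have hreal : |betaRate F s z| ≤ (a.toReal + b.toReal) * (1 / (1 + y / M0 z.2)) := by
    rw [betaRate, Qcoll, abs_mul, abs_pow, ← hy, abs_of_nonneg hw0, ← hr]
    refine mul_le_mul ?_ (by nlinarith) (by positivity) (by positivity)
    exact (abs_sub _ _).trans (le_of_eq (by simp [← ha, ← hb]))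
  calc ENNReal.ofReal |betaRate F s z|
      ≤ ENNReal.ofReal ((a.toReal + b.toReal) * (1 / (1 + y / M0 z.2))) :=
        ENNReal.ofReal_le_ofReal hreal
    _ = (ENNReal.ofReal a.toReal + ENNReal.ofReal b.toReal) /
          ENNReal.ofReal (1 + y / M0 z.2) := by
        rw [← ENNReal.ofReal_add ENNReal.toReal_nonneg ENNReal.toReal_nonneg,
          ← ENNReal.ofReal_div_of_pos hG]
        congr 1; field_simp
    _ ≤ (a + b) / ENNReal.ofReal (1 + y / M0 z.2) :=
        ENNReal.div_le_div_right (add_le_add ENNReal.ofReal_toReal_le ENNReal.ofReal_toReal_le) _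
    _ = _ := ENNReal.add_div

lemma integrable_betaRate (h : IsRenormSolution F₀ F) {T : ℝ} (hT : 0 ≤ T) :
    Integrable (fun w : ℝ × Omega => betaRate F w.1 w.2)
      (((volume : Measure ℝ).restrict (Icc 0 T)).prod (volume : Measure Omega)) := by
  refine ⟨(measurable_betaRate h.measurable).aestronglyMeasurable, ?_⟩
  have hF2 : Measurable (fun w : ℝ × Omega => F w.1 w.2) := h.measurable
  have hden : Measurable
      (fun w : ℝ × Omega => ENNReal.ofReal (1 + F w.1 w.2 / M0 w.2.2)) := by fun_prop
  have hP := measurable_Qplus h.measurable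
  have hN := measurable_Qminus h.measurable
  have hA : Measurable (fun w : ℝ × Omega =>
      Qplus (F w.1) w.2 / ENNReal.ofReal (1 + F w.1 w.2 / M0 w.2.2)) := by fun_prop
  have hB : Measurable (fun w : ℝ × Omega =>
      Qminus (F w.1) w.2 / ENNReal.ofReal (1 + F w.1 w.2 / M0 w.2.2)) := by fun_prop
  obtain ⟨h1, h2⟩ := h.finiteColl T hT
  have key : ∀ s, ∫⁻ z : Omega, ENNReal.ofReal |betaRate F s z| ≤
      (∫⁻ z : Omega, Qplus (F s) z / ENNReal.ofReal (1 + F s z / M0 z.2)) +
        ∫⁻ z : Omega, Qminus (F s) z / ENNReal.ofReal (1 + F s z / M0 z.2) := by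
    intro s
    have hPs : Measurable (fun z : Omega => Qplus (F s) z) := by
      simpa only [Function.comp_def] using hP.comp (measurable_prodMk_left (x := s))
    have hNs : Measurable (fun z : Omega => Qminus (F s) z) := by
      simpa only [Function.comp_def] using hN.comp (measurable_prodMk_left (x := s))
    have hFs : Measurable (fun z : Omega => F s z) := by
      simpa only [Function.comp_def] using hF2.comp (measurable_prodMk_left (x := s))
    have mA : Measurable (fun z : Omega =>
        Qplus (F s) z / ENNReal.ofReal (1 + F s z / M0 z.2)) := by fun_prop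
    have mB : Measurable (fun z : Omega =>
        Qminus (F s) z / ENNReal.ofReal (1 + F s z / M0 z.2)) := by fun_prop
    refine (lintegral_mono (abs_betaRate_le h.nonneg s)).trans_eq ?_
    rw [← (measurePreserving_shift s).lintegral_comp mA,
      ← (measurePreserving_shift s).lintegral_comp mB]
    exact lintegral_add_left (mA.comp (measurable_shift s)) _
  rw [hasFiniteIntegral_iff_norm, lintegral_prod _ (measurable_betaRate h.measurable).norm.ennreal_ofReal.aemeasurable]
  refine lt_of_le_of_lt (lintegral_mono key) ?_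
  rw [lintegral_add_left]
  · exact ENNReal.add_lt_top.2 ⟨h1, h2⟩
  · exact hA.lintegral_prod_right'

lemma integrable_prim (h : IsRenormSolution F₀ F) {T : ℝ} (hT : 0 ≤ T) :
    Integrable (fun z : Omega => ∫ s in Icc 0 T, |betaRate F s z|) :=
  (integrable_betaRate h hT).norm.integral_prod_right

/-- `∫_0^t betaRate`, as a jointly measurable function. -/
noncomputable def prim (F : ℝ → Omega → ℝ) (t : ℝ) (z : Omega) : ℝ :=
  ∫ s in Ioc (0 : ℝ) t, betaRate F s z

lemma measurable_prim (hF : Measurable (Function.uncurry F)) :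
    Measurable (fun w : ℝ × Omega => prim F w.1 w.2) := by
  set S : Set ((ℝ × Omega) × ℝ) := {q | q.2 ∈ Ioc (0 : ℝ) q.1.1}
  have hS : MeasurableSet S :=
    (measurableSet_lt measurable_const measurable_snd).inter
      (measurableSet_le measurable_snd (measurable_fst.comp measurable_fst))
  have hm : Measurable (fun q : (ℝ × Omega) × ℝ => S.indicator
      (fun r => betaRate F r.2 r.1.2) q) :=
    ((measurable_betaRate hF).comp
      (measurable_snd.prodMk (measurable_snd.comp measurable_fst))).indicator hS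
  have he : (fun w : ℝ × Omega => prim F w.1 w.2) = fun w => ∫ s : ℝ, S.indicator
      (fun r => betaRate F r.2 r.1.2) (w, s) := by
    funext w
    rw [prim, ← integral_indicator measurableSet_Ioc]
    rfl
  rw [he]
  exact (hm.stronglyMeasurable.integral_prod_right' (ν := (volume : Measure ℝ))).measurable

/-- The defect of the mild equation. -/
noncomputable def defect (F₀ : Omega → ℝ) (F : ℝ → Omega → ℝ) (t : ℝ) (z : Omega) : ℝ :=
  beta1 (F t) (shift t z) - beta1 F₀ z - prim F t z

lemma measurable_defect (h : IsRenormSolution F₀ F) (hF0 : Measurable F₀) :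
    Measurable (fun w : ℝ × Omega => defect F₀ F w.1 w.2) :=
  ((measurable_beta1_shift h.measurable).sub ((measurable_beta1 hF0).comp measurable_snd)).sub
    (measurable_prim h.measurable)

lemma integrable_defect (h : IsRenormSolution F₀ F) (hF0 : Measurable F₀) (hn : ∀ z, 0 ≤ F₀ z)
    {T : ℝ} (hT : 0 ≤ T) :
    Integrable (fun w : ℝ × Omega => defect F₀ F w.1 w.2)
      (((volume : Measure ℝ).restrict (Ioc 0 T)).prod (volume : Measure Omega)) := by
  have : IsFiniteMeasure ((volume : Measure ℝ).restrict (Ioc 0 T)) :=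
    isFiniteMeasure_restrict.2 measure_Ioc_lt_top.ne
  have hdom := ((integrable_M0_snd.const_mul 2).add (integrable_prim h hT)).comp_snd
    ((volume : Measure ℝ).restrict (Ioc 0 T))
  refine hdom.mono' (measurable_defect h hF0).aestronglyMeasurable ?_
  have hsec := (integrable_betaRate h hT).prod_left_ae
  have hts : ∀ᵐ w ∂(((volume : Measure ℝ).restrict (Ioc 0 T)).prod (volume : Measure Omega)),
      w.1 ∈ Ioc 0 T :=
    (Measure.quasiMeasurePreserving_fst).ae (ae_restrict_mem measurableSet_Ioc)
  filter_upwards [hts, (Measure.quasiMeasurePreserving_snd).ae hsec] with w hw hsw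
  have hsub : Ioc (0 : ℝ) w.1 ⊆ Icc 0 T := fun s hs => ⟨hs.1.le, hs.2.trans hw.2⟩
  have hp : |prim F w.1 w.2| ≤ ∫ s in Icc 0 T, |betaRate F s w.2| :=
    (norm_integral_le_integral_norm _).trans
      (setIntegral_mono_set hsw.norm (Filter.Eventually.of_forall fun _ => norm_nonneg _)
        hsub.eventuallyLE)
  have h1 : |beta1 (F w.1) (shift w.1 w.2)| ≤ M0 w.2.2 :=
    (abs_beta1_le (h.nonneg _ _)).trans_eq (by rw [shift_snd])
  have h2 : |beta1 F₀ w.2| ≤ M0 w.2.2 := abs_beta1_le (hn _)
  simp only [Real.norm_eq_abs, Pi.add_apply, defect]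
  refine ((abs_sub _ _).trans (add_le_add (abs_sub _ _) hp)).trans ?_
  linarith

/-! ## Tests in phase space -/

/-- Smooth on phase space, compactly supported in velocity. -/
def IsSpaceTest (χ : Omega → ℝ) : Prop :=
  ContDiff ℝ (⊤ : ℕ∞) (fun p : V3 × V3 => χ (toT3 p.1, p.2)) ∧
    (∃ R : ℝ, ∀ z : Omega, R < ‖z.2‖ → χ z = 0) ∧ Measurable χ ∧ ∃ C, ∀ z, |χ z| ≤ C

/-- The embedding of phase space into a finite-dimensional vector space. -/
noncomputable def emb (z : Omega) : (Fin 3 → ℂ) × V3 :=
  (fun i => (AddCircle.toCircle (z.1 i) : ℂ), z.2)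

lemma continuous_emb : Continuous emb := by
  unfold emb
  refine Continuous.prodMk (continuous_pi fun i => ?_) continuous_snd
  exact continuous_subtype_val.comp
    ((AddCircle.continuous_toCircle (T := (1 : ℝ))).comp
      ((continuous_apply i).comp (continuous_fst : Continuous (Prod.fst : Omega → T3))))

lemma injective_emb : Function.Injective emb := by
  intro z w h
  simp only [emb, Prod.mk.injEq] at h
  refine Prod.ext (funext fun i => AddCircle.injective_toCircle one_ne_zero ?_) h.2
  exact Subtype.ext (congrFun h.1 i)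

lemma measurableEmbedding_emb : MeasurableEmbedding emb :=
  continuous_emb.measurableEmbedding injective_emb

lemma isSpaceTest_emb {g : (Fin 3 → ℂ) × V3 → ℝ} (hg : ContDiff ℝ (⊤ : ℕ∞) g)
    (hs : HasCompactSupport g) : IsSpaceTest (fun z => g (emb z)) := by
  refine ⟨?_, ?_, (hg.continuous.comp continuous_emb).measurable, ?_⟩
  · have he : (fun p : V3 × V3 => g (emb (toT3 p.1, p.2))) =
        fun p => g (fun i => Complex.exp (((2 * π * p.1 i : ℝ) : ℂ) * Complex.I), p.2) := by
      funext p
      simp [emb, toT3, AddCircle.toCircle_apply_mk, Circle.coe_exp]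
    rw [he]
    refine hg.comp (ContDiff.prodMk (contDiff_pi.2 fun i => ?_) contDiff_snd)
    refine (Complex.contDiff_exp (𝕜 := ℝ)).comp ?_
    exact (Complex.ofRealCLM.contDiff.comp (contDiff_const.mul
      ((contDiff_piLp_apply (p := 2) (i := i)).comp contDiff_fst))).mul contDiff_const
  · obtain ⟨R, hR⟩ := hs.isCompact.isBounded.subset_closedBall 0
    refine ⟨R, fun z hz => image_eq_zero_of_notMem_tsupport fun hmem => ?_⟩
    have := hR hmem
    rw [Metric.mem_closedBall, dist_zero_right] at this
    exact absurd ((norm_snd_le (emb z)).trans this) (not_le.2 hz)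
  · obtain ⟨C, hC⟩ := hs.exists_bound_of_continuous hg.continuous
    exact ⟨C, fun z => hC _⟩

lemma ae_zero_of_tests {r : Omega → ℝ} (hr : Integrable r)
    (h : ∀ χ, IsSpaceTest χ → ∫ z, χ z * r z = 0) : ∀ᵐ z, r z = 0 := by
  set ν := Measure.map emb (volume : Measure Omega)
  set f := Function.extend emb r 0
  have hfe : f ∘ emb = r := funext fun z => injective_emb.extend_apply _ _ z
  have hf : Integrable f ν := by
    rw [measurableEmbedding_emb.integrable_map_iff, hfe]; exact hr
  have key : ∀ᵐ x ∂ν, f x = 0 := by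
    refine ae_eq_zero_of_integral_contDiff_smul_eq_zero hf.locallyIntegrable fun g hg hs => ?_
    rw [measurableEmbedding_emb.integral_map]
    simp only [smul_eq_mul, f, injective_emb.extend_apply]
    exact h _ (isSpaceTest_emb hg hs)
  rw [measurableEmbedding_emb.ae_map_iff] at key
  filter_upwards [key] with z hz
  rwa [← hfe, Function.comp_apply]

/-! ## The identity -/

lemma contDiff_toT3_shift {χ : Omega → ℝ}
    (hχ : ContDiff ℝ (⊤ : ℕ∞) (fun p : V3 × V3 => χ (toT3 p.1, p.2))) :
    ContDiff ℝ (⊤ : ℕ∞)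
      (fun w : ℝ × V3 × V3 => χ (shift (-w.1) (toT3 w.2.1, w.2.2))) := by
  have he : (fun w : ℝ × V3 × V3 => χ (shift (-w.1) (toT3 w.2.1, w.2.2))) =
      fun w => (fun p : V3 × V3 => χ (toT3 p.1, p.2)) (w.2.1 + (-w.1) • w.2.2, w.2.2) := by
    funext w; simp [shift, toT3_add]
  rw [he]
  exact hχ.comp (by fun_prop)

lemma derivWithin_beta {y : ℝ} (hy : 0 ≤ y) :
    derivWithin (fun y : ℝ => y / (1 + y)) (Ici 0) y = 1 / (1 + y) ^ 2 := by
  have : HasDerivAt (fun y : ℝ => y / (1 + y)) (1 / (1 + y) ^ 2) y := by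
    have := (hasDerivAt_id' y).div ((hasDerivAt_id' y).const_add 1) (by positivity)
    exact this.congr_deriv (by ring)
  exact this.hasDerivWithinAt.derivWithin (uniqueDiffOn_Ici 0 y hy)

lemma beta_tested (h : IsRenormSolution F₀ F) {χ : Omega → ℝ} (hχ : IsSpaceTest χ) {ψ : ℝ → ℝ}
    (hψ : ContDiff ℝ (⊤ : ℕ∞) ψ) {R : ℝ} (hψR : ∀ t, R < |t| → ψ t = 0) :
    (∫ t in Ioi (0 : ℝ), deriv ψ t * ∫ z, beta1 (F t) (shift t z) * χ z) +
      ψ 0 * (∫ z, beta1 F₀ z * χ z) +
      (∫ t in Ioi (0 : ℝ), ψ t * ∫ z, betaRate F t z * χ z) = 0 := by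
  obtain ⟨hχs, ⟨R', hR'⟩, hχm, -⟩ := hχ
  set φ : ℝ → Omega → ℝ := fun t z => ψ t * χ (shift (-t) z) with hφ
  have hφt : IsTest φ := by
    refine ⟨(hψ.comp contDiff_fst).mul (contDiff_toT3_shift hχs), max R R', fun t z htz => ?_⟩
    rcases htz with h1 | h1
    · simp [hφ, hψR t ((le_max_left _ _).trans_lt h1)]
    · simp [hφ, hR' (shift (-t) z) (by rw [shift_snd]; exact (le_max_right _ _).trans_lt h1)]
  have hback : ∀ t z, shift (-t) (shift t z) = z := fun t z => by
    rw [shift_shift, add_neg_cancel, shift_zero]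
  have htr : ∀ t z, transport φ t z = deriv ψ t * χ (shift (-t) z) := by
    intro t z
    have he : (fun s : ℝ => φ (t + s) (shift s z)) =
        fun s => ψ (t + s) * χ (shift (-t) z) := by
      funext s
      simp only [hφ]
      rw [shift_shift, show s + -(t + s) = -t by ring]
    rw [transport, he, deriv_mul_const_field, deriv_comp_const_add, add_zero]
  have hM := fun z : Omega => M0_pos z.2
  have hβ : ∀ (G : Omega → ℝ) (z : Omega),
      M0 z.2 * ((G z / M0 z.2) / (1 + G z / M0 z.2)) = beta1 G z := by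
    intro G z
    have := (hM z).ne'
    rw [beta1]
    field_simp
  have hdiff : ContDiffOn ℝ 1 (fun y : ℝ => y / (1 + y)) (Ici 0) :=
    contDiffOn_id.div (by fun_prop) fun y (hy : 0 ≤ y) => by positivity
  have hbd : ∃ C, ∀ y : ℝ, 0 ≤ y →
      |derivWithin (fun y : ℝ => y / (1 + y)) (Ici 0) y| ≤ C / (1 + y) := by
    refine ⟨1, fun y hy => ?_⟩
    rw [derivWithin_beta hy, abs_of_nonneg (by positivity)]
    exact one_div_le_one_div_of_le (by positivity) (by nlinarith)
  have hR := h.renormalized _ hdiff (by simp) hbd φ hφt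
  have e0 : ∫ z : Omega, M0 z.2 * ((F₀ z / M0 z.2) / (1 + F₀ z / M0 z.2)) * φ 0 z =
      ψ 0 * ∫ z, beta1 F₀ z * χ z := by
    rw [← integral_const_mul]
    refine integral_congr_ae (Filter.Eventually.of_forall fun z => ?_)
    simp only [hφ, hβ, neg_zero, shift_zero]
    ring
  have e1 : ∀ t, ∫ z : Omega, M0 z.2 * ((F t z / M0 z.2) / (1 + F t z / M0 z.2)) * transport φ t z =
      deriv ψ t * ∫ z, beta1 (F t) (shift t z) * χ z := by
    intro t
    have hmF : Measurable (F t) := h.measurable.comp measurable_prodMk_left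
    have hmeas : Measurable
        (fun z : Omega => beta1 (F t) z * (deriv ψ t * χ (shift (-t) z))) :=
      (measurable_beta1 hmF).mul ((hχm.comp (measurable_shift _)).const_mul _)
    simp only [hβ, htr]
    have hsw : ∫ z, beta1 (F t) z * (deriv ψ t * χ (shift (-t) z)) =
        ∫ z, beta1 (F t) (shift t z) * (deriv ψ t * χ (shift (-t) (shift t z))) := by
      conv_lhs => rw [← (measurePreserving_shift t).map_eq]
      exact integral_map (measurable_shift t).aemeasurable hmeas.aestronglyMeasurable
    rw [hsw, ← integral_const_mul]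
    refine integral_congr_ae (Filter.Eventually.of_forall fun z => ?_)
    simp only [hback]
    ring
  have e2 : ∀ t, ∫ z : Omega, derivWithin (fun y : ℝ => y / (1 + y)) (Ici 0) (F t z / M0 z.2) *
        Qcoll (F t) z * φ t z = ψ t * ∫ z, betaRate F t z * χ z := by
    intro t
    have hmF : Measurable (F t) := h.measurable.comp measurable_prodMk_left
    have hmQ : Measurable (Qcoll (F t)) :=
      ((measurable_Qplus h.measurable).comp measurable_prodMk_left).ennreal_toReal.sub
        ((measurable_Qminus h.measurable).comp measurable_prodMk_left).ennreal_toReal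
    have hmχ : Measurable (fun z => φ t z) := (hχm.comp (measurable_shift _)).const_mul _
    have hmeas : Measurable (fun z : Omega =>
        Qcoll (F t) z * (M0 z.2 / (M0 z.2 + F t z)) ^ 2 * φ t z) := by fun_prop
    have hd : ∀ z : Omega, derivWithin (fun y : ℝ => y / (1 + y)) (Ici 0) (F t z / M0 z.2) *
        Qcoll (F t) z * φ t z = Qcoll (F t) z * (M0 z.2 / (M0 z.2 + F t z)) ^ 2 * φ t z := by
      intro z
      have h1 := hM z
      have h2 := h.nonneg t z
      rw [derivWithin_beta (by positivity)]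
      field_simp
    simp only [hd]
    have hsw : ∫ z, Qcoll (F t) z * (M0 z.2 / (M0 z.2 + F t z)) ^ 2 * φ t z =
        ∫ z, betaRate F t z * φ t (shift t z) := by
      conv_lhs => rw [← (measurePreserving_shift t).map_eq]
      rw [integral_map (measurable_shift t).aemeasurable hmeas.aestronglyMeasurable]
      simp only [betaRate, shift_snd]
    rw [hsw, ← integral_const_mul]
    refine integral_congr_ae (Filter.Eventually.of_forall fun z => ?_)
    simp only [hφ, hback]
    ring
  simpa only [e0, e1, e2] using hR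

/-- Integration by parts against a primitive. -/
lemma integral_deriv_mul_prim {T : ℝ} {f ψ : ℝ → ℝ} (hψ : ContDiff ℝ (⊤ : ℕ∞) ψ)
    (hψT : ψ T = 0) (hf : IntegrableOn f (Ioc 0 T)) :
    ∫ t in Ioc 0 T, deriv ψ t * ∫ s in Ioc 0 t, f s = -∫ t in Ioc 0 T, ψ t * f t := by
  set μ := (volume : Measure ℝ).restrict (Ioc 0 T) with hμ
  set S : Set (ℝ × ℝ) := {q | q.2 ≤ q.1}
  have hS : MeasurableSet S := measurableSet_le measurable_snd measurable_fst
  have : IsFiniteMeasure μ := isFiniteMeasure_restrict.2 measure_Ioc_lt_top.ne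
  have hψ' : Continuous (deriv ψ) := hψ.continuous_deriv (mod_cast le_top)
  have hint : Integrable (S.indicator fun q => deriv ψ q.1 * f q.2) (μ.prod μ) :=
    ((hψ'.integrableOn_Ioc).mul_prod hf).indicator hS
  have hl : ∀ t ∈ Ioc 0 T, ∫ s, S.indicator (fun q => deriv ψ q.1 * f q.2) (t, s) ∂μ =
      deriv ψ t * ∫ s in Ioc 0 t, f s := by
    intro t ht
    have he : (fun s => S.indicator (fun q : ℝ × ℝ => deriv ψ q.1 * f q.2) (t, s)) =
        (Iic t).indicator (fun s => deriv ψ t * f s) := rfl
    rw [he, integral_indicator measurableSet_Iic, hμ, Measure.restrict_restrict measurableSet_Iic,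
      integral_const_mul, inter_comm, Ioc_inter_Iic, min_eq_right ht.2]
  have hr : ∀ s ∈ Ioc 0 T, ∫ t, S.indicator (fun q => deriv ψ q.1 * f q.2) (t, s) ∂μ =
      -(ψ s * f s) := by
    intro s hs
    have he : (fun t => S.indicator (fun q : ℝ × ℝ => deriv ψ q.1 * f q.2) (t, s)) =
        (Ici s).indicator (fun t => deriv ψ t * f s) := rfl
    have hset : Ici s ∩ Ioc 0 T = Icc s T := by
      ext x
      simp only [mem_inter_iff, mem_Ici, mem_Ioc, mem_Icc]
      exact ⟨fun hx => ⟨hx.1, hx.2.2⟩, fun hx => ⟨hx.1, hs.1.trans_le hx.1, hx.2⟩⟩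
    rw [he, integral_indicator measurableSet_Ici, hμ, Measure.restrict_restrict measurableSet_Ici,
      hset, integral_mul_const, integral_Icc_eq_integral_Ioc,
      ← intervalIntegral.integral_of_le hs.2,
      intervalIntegral.integral_deriv_eq_sub (fun x _ => hψ.differentiable (by simp) x)
        (hψ'.intervalIntegrable _ _), hψT]
    ring
  calc ∫ t in Ioc 0 T, deriv ψ t * ∫ s in Ioc 0 t, f s
      = ∫ t, ∫ s, S.indicator (fun q => deriv ψ q.1 * f q.2) (t, s) ∂μ ∂μ :=
        (setIntegral_congr_fun measurableSet_Ioc hl).symm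
    _ = ∫ s, ∫ t, S.indicator (fun q => deriv ψ q.1 * f q.2) (t, s) ∂μ ∂μ :=
        integral_integral_swap hint
    _ = ∫ s in Ioc 0 T, -(ψ s * f s) := setIntegral_congr_fun measurableSet_Ioc hr
    _ = _ := integral_neg _

/-- `∫ χ (t ↦ defect)` as a function of time. -/
noncomputable def pairing (F₀ : Omega → ℝ) (F : ℝ → Omega → ℝ) (χ : Omega → ℝ) (t : ℝ) : ℝ :=
  ∫ z, χ z * defect F₀ F t z

lemma integrable_chi_defect (h : IsRenormSolution F₀ F) (hF0 : Measurable F₀)
    (hn : ∀ z, 0 ≤ F₀ z) {χ : Omega → ℝ} (hχ : IsSpaceTest χ) {T : ℝ} (hT : 0 ≤ T) :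
    Integrable (fun w : ℝ × Omega => χ w.2 * defect F₀ F w.1 w.2)
      (((volume : Measure ℝ).restrict (Ioc 0 T)).prod (volume : Measure Omega)) := by
  obtain ⟨C, hC⟩ := hχ.2.2.2
  exact (integrable_defect h hF0 hn hT).bdd_mul
    (hχ.2.2.1.comp measurable_snd).aestronglyMeasurable
    (Filter.Eventually.of_forall fun w => hC w.2)

lemma pairing_eq (h : IsRenormSolution F₀ F) (hF0 : Measurable F₀)
    (hn : ∀ z, 0 ≤ F₀ z) {χ : Omega → ℝ} (hχ : IsSpaceTest χ) {T t : ℝ} (ht : t ∈ Ioc 0 T) :
    pairing F₀ F χ t = (∫ z, beta1 (F t) (shift t z) * χ z) - (∫ z, beta1 F₀ z * χ z) -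
      ∫ s in Ioc 0 t, ∫ z, betaRate F s z * χ z := by
  obtain ⟨C, hC⟩ := hχ.2.2.2
  have hχm := hχ.2.2.1
  have hbd : ∀ᵐ z : Omega, ‖χ z‖ ≤ C := Filter.Eventually.of_forall hC
  have i1 : Integrable (fun z : Omega => beta1 (F t) (shift t z) * χ z) := by
    refine Integrable.mul_bdd ?_ hχm.aestronglyMeasurable hbd
    refine integrable_M0_snd.mono'
      ((measurable_beta1_shift h.measurable).comp measurable_prodMk_left).aestronglyMeasurable
      (Filter.Eventually.of_forall fun z => ?_)
    exact (abs_beta1_le (h.nonneg _ _)).trans_eq (by rw [shift_snd])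
  have i2 : Integrable (fun z : Omega => beta1 F₀ z * χ z) := by
    refine Integrable.mul_bdd ?_ hχm.aestronglyMeasurable hbd
    exact integrable_M0_snd.mono' (measurable_beta1 hF0).aestronglyMeasurable
      (Filter.Eventually.of_forall fun z => abs_beta1_le (hn z))
  have hle : (volume : Measure ℝ).restrict (Ioc 0 t) ≤ volume.restrict (Icc 0 t) :=
    Measure.restrict_mono Ioc_subset_Icc_self le_rfl
  have i3 : Integrable (fun w : ℝ × Omega => betaRate F w.1 w.2 * χ w.2)
      (((volume : Measure ℝ).restrict (Ioc 0 t)).prod (volume : Measure Omega)) :=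
    ((integrable_betaRate h ht.1.le).mono_measure (Measure.prod_mono hle le_rfl)).mul_bdd
      (hχm.comp measurable_snd).aestronglyMeasurable
      (Filter.Eventually.of_forall fun w => hC w.2)
  have i4 : Integrable (fun z : Omega => prim F t z * χ z) := by
    refine i3.integral_prod_right.congr (Filter.Eventually.of_forall fun z => ?_)
    exact integral_mul_const (χ z) _
  have e4 : ∫ s in Ioc 0 t, ∫ z, betaRate F s z * χ z = ∫ z, prim F t z * χ z := by
    refine (integral_integral_swap i3).trans ?_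
    exact integral_congr_ae (Filter.Eventually.of_forall fun z => integral_mul_const (χ z) _)
  have i12 : Integrable (fun z : Omega => beta1 (F t) (shift t z) * χ z - beta1 F₀ z * χ z) :=
    i1.sub i2
  rw [e4, ← integral_sub i1 i2, ← integral_sub i12 i4, pairing]
  refine integral_congr_ae (Filter.Eventually.of_forall fun z => ?_)
  simp only [defect]
  ring

lemma pairing_eq_zero (h : IsRenormSolution F₀ F) (hF0 : Measurable F₀) (hn : ∀ z, 0 ≤ F₀ z)
    {χ : Omega → ℝ} (hχ : IsSpaceTest χ) : ∀ᵐ t, 0 < t → pairing F₀ F χ t = 0 := by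
  have hpint : ∀ T, 0 ≤ T → IntegrableOn (pairing F₀ F χ) (Ioc 0 T) := fun T hT =>
    (integrable_chi_defect h hF0 hn hχ hT).integral_prod_left
  set f := (Ioi (0 : ℝ)).indicator (pairing F₀ F χ) with hf
  have hloc : LocallyIntegrable f := by
    rw [locallyIntegrable_iff]
    intro K hK
    obtain ⟨R, hR⟩ := hK.isBounded.subset_closedBall 0
    refine IntegrableOn.mono_set ?_ hR
    rw [IntegrableOn, hf, integrable_indicator_iff measurableSet_Ioi, IntegrableOn,
      Measure.restrict_restrict measurableSet_Ioi]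
    refine IntegrableOn.mono_set (hpint (max R 0) (le_max_right _ _)) fun x hx => ?_
    rw [Real.closedBall_eq_Icc] at hx
    exact ⟨hx.1, le_max_of_le_left (by linarith [hx.2.2])⟩
  have key := ae_eq_zero_of_integral_contDiff_smul_eq_zero hloc (fun η hη hηs => ?_)
  · filter_upwards [key] with t ht ht0
    simpa [hf, indicator_of_mem (mem_Ioi.2 ht0)] using ht
  obtain ⟨R₀, hR₀⟩ := hηs.isCompact.isBounded.subset_closedBall 0
  set R := max R₀ 0 + 1
  have hR1 : 1 ≤ R := by simp [R]
  have hηR : ∀ t, R ≤ |t| → η t = 0 := fun t ht => image_eq_zero_of_notMem_tsupport fun hm => by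
    have h2 := hR₀ hm
    rw [Metric.mem_closedBall, dist_zero_right, Real.norm_eq_abs] at h2
    have : R₀ ≤ max R₀ 0 := le_max_left _ _
    simp only [R] at ht
    linarith
  let cut : ContDiffBump (0 : ℝ) := ⟨R + 1, R + 2, by linarith, by linarith⟩
  set T := R + 3
  have hT0 : 0 ≤ T := by simp only [T]; linarith
  set G : ℝ → ℝ := fun t => ∫ s in R..t, η s with hG
  have hGd : ∀ t, HasDerivAt G (η t) t := fun t =>
    intervalIntegral.integral_hasDerivAt_right (hη.continuous.intervalIntegrable _ _)
      hη.continuous.aestronglyMeasurable.stronglyMeasurableAtFilter hη.continuous.continuousAt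
  have hGs : ContDiff ℝ (⊤ : ℕ∞) G := by
    rw [contDiff_infty_iff_deriv]
    exact ⟨fun t => (hGd t).differentiableAt, by rwa [funext fun t => (hGd t).deriv]⟩
  have hG0 : ∀ t, R ≤ t → G t = 0 := fun t ht =>
    intervalIntegral.integral_zero_ae (Filter.Eventually.of_forall fun s hs => by
      rw [uIoc_of_le ht] at hs
      exact hηR s (hs.1.le.trans (le_abs_self s)))
  set ψ : ℝ → ℝ := fun t => cut t * G t with hψ
  have hψs : ContDiff ℝ (⊤ : ℕ∞) ψ := cut.contDiff.mul hGs
  have hψT : ∀ t, R + 2 < |t| → ψ t = 0 := fun t ht => by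
    have : cut t = 0 := cut.zero_of_le_dist (by
      simp only [dist_zero_right, Real.norm_eq_abs]; exact ht.le)
    simp [hψ, this]
  have hψd : ∀ t, 0 < t → deriv ψ t = η t := by
    intro t ht
    rcases lt_or_ge t (R + 1) with hlt | hge
    · have he : ψ =ᶠ[nhds t] G := by
        filter_upwards [Ioo_mem_nhds (show (0 : ℝ) < t from ht) hlt] with x hx
        have : cut x = 1 := cut.one_of_mem_closedBall (by
          simp only [Metric.mem_closedBall, dist_zero_right, Real.norm_eq_abs]
          rw [abs_of_pos hx.1]; exact hx.2.le)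
        simp [hψ, this]
      rw [he.deriv_eq, (hGd t).deriv]
    · have he : ψ =ᶠ[nhds t] fun _ => (0 : ℝ) := by
        filter_upwards [Ioi_mem_nhds (show R < t by linarith)] with x hx
        simp [hψ, hG0 x (le_of_lt hx)]
      rw [he.deriv_eq, deriv_const, hηR t (le_trans (by linarith) (le_abs_self t))]
  have hid := beta_tested h hχ hψs hψT
  obtain ⟨C, hC⟩ := hχ.2.2.2
  set U : ℝ → ℝ := fun t => ∫ z, beta1 (F t) (shift t z) * χ z with hU
  set U0 := ∫ z, beta1 F₀ z * χ z with hU0
  set B : ℝ → ℝ := fun t => ∫ z, betaRate F t z * χ z with hB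
  have : IsFiniteMeasure ((volume : Measure ℝ).restrict (Ioc 0 T)) :=
    isFiniteMeasure_restrict.2 measure_Ioc_lt_top.ne
  have hBi : IntegrableOn B (Ioc 0 T) :=
    (((integrable_betaRate h hT0).mono_measure (Measure.prod_mono
      (Measure.restrict_mono Ioc_subset_Icc_self le_rfl) le_rfl)).mul_bdd
      (hχ.2.2.1.comp measurable_snd).aestronglyMeasurable
      (Filter.Eventually.of_forall fun w => hC w.2)).integral_prod_left
  have hUm : Measurable U :=
    (((measurable_beta1_shift h.measurable).mul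
      (hχ.2.2.1.comp measurable_snd)).stronglyMeasurable.integral_prod_right').measurable
  have hd' : Continuous (deriv ψ) := hψs.continuous_deriv (mod_cast le_top)
  obtain ⟨D, hD⟩ : ∃ D, ∀ t ∈ Ioc 0 T, ‖deriv ψ t‖ ≤ D := by
    obtain ⟨D, hD⟩ := (isCompact_Icc (a := (0 : ℝ)) (b := T)).exists_bound_of_continuousOn
      hd'.continuousOn
    exact ⟨D, fun t ht => hD t ⟨ht.1.le, ht.2⟩⟩
  have hDae : ∀ᵐ t ∂((volume : Measure ℝ).restrict (Ioc 0 T)), ‖deriv ψ t‖ ≤ D :=
    (ae_restrict_mem measurableSet_Ioc).mono hD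
  have hUb : ∀ t, ‖U t‖ ≤ ∫ z : Omega, M0 z.2 * C := by
    intro t
    refine norm_integral_le_of_norm_le (integrable_M0_snd.mul_const C)
      (Filter.Eventually.of_forall fun z => ?_)
    rw [norm_mul]
    exact mul_le_mul ((abs_beta1_le (h.nonneg _ _)).trans_eq (by rw [shift_snd])) (hC z)
      (norm_nonneg _) (M0_pos _).le
  have iU : IntegrableOn (fun t => deriv ψ t * U t) (Ioc 0 T) :=
    (Integrable.of_bound hUm.aestronglyMeasurable _ (Filter.Eventually.of_forall hUb)).bdd_mul
      hd'.aestronglyMeasurable hDae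
  have iP : IntegrableOn (fun t => deriv ψ t * pairing F₀ F χ t) (Ioc 0 T) :=
    (hpint T hT0).bdd_mul hd'.aestronglyMeasurable hDae
  have iC : IntegrableOn (fun t => deriv ψ t * U0) (Ioc 0 T) := hd'.integrableOn_Ioc.mul_const U0
  have hψT' : ψ T = 0 := hψT T (by
    rw [abs_of_nonneg hT0]; simp only [T]; linarith)
  have hibp := integral_deriv_mul_prim hψs hψT' hBi
  have hvan : ∀ t ∈ Ioi (0 : ℝ) \ Ioc 0 T, deriv ψ t = 0 ∧ ψ t = 0 := by
    rintro t ⟨ht0, htT⟩
    have h0 : (0 : ℝ) < t := ht0
    have hT' : T < t := lt_of_not_ge fun hh => htT ⟨h0, hh⟩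
    simp only [T] at hT'
    exact ⟨by rw [hψd t h0]; exact hηR t ((show R ≤ t by linarith).trans (le_abs_self t)),
      hψT t ((show R + 2 < t by linarith).trans_le (le_abs_self t))⟩
  have r1 : ∫ t in Ioi (0 : ℝ), deriv ψ t * U t = ∫ t in Ioc 0 T, deriv ψ t * U t :=
    (setIntegral_eq_of_subset_of_forall_sdiff_eq_zero measurableSet_Ioi Ioc_subset_Ioi_self
      fun t ht => by rw [(hvan t ht).1, zero_mul])
  have r2 : ∫ t in Ioi (0 : ℝ), ψ t * B t = ∫ t in Ioc 0 T, ψ t * B t :=
    (setIntegral_eq_of_subset_of_forall_sdiff_eq_zero measurableSet_Ioi Ioc_subset_Ioi_self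
      fun t ht => by rw [(hvan t ht).2, zero_mul])
  have hsplit : ∫ t in Ioc 0 T, deriv ψ t * (∫ s in Ioc 0 t, B s) =
      (∫ t in Ioc 0 T, deriv ψ t * U t) - (∫ t in Ioc 0 T, deriv ψ t * U0) -
        ∫ t in Ioc 0 T, deriv ψ t * pairing F₀ F χ t := by
    have iUC : IntegrableOn (fun t => deriv ψ t * U t - deriv ψ t * U0) (Ioc 0 T) := iU.sub iC
    rw [← integral_sub iU iC, ← integral_sub iUC iP]
    refine setIntegral_congr_fun measurableSet_Ioc fun t ht => ?_
    simp only [pairing_eq h hF0 hn hχ ht, hU, hU0, hB]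
    ring
  have hψ0 : ∫ t in Ioc 0 T, deriv ψ t * U0 = -(ψ 0) * U0 := by
    rw [integral_mul_const, ← intervalIntegral.integral_of_le hT0,
      intervalIntegral.integral_deriv_eq_sub (fun x _ => hψs.differentiable (by simp) x)
        (hd'.intervalIntegrable _ _), hψT']
    ring
  have hgoal : ∫ t in Ioc 0 T, deriv ψ t * pairing F₀ F χ t = 0 := by
    linarith [hid, r1, r2, hibp, hsplit, hψ0]
  calc ∫ t, η t • f t = ∫ t in Ioi (0 : ℝ), η t * pairing F₀ F χ t := by
        rw [← integral_indicator measurableSet_Ioi]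
        refine integral_congr_ae (Filter.Eventually.of_forall fun t => ?_)
        by_cases ht : t ∈ Ioi (0 : ℝ) <;> simp [hf, ht]
    _ = ∫ t in Ioi (0 : ℝ), deriv ψ t * pairing F₀ F χ t :=
        setIntegral_congr_fun measurableSet_Ioi fun t ht => by rw [hψd t ht]
    _ = ∫ t in Ioc 0 T, deriv ψ t * pairing F₀ F χ t :=
        setIntegral_eq_of_subset_of_forall_sdiff_eq_zero measurableSet_Ioi Ioc_subset_Ioi_self
          fun t ht => by rw [(hvan t ht).1, zero_mul]
    _ = 0 := hgoal

lemma defect_eq_zero (h : IsRenormSolution F₀ F) (hF0 : Measurable F₀) (hn : ∀ z, 0 ≤ F₀ z)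
    {T : ℝ} (hT : 0 ≤ T) :
    ∀ᵐ t ∂((volume : Measure ℝ).restrict (Ioc 0 T)), ∀ᵐ z : Omega, defect F₀ F t z = 0 := by
  set μ := (volume : Measure ℝ).restrict (Ioc 0 T) with hμ
  have : IsFiniteMeasure μ := isFiniteMeasure_restrict.2 measure_Ioc_lt_top.ne
  have hint := integrable_defect h hF0 hn hT
  -- every time average over an initial interval vanishes
  have hq : ∀ q : ℚ, ∀ᵐ z : Omega, ∫ t, (Iic (q : ℝ)).indicator (fun t => defect F₀ F t z) t ∂μ = 0 := by
    intro q
    set S : Set (ℝ × Omega) := {w | w.1 ≤ (q : ℝ)}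
    have hS : MeasurableSet S := measurableSet_le measurable_fst measurable_const
    have hi : Integrable (S.indicator fun w => defect F₀ F w.1 w.2)
        (μ.prod (volume : Measure Omega)) := hint.indicator hS
    refine ae_zero_of_tests hi.integral_prod_right fun χ hχ => ?_
    obtain ⟨C, hC⟩ := hχ.2.2.2
    have hi' : Integrable
        (Function.uncurry fun (t : ℝ) (z : Omega) => χ z * (Iic (q : ℝ)).indicator
          (fun t => defect F₀ F t z) t) (μ.prod (volume : Measure Omega)) :=
      hi.bdd_mul (hχ.2.2.1.comp measurable_snd).aestronglyMeasurable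
        (Filter.Eventually.of_forall fun w => hC w.2)
    have hz : ∀ᵐ t ∂μ, pairing F₀ F χ t = 0 := by
      filter_upwards [ae_restrict_of_ae (pairing_eq_zero h hF0 hn hχ),
        ae_restrict_mem (μ := volume) measurableSet_Ioc] with t h1 h2
      exact h1 h2.1
    calc ∫ z : Omega, χ z * ∫ t, (Iic (q : ℝ)).indicator (fun t => defect F₀ F t z) t ∂μ
        = ∫ z : Omega, ∫ t, χ z * (Iic (q : ℝ)).indicator (fun t => defect F₀ F t z) t ∂μ := by
          simp only [integral_const_mul]
      _ = ∫ t, (∫ z : Omega, χ z * (Iic (q : ℝ)).indicator (fun t => defect F₀ F t z) t) ∂μ :=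
          (integral_integral_swap hi').symm
      _ = 0 := by
          refine integral_eq_zero_of_ae ?_
          filter_upwards [hz] with t ht
          by_cases htq : t ∈ Iic (q : ℝ)
          · simpa [htq, pairing] using ht
          · simp [htq]
  have hz : ∀ᵐ z : Omega, ∀ᵐ t ∂μ, defect F₀ F t z = 0 := by
    filter_upwards [ae_all_iff.2 hq, hint.prod_left_ae] with z hzq hzi
    set g : ℝ → ℝ := (Ioc 0 T).indicator fun t => defect F₀ F t z with hg
    have hgi : Integrable g := (integrable_indicator_iff measurableSet_Ioc).2 hzi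
    have hprim : ∀ x : ℝ, ∫ t in (0 : ℝ)..x, g t = 0 := by
      have hc : Continuous fun x : ℝ => ∫ t in (0 : ℝ)..x, g t :=
        intervalIntegral.continuous_primitive (fun a b => hgi.intervalIntegrable) 0
      refine congrFun (hc.ext_on Rat.denseRange_cast continuous_const ?_)
      rintro _ ⟨q, rfl⟩
      have hI : ∀ x : ℝ, ∫ t in Iic x, g t =
          ∫ t, (Iic x).indicator (fun t => defect F₀ F t z) t ∂μ := by
        intro x
        rw [hμ, ← integral_indicator measurableSet_Iic, ← integral_indicator measurableSet_Ioc]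
        refine integral_congr_ae (Filter.Eventually.of_forall fun t => ?_)
        simp only [hg]
        rw [indicator_indicator, indicator_indicator, inter_comm]
      simp only
      rw [← intervalIntegral.integral_Iic_sub_Iic hgi.integrableOn hgi.integrableOn, hI, hI,
        hzq q]
      have := hzq 0
      rw [Rat.cast_zero] at this
      rw [this, sub_zero]
    filter_upwards [ae_restrict_of_ae (LocallyIntegrable.ae_hasDerivAt_integral hgi.locallyIntegrable),
      ae_restrict_mem (μ := volume) measurableSet_Ioc] with t h1 h2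
    have h3 := (h1 0).unique (by
      simpa [hprim] using hasDerivAt_const t (0 : ℝ) : HasDerivAt (fun x => ∫ y in (0:ℝ)..x, g y) 0 t)
    simpa [hg, h2] using h3
  refine (Measure.ae_ae_comm ?_).2 hz
  exact measurableSet_eq_fun (measurable_defect h hF0) measurable_const

end Mild

open Mild in
/-- The renormalized equation in mild form. -/
theorem beta_mild {F₀ : Omega → ℝ} {F : ℝ → Omega → ℝ} (h : IsRenormSolution F₀ F)
    (hF0 : Measurable F₀) (hn : ∀ z, 0 ≤ F₀ z) {T : ℝ} (hT : 0 ≤ T) :
    (∀ᵐ z : Omega, IntervalIntegrable (fun s => betaRate F s z) volume 0 T) ∧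
      ∀ᵐ t ∂((volume : Measure ℝ).restrict (Ioc 0 T)), ∀ᵐ z : Omega,
        beta1 (F t) (shift t z) = beta1 F₀ z + ∫ s in (0 : ℝ)..t, betaRate F s z := by
  constructor
  · filter_upwards [(integrable_betaRate h hT).prod_left_ae] with z hz
    exact (intervalIntegrable_iff_integrableOn_Icc_of_le hT).2 hz
  · filter_upwards [defect_eq_zero h hF0 hn hT, ae_restrict_mem (μ := volume) measurableSet_Ioc]
      with t ht htT
    filter_upwards [ht] with z hz
    rw [intervalIntegral.integral_of_le htT.1.le]
    simp only [defect, prim] at hz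
    linarith

end Vale.Agent.P140.Renorm
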