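import Vale.Agent.P140.Renorm.Moments

/-!
# Mild solutions with a bounded third moment: integrability and conservation laws
-/

open MeasureTheory Real Set
open scoped RealInnerProductSpace ENNReal

namespace Vale.Agent.P140.Renorm

open Vale.Agent.P140

/-- The weight `1 + |v|²`. -/
noncomputable def wt (v : V3) : ℝ≥0∞ := ENNReal.ofReal (1 + ‖v‖ ^ 2)

/-- The weight `1 + |v|`. -/
noncomputable def w1 (v : V3) : ℝ≥0∞ := ENNReal.ofReal (1 + ‖v‖)

/-- The weight `(1 + |v|)³`. -/
noncomputable def w3 (v : V3) : ℝ≥0∞ := ENNReal.ofReal ((1 + ‖v‖) ^ 3)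

@[fun_prop] lemma measurable_wt : Measurable wt := by unfold wt; fun_prop

@[fun_prop] lemma measurable_w1 : Measurable w1 := by unfold w1; fun_prop

@[fun_prop] lemma measurable_w3 : Measurable w3 := by unfold w3; fun_prop

lemma one_le_wt (v : V3) : 1 ≤ wt v :=
  ENNReal.one_le_ofReal.2 (by nlinarith [sq_nonneg ‖v‖])

lemma w1_le_w3 (v : V3) : w1 v ≤ w3 v :=
  ENNReal.ofReal_le_ofReal (le_self_pow₀ (by linarith [norm_nonneg v]) three_ne_zero)

lemma w1_le_two_wt (v : V3) : w1 v ≤ 2 * wt v := by
  calc w1 v ≤ ENNReal.ofReal (2 * (1 + ‖v‖ ^ 2)) :=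
        ENNReal.ofReal_le_ofReal (by nlinarith [sq_nonneg (‖v‖ - 1)])
    _ = 2 * wt v := by
      rw [ENNReal.ofReal_mul zero_le_two, ENNReal.ofReal_ofNat, wt]

lemma wt_mul_w1_le (v : V3) : wt v * w1 v ≤ w3 v := by
  rw [w1, wt, w3, ← ENNReal.ofReal_mul (by positivity)]
  exact ENNReal.ofReal_le_ofReal (by nlinarith [norm_nonneg v, mul_self_nonneg ‖v‖])

lemma lossRate_le_moment {f : V3 → ℝ≥0∞} (hf : Measurable f) (v : V3) :
    lossRate f v ≤ w1 v * ((∫⁻ w, w1 w * f w) * surface univ) := by
  calc lossRate f v ≤ ∫⁻ p : V3 × S2, w1 v * (w1 p.1 * f p.1)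
        ∂((volume : Measure V3).prod surface) := by
        refine lintegral_mono fun p => ?_
        rw [← mul_assoc]
        refine mul_le_mul' ?_ le_rfl
        rw [w1, w1, ← ENNReal.ofReal_mul (by positivity)]
        exact ENNReal.ofReal_le_ofReal (abs_impact_le v p)
    _ = _ := by
      rw [lintegral_const_mul _ (by fun_prop), lintegral_prod _ (by fun_prop)]
      simp only [lintegral_const]
      rw [lintegral_mul_const' _ _ (measure_ne_top _ _)]

lemma lintegral_wt_loss_le {f h : V3 → ℝ≥0∞} (hf : Measurable f) (hh : Measurable h) :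
    ∫⁻ v, wt v * (f v * lossRate h v) ≤
      (∫⁻ v, w3 v * f v) * ((∫⁻ w, w1 w * h w) * surface univ) := by
  rw [← lintegral_mul_const _ (by fun_prop)]
  refine lintegral_mono fun v => ?_
  calc wt v * (f v * lossRate h v)
      ≤ wt v * (f v * (w1 v * ((∫⁻ w, w1 w * h w) * surface univ))) :=
        mul_le_mul' le_rfl (mul_le_mul' le_rfl (lossRate_le_moment hh v))
    _ = wt v * w1 v * f v * ((∫⁻ w, w1 w * h w) * surface univ) := by ring
    _ ≤ _ := mul_le_mul' (mul_le_mul' (wt_mul_w1_le v) le_rfl) le_rfl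

/-- Conservation of `1 + |v|²` in weak form, bilinearly. -/
lemma lintegral_wt_gain_add {f h : V3 → ℝ≥0∞} (hf : Measurable f) (hh : Measurable h) :
    (∫⁻ v, wt v * gain f h v) + ∫⁻ v, wt v * gain h f v =
      (∫⁻ v, wt v * (f v * lossRate h v)) + ∫⁻ v, wt v * (h v * lossRate f v) := by
  set k : V3 → V3 × S2 → ℝ≥0∞ := fun v p => ENNReal.ofReal |impact v p| * f v * h p.1 with hk
  have hkm : Measurable (Function.uncurry k) := by simp only [hk]; fun_prop
  have hP : Measurable (Function.uncurry fun v p => wt (postV v p) * k v p) := by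
    simp only [hk]; fun_prop
  have hl : ∀ (a b : V3 → ℝ≥0∞), Measurable b → ∀ v, wt v * (a v * lossRate b v) =
      ∫⁻ p, wt v * (ENNReal.ofReal |impact v p| * a v * b p.1)
        ∂((volume : Measure V3).prod surface) := by
    intro a b hb v
    rw [lossRate, ← lintegral_const_mul _ (by fun_prop), ← lintegral_const_mul _ (by fun_prop)]
    exact lintegral_congr fun p => by ring
  rw [lintegral_mul_gain hf hh measurable_wt, lintegral_mul_gain hh hf measurable_wt]
  simp_rw [hl f h hh, hl h f hf]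
  rw [← lintegral_swap_velocities
      (f := fun v p => wt (postV v p) * (ENNReal.ofReal |impact v p| * h v * f p.1)) (by fun_prop),
    ← lintegral_swap_velocities
      (f := fun v p => wt v * (ENNReal.ofReal |impact v p| * h v * f p.1)) (by fun_prop)]
  simp only [impact_swap, abs_neg, postV_swap]
  have hm1 : Measurable fun v => ∫⁻ p, wt (postV v p) * (ENNReal.ofReal |impact v p| * f v * h p.1)
      ∂((volume : Measure V3).prod surface) := Measurable.lintegral_prod_right hP
  have hm2 : Measurable fun v => ∫⁻ p, wt v * (ENNReal.ofReal |impact v p| * f v * h p.1)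
      ∂((volume : Measure V3).prod surface) :=
    Measurable.lintegral_prod_right' (f := fun q : V3 × V3 × S2 =>
      wt q.1 * (ENNReal.ofReal |impact q.1 q.2| * f q.1 * h q.2.1)) (by fun_prop)
  rw [← lintegral_add_left hm1, ← lintegral_add_left hm2]
  refine lintegral_congr fun v => ?_
  rw [← lintegral_add_left (by fun_prop), ← lintegral_add_left (by fun_prop)]
  refine lintegral_congr fun p => ?_
  rw [mul_right_comm (ENNReal.ofReal |impact v p|) (h p.1) (f v), ← add_mul, ← add_mul]
  congr 1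
  simp only [wt]
  rw [← ENNReal.ofReal_add (by positivity) (by positivity),
    ← ENNReal.ofReal_add (by positivity) (by positivity)]
  congr 1
  linarith [energy_post v p]

lemma lintegral_wt_gain_self_le {f : V3 → ℝ≥0∞} (hf : Measurable f) :
    ∫⁻ v, wt v * gain f f v ≤
      2 * ((∫⁻ v, w3 v * f v) * ((∫⁻ w, w1 w * f w) * surface univ)) :=
  calc ∫⁻ v, wt v * gain f f v ≤ (∫⁻ v, wt v * gain f f v) + ∫⁻ v, wt v * gain f f v :=
        le_self_add
    _ = _ := lintegral_wt_gain_add hf hf
    _ ≤ _ := by rw [two_mul]; exact add_le_add (lintegral_wt_loss_le hf hf) (lintegral_wt_loss_le hf hf)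

variable {T C : ℝ} {g : ℝ → Omega → ℝ}

lemma IsMomentMild.moment' (hg : IsMomentMild T C g) {t : ℝ} (ht : t ∈ Icc 0 T) (x : T3) :
    ∫⁻ v, w3 v * slice (g t) x v ≤ ENNReal.ofReal C := hg.moment t ht x

lemma IsMomentMild.moment_one (hg : IsMomentMild T C g) {t : ℝ} (ht : t ∈ Icc 0 T) (x : T3) :
    ∫⁻ v, w1 v * slice (g t) x v ≤ ENNReal.ofReal C :=
  (lintegral_mono fun v => mul_le_mul' (w1_le_w3 v) le_rfl).trans (hg.moment t ht x)

/-- The bound of the weighted gain and loss. -/
noncomputable def collConst (C : ℝ) : ℝ≥0∞ :=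
  2 * (ENNReal.ofReal C * (ENNReal.ofReal C * surface univ)) +
    ENNReal.ofReal C * (ENNReal.ofReal C * surface univ)

lemma collConst_ne_top (C : ℝ) : collConst C ≠ ⊤ :=
  ENNReal.add_ne_top.2 ⟨ENNReal.mul_ne_top ENNReal.ofNat_ne_top (ENNReal.mul_ne_top
      ENNReal.ofReal_ne_top (ENNReal.mul_ne_top ENNReal.ofReal_ne_top (measure_ne_top _ _))),
    ENNReal.mul_ne_top ENNReal.ofReal_ne_top (ENNReal.mul_ne_top ENNReal.ofReal_ne_top
      (measure_ne_top _ _))⟩

/-- `(1+|v|²)(Q⁺ + Q⁻)`. -/
noncomputable def collMass (f : Omega → ℝ) (z : Omega) : ℝ≥0∞ :=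
  wt z.2 * (Qplus f z + Qminus f z)

lemma measurable_collMass {f : Omega → ℝ} (hf : Measurable f) : Measurable (collMass f) := by
  have := measurable_Qplus hf
  have := measurable_Qminus hf
  unfold collMass; fun_prop

lemma lintegral_collMass_le (hg : IsMomentMild T C g) {t : ℝ} (ht : t ∈ Icc 0 T) :
    ∫⁻ z, collMass (g t) z ≤ collConst C * (volume : Measure T3) univ := by
  have hgm : Measurable (g t) := hg.measurable.comp measurable_prodMk_left
  rw [Measure.volume_eq_prod, lintegral_prod _ (measurable_collMass hgm).aemeasurable,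
    ← lintegral_const]
  refine lintegral_mono fun x => ?_
  have hf := measurable_slice hgm x
  change ∫⁻ v, wt v * (gain (slice (g t) x) (slice (g t) x) v +
    slice (g t) x v * lossRate (slice (g t) x) v) ≤ _
  simp only [mul_add]
  rw [lintegral_add_left (by fun_prop)]
  refine add_le_add ((lintegral_wt_gain_self_le hf).trans ?_) ((lintegral_wt_loss_le hf hf).trans ?_)
  · gcongr
    · exact hg.moment' ht x
    · exact hg.moment_one ht x
  · gcongr
    · exact hg.moment' ht x
    · exact hg.moment_one ht x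

lemma lintegral_collMass_ne_top (hg : IsMomentMild T C g) {t : ℝ} (ht : t ∈ Icc 0 T) :
    ∫⁻ z, collMass (g t) z ≠ ⊤ :=
  ne_top_of_le_ne_top (ENNReal.mul_ne_top (collConst_ne_top C) (measure_ne_top _ _))
    (lintegral_collMass_le hg ht)

lemma ae_coll_finite (hg : IsMomentMild T C g) {t : ℝ} (ht : t ∈ Icc 0 T) :
    ∀ᵐ z, Qplus (g t) z ≠ ⊤ ∧ Qminus (g t) z ≠ ⊤ := by
  have hgm : Measurable (g t) := hg.measurable.comp measurable_prodMk_left
  filter_upwards [ae_lt_top (measurable_collMass hgm) (lintegral_collMass_ne_top hg ht)] with z hz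
  have h : Qplus (g t) z + Qminus (g t) z ≤ collMass (g t) z :=
    le_mul_of_one_le_left' (one_le_wt _)
  exact ENNReal.add_ne_top.1 (ne_top_of_le_ne_top hz.ne h)

attribute [local irreducible] Qplus Qminus collMass

/-- `(1+|v|²)(Q⁺+Q⁻)` integrated along characteristics. -/
noncomputable def lineMass (T : ℝ) (g : ℝ → Omega → ℝ) (z : Omega) : ℝ≥0∞ :=
  ∫⁻ s in Ioc 0 T, collMass (g s) (shift s z)

lemma measurable_collMass_line (hg : Measurable (Function.uncurry g)) :
    Measurable (fun w : ℝ × Omega => collMass (g w.1) (shift w.1 w.2)) := by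
  simp only [collMass]
  exact (measurable_wt.comp (measurable_snd.comp (measurable_snd.comp measurable_line))).mul
    (((measurable_Qplus_param hg).comp measurable_line).add
      ((measurable_Qminus_param hg).comp measurable_line))

lemma measurable_lineMass (hg : Measurable (Function.uncurry g)) : Measurable (lineMass T g) :=
  Measurable.lintegral_prod_right' (ν := (volume : Measure ℝ).restrict (Ioc 0 T))
    (f := fun q : Omega × ℝ => collMass (g q.2) (shift q.2 q.1))
    ((measurable_collMass_line hg).comp measurable_swap)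

lemma lintegral_lineMass_ne_top (hg : IsMomentMild T C g) : ∫⁻ z, lineMass T g z ≠ ⊤ := by
  have hm : Measurable (Function.uncurry fun (z : Omega) (s : ℝ) => collMass (g s) (shift s z)) :=
    (measurable_collMass_line hg.measurable).comp measurable_swap
  simp only [lineMass]
  rw [lintegral_lintegral_swap hm.aemeasurable]
  refine ne_top_of_le_ne_top ?_ (lintegral_mono_ae ((ae_restrict_iff' measurableSet_Ioc).2
    (Filter.Eventually.of_forall (p := fun s => s ∈ Ioc 0 T → (∫⁻ z, collMass (g s) (shift s z)) ≤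
      collConst C * (volume : Measure T3) univ) fun s hs => ?_)))
  · rw [lintegral_const]
    exact ENNReal.mul_ne_top (ENNReal.mul_ne_top (collConst_ne_top C) (measure_ne_top _ _))
      (measure_ne_top _ _)
  · rw [(measurePreserving_shift s).lintegral_comp
      (measurable_collMass (f := g s) (hg.measurable.comp measurable_prodMk_left))]
    exact lintegral_collMass_le hg ⟨hs.1.le, hs.2⟩

lemma ae_lineMass_finite (hg : IsMomentMild T C g) : ∀ᵐ z, lineMass T g z ≠ ⊤ :=
  (ae_lt_top (measurable_lineMass hg.measurable) (lintegral_lineMass_ne_top hg)).mono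
    fun _ hz => hz.ne

lemma ofReal_abs_Qcoll_le (f : Omega → ℝ) (z : Omega) :
    ENNReal.ofReal |Qcoll f z| ≤ Qplus f z + Qminus f z := by
  calc ENNReal.ofReal |Qcoll f z|
      ≤ ENNReal.ofReal ((Qplus f z).toReal + (Qminus f z).toReal) := by
        refine ENNReal.ofReal_le_ofReal (abs_le.2 ⟨?_, ?_⟩) <;>
          simp only [Qcoll] <;>
          linarith [ENNReal.toReal_nonneg (a := Qplus f z), ENNReal.toReal_nonneg (a := Qminus f z)]
    _ ≤ _ := by
      rw [ENNReal.ofReal_add ENNReal.toReal_nonneg ENNReal.toReal_nonneg]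
      exact add_le_add ENNReal.ofReal_toReal_le ENNReal.ofReal_toReal_le

lemma intervalIntegrable_moment_line (hg : IsMomentMild T C g) (hT : 0 ≤ T) {z : Omega}
    (hz : lineMass T g z ≠ ⊤) :
    IntervalIntegrable (fun s => Qcoll (g s) (shift s z)) volume 0 T := by
  rw [intervalIntegrable_iff_integrableOn_Ioc_of_le hT]
  refine ⟨((((measurable_Qcoll_param hg.measurable).comp measurable_line).comp
      (measurable_id.prodMk measurable_const))).aestronglyMeasurable, ?_⟩
  refine lt_of_le_of_lt (lintegral_mono fun s => ?_) hz.lt_top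
  rw [← ofReal_norm, Real.norm_eq_abs]
  refine (ofReal_abs_Qcoll_le _ _).trans ?_
  simp only [collMass]
  exact le_mul_of_one_le_left' (one_le_wt _)

lemma lintegral_weighted_le (hg : IsMomentMild T C g) {t : ℝ} (ht : t ∈ Icc 0 T) :
    ∫⁻ z : Omega, wt z.2 * ENNReal.ofReal (g t z) ≤
      ENNReal.ofReal C * (volume : Measure T3) univ := by
  have hgm : Measurable (g t) := hg.measurable.comp measurable_prodMk_left
  have hm : Measurable fun z : Omega => wt z.2 * ENNReal.ofReal (g t z) := by fun_prop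
  rw [Measure.volume_eq_prod, lintegral_prod _ hm.aemeasurable, ← lintegral_const]
  refine lintegral_mono fun x => le_trans (lintegral_mono fun v => ?_) (hg.moment' ht x)
  refine mul_le_mul' (le_trans ?_ (wt_mul_w1_le v)) le_rfl
  exact le_mul_of_one_le_right' (ENNReal.one_le_ofReal.2 (by linarith [norm_nonneg v]))

lemma lintegral_weighted_ne_top (hg : IsMomentMild T C g) {t : ℝ} (ht : t ∈ Icc 0 T) :
    ∫⁻ z : Omega, wt z.2 * ENNReal.ofReal (g t z) ≠ ⊤ :=
  ne_top_of_le_ne_top (ENNReal.mul_ne_top ENNReal.ofReal_ne_top (measure_ne_top _ _))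
    (lintegral_weighted_le hg ht)

lemma integrable_mul_weight (hg : IsMomentMild T C g) {t : ℝ} (ht : t ∈ Icc 0 T) {ψ : V3 → ℝ}
    (hψm : Measurable ψ) (hψ : ∀ v, |ψ v| ≤ 1 + ‖v‖ ^ 2) :
    Integrable (fun z : Omega => ψ z.2 * g t z) := by
  have hgm : Measurable (g t) := hg.measurable.comp measurable_prodMk_left
  refine ⟨((hψm.comp measurable_snd).mul hgm).aestronglyMeasurable, lt_of_le_of_lt
    (lintegral_mono fun z => ?_) (lintegral_weighted_ne_top hg ht).lt_top⟩
  rw [← ofReal_norm, norm_mul, Real.norm_eq_abs, Real.norm_eq_abs,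
    abs_of_nonneg (hg.nonneg t ht z), ENNReal.ofReal_mul (abs_nonneg _)]
  exact mul_le_mul' (ENNReal.ofReal_le_ofReal (hψ _)) le_rfl

lemma moment_conserved (hg : IsMomentMild T C g) {t : ℝ} (ht : t ∈ Icc 0 T) {ψ : V3 → ℝ}
    (hψm : Measurable ψ) (hψ0 : ∀ v, 0 ≤ ψ v) (hψ : ∀ v, ψ v ≤ 1 + ‖v‖ ^ 2)
    (hinv : ∀ f : V3 → ℝ≥0∞, Measurable f →
      ∫⁻ v, ENNReal.ofReal (ψ v) * gain f f v =
        ∫⁻ v, ENNReal.ofReal (ψ v) * (f v * lossRate f v)) :
    ∫ z : Omega, ψ z.2 * g t z = ∫ z : Omega, ψ z.2 * g 0 z := by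
  have habs : ∀ v, |ψ v| ≤ 1 + ‖v‖ ^ 2 := fun v => by rw [abs_of_nonneg (hψ0 v)]; exact hψ v
  have hgm : ∀ s, Measurable (g s) := fun s => hg.measurable.comp measurable_prodMk_left
  set r : ℝ → Omega → ℝ := fun s z => ψ z.2 * Qcoll (g s) (shift s z) with hr
  have hrm : Measurable (Function.uncurry r) :=
    ((hψm.comp measurable_snd).comp measurable_snd).mul
      ((measurable_Qcoll_param hg.measurable).comp measurable_line)
  have hri : Integrable (Function.uncurry r)
      ((volume.restrict (Ioc 0 t)).prod (volume : Measure Omega)) := by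
    refine ⟨hrm.aestronglyMeasurable, lt_of_le_of_lt ?_ (lintegral_lineMass_ne_top hg).lt_top⟩
    rw [lintegral_prod_symm _ (by fun_prop)]
    refine lintegral_mono fun z => ?_
    refine le_trans (lintegral_mono fun s => ?_) (lintegral_mono_set (Ioc_subset_Ioc_right ht.2))
    simp only [Function.uncurry, hr]
    rw [← ofReal_norm, norm_mul, Real.norm_eq_abs, Real.norm_eq_abs,
      ENNReal.ofReal_mul (abs_nonneg _)]
    simp only [collMass, shift_snd]
    exact mul_le_mul' (ENNReal.ofReal_le_ofReal (habs _)) (ofReal_abs_Qcoll_le _ _)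
  have hshift : ∀ (s : ℝ) (u : Omega → ℝ), Measurable u →
      ∫ z : Omega, ψ z.2 * u (shift s z) = ∫ z : Omega, ψ z.2 * u z := by
    intro s u hu
    have h := integral_map (measurable_shift s).aemeasurable
      (f := fun z : Omega => ψ z.2 * u z)
      ((hψm.comp measurable_snd).mul hu).aestronglyMeasurable (μ := volume)
    rw [(measurePreserving_shift s).map_eq] at h
    exact h.symm
  have hl : ∀ᵐ z : Omega, ψ z.2 * g t (shift t z) = ψ z.2 * g 0 z + ∫ s in Ioc 0 t, r s z :=
    hg.mild.mono fun z hz => by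
      rw [hz t ht, mul_add, intervalIntegral.integral_of_le ht.1, ← integral_const_mul]
  rw [← hshift t (g t) (hgm t), integral_congr_ae hl,
    integral_add (integrable_mul_weight hg (left_mem_Icc.2 (ht.1.trans ht.2)) hψm habs)
      (show Integrable (fun z : Omega => ∫ s in Ioc 0 t, r s z) (volume : Measure Omega) from
        hri.integral_prod_right), ← integral_integral_swap hri]
  have hz : ∀ s ∈ Ioc 0 t, ∫ z : Omega, r s z = 0 := fun s hs => by
    have hsI : s ∈ Icc 0 T := ⟨hs.1.le, hs.2.trans ht.2⟩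
    have hQm : Measurable (Qcoll (g s)) :=
      (measurable_Qplus (hgm s)).ennreal_toReal.sub (measurable_Qminus (hgm s)).ennreal_toReal
    rw [hshift s (Qcoll (g s)) hQm]
    have hfin := ae_coll_finite hg hsI
    have hE : Integrable (fun z : Omega => (collMass (g s) z).toReal) :=
      integrable_toReal_of_lintegral_ne_top (measurable_collMass (hgm s)).aemeasurable
        (lintegral_collMass_ne_top hg hsI)
    have hb : ∀ Q : Omega → ℝ≥0∞, (∀ z, Q z ≤ Qplus (g s) z + Qminus (g s) z) →
        ∀ᵐ z : Omega, ψ z.2 * (Q z).toReal ≤ (collMass (g s) z).toReal := by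
      intro Q hQ
      filter_upwards [hfin] with z hz
      rw [collMass, ENNReal.toReal_mul, wt, ENNReal.toReal_ofReal (by positivity)]
      exact mul_le_mul (hψ _) (ENNReal.toReal_mono (ENNReal.add_ne_top.2 hz) (hQ z))
        ENNReal.toReal_nonneg (by positivity)
    have key : ∀ P N : Omega → ℝ≥0∞, Measurable P → Measurable N →
        (∀ᵐ z : Omega, P z ≠ ⊤) → (∀ᵐ z : Omega, N z ≠ ⊤) →
        (∀ᵐ z : Omega, ψ z.2 * (P z).toReal ≤ (collMass (g s) z).toReal) →
        (∀ᵐ z : Omega, ψ z.2 * (N z).toReal ≤ (collMass (g s) z).toReal) →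
        (∫⁻ z : Omega, ENNReal.ofReal (ψ z.2) * P z =
          ∫⁻ z : Omega, ENNReal.ofReal (ψ z.2) * N z) →
        ∫ z : Omega, ψ z.2 * ((P z).toReal - (N z).toReal) = 0 :=
      fun P N hP hN h1 h2 h3 h4 heq => integral_toReal_sub_eq_zero (ψ := fun z : Omega => ψ z.2)
        (hψm.comp measurable_snd) (fun z => hψ0 _) hE hP hN h1 h2 h3 h4 heq
    simp only [Qcoll]
    refine key _ _ (measurable_Qplus (hgm s)) (measurable_Qminus (hgm s))
      (hfin.mono fun z hz => hz.1) (hfin.mono fun z hz => hz.2)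
      (hb _ fun z => le_self_add) (hb _ fun z => le_add_self) ?_
    have hm' : ∀ Q : Omega → ℝ≥0∞, Measurable Q →
        Measurable (fun z : Omega => ENNReal.ofReal (ψ z.2) * Q z) := fun Q hQ => by fun_prop
    rw [Measure.volume_eq_prod, lintegral_prod _ (hm' _ (measurable_Qplus (hgm s))).aemeasurable,
      lintegral_prod _ (hm' _ (measurable_Qminus (hgm s))).aemeasurable]
    refine lintegral_congr fun x => ?_
    simp only [Qplus, Qminus]
    exact hinv (slice (g s) x) (measurable_slice (hgm s) x)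
  rw [setIntegral_congr_fun measurableSet_Ioc hz]
  simp

lemma IsMomentMild.integrable (hg : IsMomentMild T C g) {t : ℝ} (ht : t ∈ Icc 0 T) :
    Integrable (g t) := by
  simpa using integrable_mul_weight hg ht (ψ := fun _ => 1) (by fun_prop)
    (fun v => by rw [abs_one]; nlinarith [sq_nonneg ‖v‖])

lemma IsMomentMild.mass (hg : IsMomentMild T C g) {t : ℝ} (ht : t ∈ Icc 0 T) :
    ∫ z : Omega, g t z = ∫ z : Omega, g 0 z := by
  have h := moment_conserved hg ht (ψ := fun _ => 1) (by fun_prop) (fun _ => zero_le_one)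
    (fun v => by nlinarith [sq_nonneg ‖v‖]) (fun f hf => by
      simp only [ENNReal.ofReal_one, one_mul]; exact lintegral_gain hf hf)
  simpa using h

lemma IsMomentMild.energy (hg : IsMomentMild T C g) {t : ℝ} (ht : t ∈ Icc 0 T) :
    ∫ z : Omega, g t z * ‖z.2‖ ^ 2 = ∫ z : Omega, g 0 z * ‖z.2‖ ^ 2 := by
  have h := moment_conserved hg ht (ψ := fun v => ‖v‖ ^ 2) (by fun_prop) (fun v => sq_nonneg _)
    (fun v => by linarith [sq_nonneg ‖v‖]) (fun f hf => lintegral_sq_mul_gain hf)
  simpa [mul_comm] using h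

lemma IsProfileMild.isMomentMild {a : ℝ} {m : V3 → ℝ} (hg : IsProfileMild T m g)
    (hm : HasExpMoment a m) (ha : 0 < a) :
    IsMomentMild T (∫ v : V3, m v * (1 + ‖v‖) ^ 3) g where
  measurable := hg.measurable
  nonneg t ht z := (hg.bounds t ht z).1
  moment t ht x := by
    rw [ofReal_integral_eq_lintegral_ofReal (hm.pow ha 3)
      (Filter.Eventually.of_forall fun v => mul_nonneg (hm.nonneg v) (by positivity))]
    refine lintegral_mono fun v => ?_
    rw [mul_comm (m v), ENNReal.ofReal_mul (by positivity)]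
    exact mul_le_mul' le_rfl (ENNReal.ofReal_le_ofReal (hg.bounds t ht (x, v)).2)
  mild := hg.mild

end Vale.Agent.P140.Renorm
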