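import Vale.Agent.P140.Renorm.Moments

/-!
# Elementary consequences of the definition of a renormalized solution
-/

open MeasureTheory Real Set
open scoped RealInnerProductSpace ENNReal ContDiff Manifold

namespace Vale.Agent.P140.Renorm

open Vale.Agent.P140

/-- Every smooth compactly supported function on `t > 0` is the derivative there of a smooth
compactly supported function. -/
lemma exists_timeTest {η : ℝ → ℝ} (hη : ContDiff ℝ ∞ η) (hηc : HasCompactSupport η) :
    ∃ ψ : ℝ → ℝ, ContDiff ℝ ∞ ψ ∧ HasCompactSupport ψ ∧ ∀ t, 0 < t → deriv ψ t = η t := by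
  obtain ⟨B, hB⟩ := hηc.isCompact.isBounded.subset_closedBall 0
  set B' := max B 0 + 1
  have hB0 : ∀ t, B' ≤ t → η t = 0 := fun t ht => by
    by_contra hne
    have := hB (subset_tsupport η hne)
    rw [Metric.mem_closedBall, dist_zero_right, Real.norm_eq_abs] at this
    linarith [le_abs_self t, le_max_left B 0, show B' = max B 0 + 1 from rfl]
  set P := fun t => ∫ s in B'..t, η s with hP
  have hd : ∀ t, HasDerivAt P (η t) t := fun t => (hη.continuous.integral_hasStrictDerivAt B' t).hasDerivAt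
  have hPs : ContDiff ℝ ∞ P := by
    rw [contDiff_infty_iff_deriv]
    exact ⟨fun t => (hd t).differentiableAt, by rw [show deriv P = η from funext fun t => (hd t).deriv]; exact hη⟩
  refine ⟨fun t => Real.smoothTransition (t + 1) * P t,
    (Real.smoothTransition.contDiff.comp (by fun_prop)).mul hPs, ?_, fun t ht => ?_⟩
  · refine HasCompactSupport.intro (isCompact_Icc (a := -1) (b := B')) fun t ht => ?_
    rcases not_and_or.1 ht with h | h
    · simp [Real.smoothTransition.zero_of_nonpos (show t + 1 ≤ 0 by linarith [not_le.1 h])]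
    · have hP0 : P t = 0 := by
        rw [hP]
        refine (intervalIntegral.integral_congr (g := fun _ => (0 : ℝ)) fun s hs => ?_).trans (by simp)
        rw [uIcc_of_le (not_le.1 h).le] at hs
        exact hB0 s hs.1
      simp [hP0]
  · have hev : (fun s => Real.smoothTransition (s + 1) * P s) =ᶠ[nhds t] P := by
      filter_upwards [eventually_gt_nhds ht] with s hs
      rw [Real.smoothTransition.one_of_one_le (by linarith), one_mul]
    rw [hev.deriv_eq]; exact (hd t).deriv

lemma timeTest_eq_zero {D : ℝ → ℝ} (hD : ContinuousOn D (Ici 0))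
    (h : ∀ ψ : ℝ → ℝ, ContDiff ℝ ∞ ψ → HasCompactSupport ψ →
      ∫ t in Ioi (0 : ℝ), deriv ψ t * D t = 0) {t : ℝ} (ht : 0 < t) : D t = 0 := by
  have hc : ContinuousOn D (Ioi 0) := hD.mono Ioi_subset_Ici_self
  have hae : ∀ᵐ x ∂(volume : Measure ℝ), x ∈ Ioi (0 : ℝ) → D x = 0 := by
    refine isOpen_Ioi.ae_eq_zero_of_integral_contMDiff_smul_eq_zero 𝓘(ℝ, ℝ)
      (hc.locallyIntegrableOn measurableSet_Ioi) fun g hg hgc hgU => ?_
    obtain ⟨ψ, hψ, hψc, hψd⟩ := exists_timeTest hg.contDiff hgc
    rw [← setIntegral_eq_integral_of_forall_compl_eq_zero (s := Ioi (0 : ℝ)) (fun x hx => by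
      rw [show g x = 0 from by_contra fun hne => hx (hgU (subset_tsupport g hne)), zero_smul])]
    refine Eq.trans (setIntegral_congr_fun measurableSet_Ioi fun x hx => ?_) (h ψ hψ hψc)
    simp [hψd x hx]
  exact Measure.eqOn_open_of_ae_eq (μ := volume) (g := fun _ => (0 : ℝ))
    ((ae_restrict_iff' measurableSet_Ioi).2 hae) isOpen_Ioi hc continuousOn_const ht

variable {F₀ : Omega → ℝ} {F : ℝ → Omega → ℝ}

lemma mass_eq (h : IsRenormSolution F₀ F) {t : ℝ} (ht : 0 ≤ t) :
    ∫ z, F t z = ∫ z, F₀ z := by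
  rcases ht.eq_or_lt with rfl | ht
  · exact integral_congr_ae h.datum
  set m := fun s => ∫ z, F s z with hm
  have hmc : ContinuousOn m (Ici 0) := by
    have := h.weakCont (fun _ => 1) measurable_const ⟨1, fun _ => by simp⟩
    simpa using this
  set m₀ := ∫ z, F₀ z
  suffices m t - m₀ = 0 by linarith [show m t = ∫ z, F t z from rfl]
  refine timeTest_eq_zero (D := fun s => m s - m₀) (hmc.sub continuousOn_const) (fun ψ hψ hψc => ?_) ht
  have hb := h.massBalance ψ hψ hψc
  have hdc : Continuous (deriv ψ) := hψ.continuous_deriv (by norm_cast)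
  have hci : ∀ u : ℝ → ℝ, ContinuousOn u (Ici 0) →
      IntegrableOn (fun s => deriv ψ s * u s) (Ioi 0) := by
    intro u hu
    obtain ⟨B, hB⟩ := hψc.deriv.isCompact.isBounded.subset_closedBall 0
    have h1 : IntegrableOn (fun s => deriv ψ s * u s) (Icc 0 (max B 0)) :=
      ((hdc.continuousOn.mul (hu.mono Icc_subset_Ici_self))).integrableOn_compact isCompact_Icc
    refine h1.of_forall_diff_eq_zero measurableSet_Ioi fun s hs => ?_
    have : deriv ψ s = 0 := by
      by_contra hne
      have := hB (subset_tsupport _ hne)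
      rw [Metric.mem_closedBall, dist_zero_right, Real.norm_eq_abs] at this
      exact hs.2 ⟨(mem_Ioi.1 hs.1).le, by linarith [le_abs_self s, le_max_left B 0]⟩
    simp [this]
  simp only [mul_sub]
  rw [integral_sub (hci m hmc) (hci _ continuousOn_const), integral_mul_const,
    hψc.integral_Ioi_deriv_eq (hψ.of_le (by norm_cast)) 0]
  simp only [hm] at hb ⊢
  linarith

lemma ae_finite_coll (h : IsRenormSolution F₀ F) {T : ℝ} (hT : 0 ≤ T) :
    ∀ᵐ t ∂(volume.restrict (Ioc 0 T)), ∀ᵐ z, Qplus (F t) z ≠ ⊤ ∧ Qminus (F t) z ≠ ⊤ := by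
  obtain ⟨hP, hN⟩ := h.finiteColl T hT
  have key : ∀ Q : ℝ → Omega → ℝ≥0∞, Measurable (Function.uncurry Q) →
      (∫⁻ t in Icc 0 T, ∫⁻ z : Omega, Q t z / ENNReal.ofReal (1 + F t z / M0 z.2)) < ⊤ →
      ∀ᵐ t ∂(volume.restrict (Ioc 0 T)), ∀ᵐ z, Q t z ≠ ⊤ := by
    intro Q hQ hlt
    have hd : Measurable (fun w : ℝ × Omega =>
        Q w.1 w.2 / ENNReal.ofReal (1 + F w.1 w.2 / M0 w.2.2)) :=
      hQ.div (measurable_const.add (h.measurable.div
        (measurable_M0.comp (measurable_snd.comp measurable_snd)))).ennreal_ofReal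
    have h1 : ∀ᵐ t ∂(volume.restrict (Ioc 0 T)),
        ∫⁻ z : Omega, Q t z / ENNReal.ofReal (1 + F t z / M0 z.2) ≠ ⊤ := by
      refine (ae_lt_top (Measurable.lintegral_prod_right' hd) (ne_top_of_le_ne_top hlt.ne
        (lintegral_mono_set Ioc_subset_Icc_self))).mono fun t ht => ht.ne
    filter_upwards [h1] with t ht
    filter_upwards [ae_lt_top (hd.comp measurable_prodMk_left) ht] with z hz
    intro htop
    have hz' : Q t z / ENNReal.ofReal (1 + F t z / M0 z.2) < ⊤ := hz
    rw [htop, ENNReal.top_div_of_ne_top ENNReal.ofReal_ne_top] at hz'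
    exact lt_irrefl _ hz'
  filter_upwards [key (fun t z => Qplus (F t) z) (measurable_Qplus_param h.measurable) hP,
    key (fun t z => Qminus (F t) z) (measurable_Qminus_param h.measurable) hN] with t h1 h2
  filter_upwards [h1, h2] with z a b
  exact ⟨a, b⟩

end Vale.Agent.P140.Renorm
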