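import Vale.Agent.P140.Renorm.Chain
import Vale.Agent.P140.Renorm.Estimates
import Vale.Agent.P140.Renorm.Mild
import Vale.Agent.P140.Renorm.Solution

/-!
# Weak-strong uniqueness
-/

open MeasureTheory Real Set
open scoped RealInnerProductSpace ENNReal BoundedContinuousFunction

namespace Vale.Agent.P140.Renorm

open Vale.Agent.P140

variable {T a : ℝ} {m : V3 → ℝ} {g : ℝ → Omega → ℝ} {F₀ G₀ : Omega → ℝ} {F : ℝ → Omega → ℝ}

lemma IsRenormSolution.congr_datum (h : IsRenormSolution F₀ F) (he : F₀ =ᵐ[volume] G₀) :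
    IsRenormSolution G₀ F where
  measurable := h.measurable
  nonneg := h.nonneg
  integrable := h.integrable
  datum := h.datum.trans he
  weakCont := h.weakCont
  massBalance ψ hψ hψc := by rw [← integral_congr_ae he]; exact h.massBalance ψ hψ hψc
  energy t ht := by
    refine (h.energy t ht).trans_eq (integral_congr_ae ?_)
    filter_upwards [he] with z hz; rw [hz]
  finiteColl := h.finiteColl
  renormalized β hβ hβ0 hC φ hφ := by
    have e : (∫ z : Omega, M0 z.2 * β (G₀ z / M0 z.2) * φ 0 z) =
        ∫ z : Omega, M0 z.2 * β (F₀ z / M0 z.2) * φ 0 z := by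
      refine integral_congr_ae ?_
      filter_upwards [he] with z hz; rw [hz]
    rw [e]; exact h.renormalized β hβ hβ0 hC φ hφ

/-- Cutting off loses nothing for the positive part of `g - f`. -/
lemma pos_part_unrenorm {M B G f : ℝ} (hM : 0 < M) (hB : 0 ≤ B) (hf : 0 ≤ f) (hG : G < B) :
    max (G - unrenorm M (level M B) (f * M / (M + f))) 0 = max (G - f) 0 := by
  rcases le_total (f * M / (M + f)) (level M B) with h | h
  · rw [unrenorm, min_eq_left h]
    have h2 : M - f * M / (M + f) = M * M / (M + f) := by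
      field_simp; ring
    rw [h2]
    congr 2
    field_simp
  · rw [unrenorm_level hM hB h]
    have hfB : B ≤ f := by
      rw [level, div_le_div_iff₀ (by positivity) (by positivity)] at h
      nlinarith [mul_pos hM hM]
    rw [max_eq_right (by linarith), max_eq_right (by linarith)]

lemma ofReal_intervalIntegral_le {f : ℝ → ℝ} {t : ℝ} (ht : 0 ≤ t)
    (hf : IntervalIntegrable f volume 0 t) :
    ENNReal.ofReal (∫ s in (0 : ℝ)..t, f s) ≤ ∫⁻ s in Ioc 0 t, ENNReal.ofReal (f s) := by
  rw [intervalIntegral.integral_of_le ht,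
    integral_eq_lintegral_pos_part_sub_lintegral_neg_part hf.1]
  exact (ENNReal.ofReal_le_ofReal (sub_le_self _ ENNReal.toReal_nonneg)).trans
    ENNReal.ofReal_toReal_le

lemma swap_ae {p : ℝ → Omega → Prop} (hm : MeasurableSet {w : ℝ × Omega | p w.1 w.2})
    (h : ∀ᵐ t ∂((volume : Measure ℝ).restrict (Ioc 0 T)), ∀ᵐ z : Omega, p t z) :
    ∀ᵐ z : Omega, ∀ᵐ t ∂((volume : Measure ℝ).restrict (Ioc 0 T)), p t z :=
  (Measure.ae_ae_comm hm).1 h

/-- The pointwise inequality along almost every characteristic. -/
lemma pos_part_le (hg : IsProfileMild T m g) (hm : HasExpMoment a m) (ha : 0 < a) (hT : 0 ≤ T)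
    (h : IsRenormSolution (g 0) F) :
    ∀ᵐ t ∂((volume : Measure ℝ).restrict (Ioc 0 T)), ∀ᵐ z : Omega,
      ENNReal.ofReal (g t (shift t z) - F t (shift t z)) ≤
        ∫⁻ s in Ioc 0 t, majorant (F s) (g s) (shift s z) := by
  have hg0 : Measurable (g 0) := hg.measurable.comp measurable_prodMk_left
  have h0T : (0 : ℝ) ∈ Icc 0 T := left_mem_Icc.2 hT
  obtain ⟨hI, hE⟩ := beta_mild h hg0 (fun z => (hg.bounds 0 h0T z).1) hT
  have hE' : ∀ᵐ t ∂((volume : Measure ℝ).restrict (Ioc 0 T)), ∀ᵐ z : Omega,
      beta1 (F t) (shift t z) = beta1 (g 0) z + Mild.prim F t z := by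
    filter_upwards [hE, ae_restrict_mem measurableSet_Ioc] with t ht htT
    filter_upwards [ht] with z hz
    rw [hz, Mild.prim, intervalIntegral.integral_of_le htT.1.le]
  have hswapE := swap_ae (T := T) (p := fun t z =>
      beta1 (F t) (shift t z) = beta1 (g 0) z + Mild.prim F t z)
    (measurableSet_eq_fun (Mild.measurable_beta1_shift h.measurable)
      (((Mild.measurable_beta1 hg0).comp measurable_snd).add
        (Mild.measurable_prim h.measurable))) hE'
  have hfin : ∀ᵐ t ∂((volume : Measure ℝ).restrict (Ioc 0 T)), ∀ᵐ z : Omega,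
      Qplus (F t) (shift t z) ≠ ⊤ := by
    filter_upwards [ae_finite_coll h hT] with t ht
    filter_upwards [(measurePreserving_shift t).quasiMeasurePreserving.ae ht] with z hz
    exact hz.1
  have hswapF := swap_ae (T := T) (p := fun t z => Qplus (F t) (shift t z) ≠ ⊤)
    (((measurable_Qplus_param h.measurable).comp measurable_line)
      (measurableSet_singleton (⊤ : ℝ≥0∞)).compl) hfin
  -- along one characteristic
  have key : ∀ᵐ z : Omega, ∀ t ∈ Ioc 0 T,
      beta1 (F t) (shift t z) = beta1 (g 0) z + Mild.prim F t z →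
        ENNReal.ofReal (g t (shift t z) - F t (shift t z)) ≤
          ∫⁻ s in Ioc 0 t, majorant (F s) (g s) (shift s z) := by
    filter_upwards [hI, hswapE, hswapF, hg.mild, ae_envelope_lt_top_omega hm ha]
      with z hz hzE hzF hzm hzv t ht htE
    set v := z.2 with hv
    set M := M0 v with hMd
    have hM : 0 < M := M0_pos v
    set B := m v + 1 with hBd
    have hB : 0 ≤ B := by linarith [hm.nonneg v]
    set G := fun r => g 0 z + ∫ s in (0 : ℝ)..r, Qcoll (g s) (shift s z) with hGd
    set H := fun r => beta1 (g 0) z + ∫ s in (0 : ℝ)..r, betaRate F s z with hHd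
    have hGeq : ∀ r ∈ Icc 0 T, G r = g r (shift r z) := fun r hr => (hzm r hr).symm
    have hHeq : ∀ r, 0 ≤ r → beta1 (F r) (shift r z) = beta1 (g 0) z + Mild.prim F r z →
        H r = F r (shift r z) * M / (M + F r (shift r z)) := by
      intro r hr he
      simp only [hHd, intervalIntegral.integral_of_le hr]
      rw [Mild.prim] at he
      rw [← he]; rfl
    obtain ⟨hN, hD⟩ := pos_part_chain (G := G) (H := H) hM hB hT
      (intervalIntegrable_Qcoll_line hg (right_mem_Icc.2 hT) z hzv) hz (fun r => rfl) (fun r => rfl)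
      (fun r hr => by
        rw [hGeq r hr, hBd]
        have := (hg.bounds r hr (shift r z)).2
        rw [shift_snd] at this
        linarith)
    set N := fun r => max (G r - unrenorm M (level M B) (H r)) 0 with hNd
    obtain ⟨hNi, hNt⟩ := hN t ⟨ht.1.le, ht.2⟩
    have hN0 : N 0 = 0 := by
      have e : H 0 = g 0 z * M / (M + g 0 z) := by simp [hHd, beta1, hMd, hv]
      have hlt : g 0 z < B := by rw [hBd]; linarith [(hg.bounds 0 h0T z).2]
      simp only [hNd, e]
      rw [show G 0 = g 0 z by simp [hGd],
        pos_part_unrenorm hM hB (hg.bounds 0 h0T z).1 hlt]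
      simp
    have hNpos : ∀ r ∈ Icc 0 T, beta1 (F r) (shift r z) = beta1 (g 0) z + Mild.prim F r z →
        N r = max (g r (shift r z) - F r (shift r z)) 0 := by
      intro r hr he
      simp only [hNd]
      rw [hGeq r hr, hHeq r hr.1 he]
      refine pos_part_unrenorm hM hB (h.nonneg _ _) ?_
      have := (hg.bounds r hr (shift r z)).2
      rw [shift_snd] at this
      rw [hBd]; linarith
    calc ENNReal.ofReal (g t (shift t z) - F t (shift t z))
        ≤ ENNReal.ofReal (N t) := by
          rw [hNpos t ⟨ht.1.le, ht.2⟩ htE]; exact ENNReal.ofReal_le_ofReal (le_max_left _ _)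
      _ = ENNReal.ofReal (∫ s in (0 : ℝ)..t, deriv N s) := by rw [hNt, hN0, zero_add]
      _ ≤ ∫⁻ s in Ioc 0 t, ENNReal.ofReal (deriv N s) := ofReal_intervalIntegral_le ht.1.le hNi
      _ ≤ _ := by
        refine lintegral_mono_ae ?_
        have hsub : Ioc 0 t ⊆ Ioc 0 T := Ioc_subset_Ioc_right ht.2
        have hne : ∀ᵐ s ∂((volume : Measure ℝ).restrict (Ioc 0 t)), s ≠ T :=
          ae_restrict_of_ae (by simp [ae_iff, measure_singleton])
        filter_upwards [ae_restrict_of_ae hD, ae_restrict_mem measurableSet_Ioc, hne,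
          ae_restrict_of_ae_restrict_of_subset hsub hzE,
          ae_restrict_of_ae_restrict_of_subset hsub hzF] with s hs hmem hsT hsE hsF
        have hsI : s ∈ Icc 0 T := ⟨hmem.1.le, hmem.2.trans ht.2⟩
        obtain ⟨hs0, hs1⟩ := hs ⟨hmem.1, lt_of_le_of_ne hsI.2 hsT⟩
        rcases eq_or_lt_of_le (show (0 : ℝ) ≤ N s from le_max_right _ _) with h0 | h0
        · rw [hs0 h0.symm]; simp
        · obtain ⟨-, hds⟩ := hs1 h0
          set f := F s (shift s z) with hf
          have hfn : 0 ≤ f := h.nonneg _ _
          have hlt : f < g s (shift s z) := by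
            rw [hNpos s hsI hsE] at h0
            exact sub_pos.1 (lt_of_not_ge fun hle => h0.ne' (max_eq_right hle))
          have hd : deriv N s = Qcoll (g s) (shift s z) - Qcoll (F s) (shift s z) := by
            rw [hds, hHeq s hsI.1 hsE, betaRate, ← hf, ← hMd]
            have h2 : M - f * M / (M + f) = M * M / (M + f) := by
              field_simp; ring
            rw [h2]
            field_simp
          rw [hd]
          exact Qdiff_le_majorant (h.measurable.comp measurable_prodMk_left)
            (hg.measurable.comp measurable_prodMk_left) _ hlt.le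
            (ne_top_of_le_ne_top (by simpa using hzv) (Qminus_profile_le hg hsI _)) hsF
  filter_upwards [hE', ae_restrict_mem measurableSet_Ioc] with t ht htT
  filter_upwards [ht, key] with z hz hk
  exact hk t htT hz

lemma measurable_majorant_param (hF : Measurable (Function.uncurry F))
    (hg : Measurable (Function.uncurry g)) :
    Measurable (fun w : ℝ × Omega => majorant (F w.1) (g w.1) w.2) := by
  have hgF : Measurable (Function.uncurry fun s z => g s z - F s z) := hg.sub hF
  have hFg : Measurable (Function.uncurry fun s z => F s z - g s z) := hF.sub hg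
  exact (hg.ennreal_ofReal.mul (measurable_lossRate_param hFg)).add
    ((measurable_gain_param hgF hg).add (measurable_gain_param hg hgF))

/-- `y(t) = ∫ (g - F)₊` obeys a linear integral inequality. -/
lemma deficit_le (hg : IsProfileMild T m g) (hm : HasExpMoment a m) (ha : 0 < a) (hT : 0 ≤ T)
    (h : IsRenormSolution (g 0) F) :
    ∀ᵐ t ∂((volume : Measure ℝ).restrict (Ioc 0 T)),
      (∫⁻ z, ENNReal.ofReal (g t z - F t z)) ≤
        ∫⁻ s in Ioc 0 t, ENNReal.ofReal (profileRate m) *
          (weightedMass (fun z => F s z - g s z) + (weightedMass (fun z => g s z - F s z) +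
            weightedMass (fun z => g s z - F s z))) := by
  filter_upwards [pos_part_le hg hm ha hT h, ae_restrict_mem measurableSet_Ioc] with t ht htT
  have hgt : Measurable (g t) := hg.measurable.comp measurable_prodMk_left
  have hFt : Measurable (F t) := h.measurable.comp measurable_prodMk_left
  rw [← (measurePreserving_shift t).lintegral_comp
    (show Measurable (fun z => ENNReal.ofReal (g t z - F t z)) from (hgt.sub hFt).ennreal_ofReal)]
  refine (lintegral_mono_ae ht).trans ?_
  have hmj := (measurable_majorant_param h.measurable hg.measurable).comp measurable_line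
  have hm' : Measurable (Function.uncurry fun (z : Omega) (s : ℝ) =>
      majorant (F s) (g s) (shift s z)) := hmj.comp measurable_swap
  rw [lintegral_lintegral_swap hm'.aemeasurable]
  refine lintegral_mono_ae ((ae_restrict_iff' measurableSet_Ioc).2
    (Filter.Eventually.of_forall fun s hs => ?_))
  have hgs : Measurable (g s) := hg.measurable.comp measurable_prodMk_left
  have hFs : Measurable (F s) := h.measurable.comp measurable_prodMk_left
  rw [(measurePreserving_shift s).lintegral_comp (measurable_majorant hFs hgs)]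
  exact lintegral_majorant_le hFs hgs hm ha
    fun z => (hg.bounds s ⟨hs.1.le, hs.2.trans htT.2⟩ z).2

lemma lintegral_deficit_eq (hg : IsProfileMild T m g) (hm : HasExpMoment a m) (ha : 0 < a) (h : IsRenormSolution (g 0) F)
    {t : ℝ} (ht : t ∈ Icc 0 T) :
    ∫⁻ z, ENNReal.ofReal (F t z - g t z) = ∫⁻ z, ENNReal.ofReal (g t z - F t z) := by
  have hgm : Measurable (g t) := hg.measurable.comp measurable_prodMk_left
  have hgi : Integrable (g t) := by
    simpa using integrable_moment hm ha hgm (hg.bounds t ht) (ψ := fun _ => 1) (by fun_prop)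
      (fun v => by rw [abs_one]; nlinarith [norm_nonneg v])
  have hFi := (h.integrable t ht.1).1
  have hd := hFi.sub hgi
  have h1 : ∫⁻ z, ENNReal.ofReal (F t z - g t z) ≠ ⊤ :=
    ne_top_of_le_ne_top hd.hasFiniteIntegral.ne (lintegral_ofReal_le_lintegral_enorm _)
  have h2 : ∫⁻ z, ENNReal.ofReal (g t z - F t z) ≠ ⊤ :=
    ne_top_of_le_ne_top (hgi.sub hFi).hasFiniteIntegral.ne (lintegral_ofReal_le_lintegral_enorm _)
  have hz : ∫ z, (F t z - g t z) = 0 := by
    rw [integral_sub hFi hgi, mass_eq h ht.1, mass_const hg hm ha ht, sub_self]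
  have e := integral_eq_lintegral_pos_part_sub_lintegral_neg_part hd
  simp only [Pi.sub_apply, neg_sub] at e
  rw [e] at hz
  exact (ENNReal.toReal_eq_toReal_iff' h1 h2).1 (sub_eq_zero.1 hz)

lemma energy_le (hg : IsProfileMild T m g) (hm : HasExpMoment a m) (ha : 0 < a) (h : IsRenormSolution (g 0) F)
    {t : ℝ} (ht : t ∈ Icc 0 T) :
    (∫⁻ z : Omega, ENNReal.ofReal (‖z.2‖ ^ 2) * ENNReal.ofReal (F t z) ≤
      ∫⁻ z : Omega, ENNReal.ofReal (‖z.2‖ ^ 2) * ENNReal.ofReal (g t z)) ∧
    ∫⁻ z : Omega, ENNReal.ofReal (‖z.2‖ ^ 2) * ENNReal.ofReal (g t z) ≠ ⊤ := by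
  have hgm : Measurable (g t) := hg.measurable.comp measurable_prodMk_left
  have hgi : Integrable (fun z : Omega => g t z * ‖z.2‖ ^ 2) :=
    (integrable_moment hm ha hgm (hg.bounds t ht) (ψ := fun v => ‖v‖ ^ 2) (by fun_prop)
      (fun v => by rw [abs_of_nonneg (sq_nonneg _)]; nlinarith [norm_nonneg v])).congr
      (Filter.Eventually.of_forall fun z => mul_comm _ _)
  have e : ∀ u : Omega → ℝ, (∀ z, 0 ≤ u z) → Integrable (fun z : Omega => u z * ‖z.2‖ ^ 2) →
      ∫⁻ z : Omega, ENNReal.ofReal (‖z.2‖ ^ 2) * ENNReal.ofReal (u z) =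
        ENNReal.ofReal (∫ z : Omega, u z * ‖z.2‖ ^ 2) := by
    intro u hu hi
    rw [ofReal_integral_eq_lintegral_ofReal hi
      (Filter.Eventually.of_forall fun z => mul_nonneg (hu z) (sq_nonneg _))]
    refine lintegral_congr fun z => ?_
    rw [← ENNReal.ofReal_mul (sq_nonneg _), mul_comm]
  rw [e _ (fun z => (hg.bounds t ht z).1) hgi, e _ (h.nonneg t) (h.integrable t ht.1).2]
  exact ⟨ENNReal.ofReal_le_ofReal ((h.energy t ht.1).trans_eq (energy_const hg hm ha ht).symm),
    ENNReal.ofReal_ne_top⟩

/-- The right-hand side closed up by the tail estimate. -/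
lemma rate_le (hg : IsProfileMild T m g) (hm : HasExpMoment a m) (ha : 0 < a) (h : IsRenormSolution (g 0) F)
    {t R : ℝ} (ht : t ∈ Icc 0 T) (hR : 1 ≤ R) :
    weightedMass (fun z => F t z - g t z) + (weightedMass (fun z => g t z - F t z) +
        weightedMass (fun z => g t z - F t z)) ≤
      ENNReal.ofReal (7 * R) * (∫⁻ z, ENNReal.ofReal (g t z - F t z)) +
        ENNReal.ofReal (3 * (exp (-(a / 2) * R) * tailConst m a)) := by
  have hgm : Measurable (g t) := hg.measurable.comp measurable_prodMk_left
  have hFm : Measurable (F t) := h.measurable.comp measurable_prodMk_left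
  set y := ∫⁻ z, ENNReal.ofReal (g t z - F t z) with hy
  set ε := exp (-(a / 2) * R) * tailConst m a
  have hε : 0 ≤ ε := mul_nonneg (exp_pos _).le (integral_nonneg fun z =>
    mul_nonneg (mul_nonneg (sq_nonneg _) (hm.nonneg _)) (exp_pos _).le)
  have hR0 : (0 : ℝ) ≤ R := zero_le_one.trans hR
  have htail : tailEnergy R (g t) ≤ ENNReal.ofReal ε :=
    tailEnergy_profile_le hm ha fun z => (hg.bounds t ht z).2
  have hmono : ∀ u w : Omega → ℝ, (∀ z, u z ≤ w z) → tailEnergy R u ≤ tailEnergy R w := by
    intro u w huw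
    refine lintegral_mono fun z => indicator_le_indicator ?_
    exact mul_le_mul' le_rfl (ENNReal.ofReal_le_ofReal (huw z))
  have hinv : ENNReal.ofReal R⁻¹ ≤ 1 := ENNReal.ofReal_le_one.2 (inv_le_one_of_one_le₀ hR)
  have hn : weightedMass (fun z => g t z - F t z) ≤
      ENNReal.ofReal (2 * R) * y + ENNReal.ofReal ε := by
    refine (weightedMass_le (u := fun z => g t z - F t z) (hgm.sub hFm) hR).trans (add_le_add ?_ ?_)
    · exact mul_le_mul' (ENNReal.ofReal_le_ofReal (by linarith)) le_rfl
    · calc ENNReal.ofReal R⁻¹ * tailEnergy R (fun z => g t z - F t z)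
          ≤ 1 * ENNReal.ofReal ε := mul_le_mul' hinv
            ((hmono _ _ fun z => by linarith [h.nonneg t z]).trans htail)
        _ = _ := one_mul _
  have hp : weightedMass (fun z => F t z - g t z) ≤
      ENNReal.ofReal (3 * R) * y + ENNReal.ofReal ε := by
    refine (weightedMass_le (u := fun z => F t z - g t z) (hFm.sub hgm) hR).trans ?_
    rw [lintegral_deficit_eq hg hm ha h ht, ← hy]
    obtain ⟨hen, hfin⟩ := energy_le hg hm ha h ht
    have h2 : ENNReal.ofReal R⁻¹ * tailEnergy R (fun z => F t z - g t z) ≤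
        ENNReal.ofReal ε + ENNReal.ofReal R * y := by
      refine (mul_le_mul' le_rfl ((hmono (fun z => F t z - g t z) (F t)
        fun z => by linarith [(hg.bounds t ht z).1]).trans
        (tailEnergy_le_of_energy hFm hgm hR0 hfin hen))).trans ?_
      rw [mul_add, ← hy, ← mul_assoc, ← ENNReal.ofReal_mul (inv_nonneg.2 hR0),
        show R⁻¹ * R ^ 2 = R by field_simp]
      exact add_le_add ((mul_le_mul' hinv htail).trans_eq (one_mul _)) le_rfl
    refine (add_le_add le_rfl h2).trans ?_
    rw [add_left_comm, ← add_mul, ← ENNReal.ofReal_add (by linarith) hR0, add_comm]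
    exact add_le_add (mul_le_mul' (ENNReal.ofReal_le_ofReal (by linarith)) le_rfl) le_rfl
  refine (add_le_add hp (add_le_add hn hn)).trans_eq ?_
  rw [show (7 : ℝ) * R = 3 * R + (2 * R + 2 * R) by ring,
    show 3 * ε = ε + (ε + ε) by ring, ENNReal.ofReal_add (by positivity) (by positivity),
    ENNReal.ofReal_add (by positivity) (by positivity), ENNReal.ofReal_add hε (by positivity),
    ENNReal.ofReal_add hε hε]
  ring

/-- One step of the Gronwall argument. -/
lemma deficit_step (hg : IsProfileMild T m g) (hm : HasExpMoment a m) (ha : 0 < a) (hT : 0 ≤ T)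
    (h : IsRenormSolution (g 0) F) {t₀ t₁ : ℝ} (h0 : 0 ≤ t₀) (h01 : t₀ ≤ t₁) (h1 : t₁ ≤ T)
    (hlen : 28 * profileRate m * (t₁ - t₀) < a)
    (hprev : ∀ᵐ t ∂((volume : Measure ℝ).restrict (Ioc 0 t₀)),
      ∫⁻ z, ENNReal.ofReal (g t z - F t z) = 0) :
    ∀ᵐ t ∂((volume : Measure ℝ).restrict (Ioc 0 t₁)),
      ∫⁻ z, ENNReal.ofReal (g t z - F t z) = 0 := by
  set K := profileRate m with hKd
  have hK : 0 ≤ K := profileRate_nonneg hm
  set D := tailConst m a
  have hD : 0 ≤ D := integral_nonneg fun z =>
    mul_nonneg (mul_nonneg (sq_nonneg _) (hm.nonneg _)) (exp_pos _).le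
  set τ := t₁ - t₀ with hτ
  set y := fun t => ∫⁻ z, ENNReal.ofReal (g t z - F t z) with hy
  set bound := fun R : ℝ =>
    2 * (3 * K * (exp (-(a / 2) * R) * D)) * τ * exp (2 * (7 * K * R) * τ) with hb
  have hB : ∀ t ∈ Ioc t₀ t₁, y t ≤ ∫⁻ z : Omega, ENNReal.ofReal (m z.2) := fun t ht =>
    lintegral_mono fun z => ENNReal.ofReal_le_ofReal (by
      linarith [(hg.bounds t ⟨h0.trans ht.1.le, ht.2.trans h1⟩ z).2, h.nonneg t z])
  have hBt : (∫⁻ z : Omega, ENNReal.ofReal (m z.2)) ≠ ⊤ := by
    have := (hm.pow_omega ha 0)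
    simp only [pow_zero, mul_one] at this
    exact ne_top_of_le_ne_top this.hasFiniteIntegral.ne (lintegral_ofReal_le_lintegral_enorm _)
  have hall : ∀ᵐ t ∂((volume : Measure ℝ).restrict (Ioc t₀ t₁)),
      ∀ n : ℕ, y t ≤ ENNReal.ofReal (bound (n + 1)) := by
    rw [ae_all_iff]
    intro n
    set R : ℝ := n + 1
    have hR : (1 : ℝ) ≤ R := by simp [R]
    have hε : 0 ≤ exp (-(a / 2) * R) * D := mul_nonneg (exp_pos _).le hD
    refine gronwall_bound (y := y) (b := 7 * K * R) (c := 3 * K * (exp (-(a / 2) * R) * D))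
      h01 (by positivity) (by positivity) hBt hB ?_
    filter_upwards [ae_restrict_of_ae_restrict_of_subset
        (Ioc_subset_Ioc h0 h1) (deficit_le hg hm ha hT h),
      ae_restrict_mem measurableSet_Ioc] with t ht htI
    refine ht.trans ?_
    have hpt : ∀ s ∈ Ioc 0 t, ENNReal.ofReal (profileRate m) *
          (weightedMass (fun z => F s z - g s z) + (weightedMass (fun z => g s z - F s z) +
            weightedMass (fun z => g s z - F s z))) ≤
        ENNReal.ofReal (7 * K * R) * y s +
          ENNReal.ofReal (3 * K * (exp (-(a / 2) * R) * D)) := by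
      intro s hs
      refine (mul_le_mul' le_rfl
        (rate_le hg hm ha h ⟨hs.1.le, hs.2.trans (htI.2.trans h1)⟩ hR)).trans_eq ?_
      rw [mul_add, ← mul_assoc, ← ENNReal.ofReal_mul (profileRate_nonneg hm),
        ← ENNReal.ofReal_mul (profileRate_nonneg hm)]
      simp only [hy]
      congr 2 <;> simp only [hKd, D] <;> ring_nf
    have hzero : ∀ᵐ s ∂((volume : Measure ℝ).restrict (Ioc 0 t₀)),
        ENNReal.ofReal (profileRate m) *
          (weightedMass (fun z => F s z - g s z) + (weightedMass (fun z => g s z - F s z) +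
            weightedMass (fun z => g s z - F s z))) = 0 := by
      filter_upwards [hprev, ae_restrict_mem measurableSet_Ioc] with s hs hmem
      have hsI : s ∈ Icc 0 T := ⟨hmem.1.le, hmem.2.trans (h01.trans h1)⟩
      have hsd := hs
      rw [← lintegral_deficit_eq hg hm ha h hsI] at hsd
      have hgs : Measurable (g s) := hg.measurable.comp measurable_prodMk_left
      have hFs : Measurable (F s) := h.measurable.comp measurable_prodMk_left
      have e : ∀ u : Omega → ℝ, Measurable u → ∫⁻ z, ENNReal.ofReal (u z) = 0 →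
          weightedMass u = 0 := by
        intro u hu hu0
        rw [lintegral_eq_zero_iff hu.ennreal_ofReal] at hu0
        refine lintegral_eq_zero_of_ae_eq_zero ?_
        filter_upwards [hu0] with z hz
        simp only [Pi.zero_apply] at hz ⊢
        rw [hz, mul_zero]
      rw [e (fun z => g s z - F s z) (hgs.sub hFs) hs,
        e (fun z => F s z - g s z) (hFs.sub hgs) hsd, add_zero, add_zero, mul_zero]
    rw [← Ioc_union_Ioc_eq_Ioc h0 htI.1.le,
      lintegral_union measurableSet_Ioc (Ioc_disjoint_Ioc_of_le le_rfl),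
      lintegral_congr_ae hzero, lintegral_zero, zero_add]
    exact lintegral_mono_ae ((ae_restrict_iff' measurableSet_Ioc).2
      (Filter.Eventually.of_forall fun s hs => hpt s ⟨h0.trans_lt hs.1, hs.2⟩))
  have hlim : Filter.Tendsto (fun n : ℕ => bound (n + 1)) Filter.atTop (nhds 0) := by
    have h2 : Filter.Tendsto (fun R : ℝ => (-(a / 2) + 14 * K * τ) * R) Filter.atTop Filter.atBot :=
      Filter.tendsto_id.const_mul_atTop_of_neg (by linarith)
    have h3 := ((tendsto_exp_atBot.comp h2).comp
      (Filter.tendsto_atTop_add_const_right _ (1 : ℝ) tendsto_natCast_atTop_atTop)).const_mul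
        (6 * K * D * τ)
    rw [mul_zero] at h3
    refine h3.congr fun n => ?_
    simp only [hb, Function.comp_apply]
    rw [show (-(a / 2) + 14 * K * τ) * ((n : ℝ) + 1) =
      -(a / 2) * ((n : ℝ) + 1) + 2 * (7 * K * ((n : ℝ) + 1)) * τ by ring, exp_add]
    ring
  have hnew : ∀ᵐ t ∂((volume : Measure ℝ).restrict (Ioc t₀ t₁)), y t = 0 := by
    filter_upwards [hall] with t ht
    have := ge_of_tendsto' ((ENNReal.continuous_ofReal.tendsto 0).comp hlim) ht
    simpa using this
  rw [← Ioc_union_Ioc_eq_Ioc h0 h01, ae_restrict_union_iff]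
  exact ⟨hprev, hnew⟩

/-- At almost every time the solution lies above `g`. -/
lemma deficit_eq_zero (hg : IsProfileMild T m g) (hm : HasExpMoment a m) (ha : 0 < a) (hT : 0 ≤ T)
    (h : IsRenormSolution (g 0) F) :
    ∀ᵐ t ∂((volume : Measure ℝ).restrict (Ioc 0 T)),
      ∫⁻ z, ENNReal.ofReal (g t z - F t z) = 0 := by
  have hK := profileRate_nonneg hm
  set τ := a / (28 * profileRate m + 1) with hτ
  have hτ0 : 0 < τ := by positivity
  have hτK : 28 * profileRate m * τ < a := by
    rw [hτ, ← mul_div_assoc, div_lt_iff₀ (by positivity)]; nlinarith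
  have hind : ∀ n : ℕ, ∀ᵐ t ∂((volume : Measure ℝ).restrict (Ioc 0 (min (n * τ) T))),
      ∫⁻ z, ENNReal.ofReal (g t z - F t z) = 0 := by
    intro n
    induction n with
    | zero => simp [min_eq_left hT]
    | succ n ih =>
      refine deficit_step hg hm ha hT h (le_min (by positivity) hT) ?_ (min_le_right _ _) ?_ ih
      · exact min_le_min_right T (by push_cast; nlinarith)
      · refine lt_of_le_of_lt (mul_le_mul_of_nonneg_left ?_ (by positivity)) hτK
        push_cast
        rcases le_total T (n * τ) with h' | h'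
        · rw [min_eq_right h']
          linarith [min_le_right ((n + 1 : ℝ) * τ) T]
        · rw [min_eq_left h']
          nlinarith [min_le_left ((n + 1 : ℝ) * τ) T]
  obtain ⟨n, hn⟩ := exists_nat_ge (T / τ)
  have := hind n
  rwa [min_eq_right ((div_le_iff₀ hτ0).1 hn)] at this

lemma ae_eq_of_ae_time (hg : IsProfileMild T m g) (hm : HasExpMoment a m) (ha : 0 < a) (hT : 0 ≤ T)
    (h : IsRenormSolution (g 0) F) :
    ∀ᵐ t ∂((volume : Measure ℝ).restrict (Ioc 0 T)), F t =ᵐ[volume] g t := by
  filter_upwards [deficit_eq_zero hg hm ha hT h, ae_restrict_mem measurableSet_Ioc] with t ht htT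
  have hgm : Measurable (g t) := hg.measurable.comp measurable_prodMk_left
  have hFm : Measurable (F t) := h.measurable.comp measurable_prodMk_left
  have h2 := ht
  rw [← lintegral_deficit_eq hg hm ha h ⟨htT.1.le, htT.2⟩] at h2
  rw [lintegral_eq_zero_iff
    (show Measurable (fun z => ENNReal.ofReal (g t z - F t z)) from (hgm.sub hFm).ennreal_ofReal)] at ht
  rw [lintegral_eq_zero_iff
    (show Measurable (fun z => ENNReal.ofReal (F t z - g t z)) from (hFm.sub hgm).ennreal_ofReal)] at h2
  filter_upwards [ht, h2] with z hz1 hz2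
  simp only [Pi.zero_apply, ENNReal.ofReal_eq_zero, sub_nonpos] at hz1 hz2
  exact le_antisymm hz2 hz1

lemma continuousOn_test (hg : IsProfileMild T m g) (hm : HasExpMoment a m) (ha : 0 < a) (f : Omega →ᵇ ℝ) :
    ContinuousOn (fun t => ∫ z, f z * g t z) (Icc 0 T) := by
  intro t₀ ht₀
  have hT : 0 ≤ T := ht₀.1.trans ht₀.2
  have hline : ∀ t ∈ Icc 0 T,
      ∫ z, f z * g t z = ∫ z, f (shift t z) * g t (shift t z) := by
    intro t _
    have hgm : Measurable (g t) := hg.measurable.comp measurable_prodMk_left
    have h := integral_map (measurable_shift t).aemeasurable (μ := volume)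
      (f := fun z : Omega => f z * g t z) (f.continuous.measurable.mul hgm).aestronglyMeasurable
    rw [(measurePreserving_shift t).map_eq] at h
    exact h
  refine ContinuousWithinAt.congr ?_ (fun t ht => hline t ht) (hline t₀ ht₀)
  refine continuousWithinAt_of_dominated
    (bound := fun z : Omega => ‖f‖ * (m z.2 * (1 + ‖z.2‖) ^ 0)) ?_ ?_
    ((hm.pow_omega ha 0).const_mul _) ?_
  · exact Filter.Eventually.of_forall fun t => ((f.continuous.measurable.comp
      (measurable_shift t)).mul ((hg.measurable.comp measurable_prodMk_left).comp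
        (measurable_shift t))).aestronglyMeasurable
  · filter_upwards [self_mem_nhdsWithin] with t ht
    refine Filter.Eventually.of_forall fun z => ?_
    rw [norm_mul, pow_zero, mul_one]
    refine mul_le_mul (f.norm_coe_le_norm _) ?_ (norm_nonneg _) (norm_nonneg _)
    rw [Real.norm_eq_abs, abs_of_nonneg (hg.bounds t ht _).1]
    simpa using (hg.bounds t ht (shift t z)).2
  · filter_upwards [hg.mild, ae_envelope_lt_top_omega hm ha] with z hzm hzv
    have hs : Continuous (fun t => shift t z) := by unfold shift; fun_prop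
    refine ((f.continuous.comp hs).continuousWithinAt).mul ?_
    have hG : ContinuousOn (fun t => g 0 z + ∫ s in (0 : ℝ)..t, Qcoll (g s) (shift s z)) (Icc 0 T) := by
      refine continuousOn_const.add ?_
      have := intervalIntegral.continuousOn_primitive_interval' (μ := volume)
        (intervalIntegrable_Qcoll_line hg (right_mem_Icc.2 hT) z hzv) left_mem_uIcc
      rwa [uIcc_of_le hT] at this
    exact (hG.congr fun t ht => hzm t ht) t₀ ht₀

/-- Weak-strong uniqueness on the whole time interval. -/
theorem eq_profileMild (hg : IsProfileMild T m g) (hm : HasExpMoment a m) (ha : 0 < a) (h : IsRenormSolution F₀ F)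
    (hdat : F₀ =ᵐ[volume] g 0) : ∀ t ∈ Icc 0 T, F t =ᵐ[volume] g t := by
  intro t ht
  have h' := h.congr_datum hdat
  rcases (ht.1.trans ht.2).eq_or_lt with hT0 | hT
  · obtain rfl : t = 0 := le_antisymm (ht.2.trans_eq hT0.symm) ht.1
    exact h'.datum
  have hgm : Measurable (g t) := hg.measurable.comp measurable_prodMk_left
  have hFm : Measurable (F t) := h.measurable.comp measurable_prodMk_left
  have hgi : Integrable (g t) := by
    simpa using integrable_moment hm ha hgm (hg.bounds t ht) (ψ := fun _ => 1) (by fun_prop)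
      (fun v => by rw [abs_one]; nlinarith [norm_nonneg v])
  have hFi := (h.integrable t ht.1).1
  have htest : ∀ f : Omega →ᵇ ℝ, ∫ z, f z * F t z = ∫ z, f z * g t z := by
    intro f
    have hF := (h.weakCont f f.continuous.measurable
      ⟨‖f‖, fun z => by simpa [Real.norm_eq_abs] using f.norm_coe_le_norm z⟩).mono
        (Icc_subset_Ici_self : Icc (0 : ℝ) T ⊆ Ici 0)
    refine Measure.eqOn_Icc_of_ae_eq (μ := volume) hT.ne ?_ hF (continuousOn_test hg hm ha f) ht
    rw [← restrict_Ioc_eq_restrict_Icc]
    filter_upwards [ae_eq_of_ae_time hg hm ha hT.le h'] with s hs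
    exact integral_congr_ae (by filter_upwards [hs] with z hz; rw [hz])
  have hμ : (volume : Measure Omega).withDensity (fun z => ENNReal.ofReal (F t z)) =
      (volume : Measure Omega).withDensity (fun z => ENNReal.ofReal (g t z)) := by
    have := isFiniteMeasure_withDensity_ofReal hFi.hasFiniteIntegral
    have := isFiniteMeasure_withDensity_ofReal hgi.hasFiniteIntegral
    refine ext_of_forall_integral_eq_of_IsFiniteMeasure fun f => ?_
    rw [integral_withDensity_eq_integral_toReal_smul hFm.ennreal_ofReal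
        (Filter.Eventually.of_forall fun _ => ENNReal.ofReal_lt_top),
      integral_withDensity_eq_integral_toReal_smul hgm.ennreal_ofReal
        (Filter.Eventually.of_forall fun _ => ENNReal.ofReal_lt_top)]
    simpa [ENNReal.toReal_ofReal, h.nonneg, (hg.bounds t ht _).1, mul_comm] using htest f
  have hae := (withDensity_eq_iff hFm.ennreal_ofReal.aemeasurable hgm.ennreal_ofReal.aemeasurable
    (ne_top_of_le_ne_top hFi.hasFiniteIntegral.ne (lintegral_ofReal_le_lintegral_enorm _))).1 hμ
  filter_upwards [hae] with z hz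
  exact (ENNReal.ofReal_eq_ofReal_iff (h.nonneg t z) (hg.bounds t ht z).1).1 hz

end Vale.Agent.P140.Renorm
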