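import Vale.Agent.P140.Renorm.MomentMild
import Vale.Agent.P140.Renorm.Unique

/-!
# Weak-strong uniqueness under a third-moment bound

With the weight `1 + |v|²` the gain produced by `(g-F)₊` cancels against the loss kept by
`F ≥ g - (g-F)₊`, and the energy inequality controls `(F-g)₊`: the inequality is exactly linear.
-/

open MeasureTheory Real Set
open scoped RealInnerProductSpace ENNReal BoundedContinuousFunction

namespace Vale.Agent.P140.Renorm

open Vale.Agent.P140

/-- `(g-F)₊ L(F)`, the part of the loss kept on the left. -/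
noncomputable def keptLoss (F g : Omega → ℝ) (z : Omega) : ℝ≥0∞ :=
  ENNReal.ofReal (g z - F z) * lossRate (slice F z.1) z.2

/-- `(g-F)₊ L((g-F)₊)`. -/
noncomputable def selfLoss (F g : Omega → ℝ) (z : Omega) : ℝ≥0∞ :=
  ENNReal.ofReal (g z - F z) * lossRate (slice (fun w => g w - F w) z.1) z.2

lemma measurable_keptLoss {F g : Omega → ℝ} (hF : Measurable F) (hg : Measurable g) :
    Measurable (keptLoss F g) :=
  (hg.sub hF).ennreal_ofReal.mul (measurable_lossRate_slices hF)

lemma measurable_selfLoss {F g : Omega → ℝ} (hF : Measurable F) (hg : Measurable g) :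
    Measurable (selfLoss F g) :=
  (hg.sub hF).ennreal_ofReal.mul
    (measurable_lossRate_slices (u := fun w => g w - F w) (hg.sub hF))

lemma Qdiff_add_keptLoss_le {F g : Omega → ℝ} (hF : Measurable F) (hg : Measurable g) {z : Omega}
    (hF0 : 0 ≤ F z) (hlt : F z ≤ g z) (hgN : Qminus g z ≠ ⊤) (hFP : Qplus F z ≠ ⊤) :
    ENNReal.ofReal (Qcoll g z - Qcoll F z) + keptLoss F g z ≤
      majorant F g z + ENNReal.ofReal (-(Qcoll g z - Qcoll F z)) := by
  set G := slice g z.1 with hG
  set n := slice (fun w => g w - F w) z.1 with hn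
  set p := slice (fun w => F w - g w) z.1 with hp
  set m := slice (fun w => min (F w) (g w)) z.1 with hm
  set A := gain n G z.2 + gain G n z.2 with hA
  set B := G z.2 * lossRate p z.2 with hB
  set d := Qcoll g z - Qcoll F z
  set S := keptLoss F g z
  change _ ≤ B + A + _
  rcases eq_or_ne (B + A) ⊤ with htop | htop
  · rw [htop, top_add]; exact le_top
  obtain ⟨hBt, hAt⟩ := ENNReal.add_ne_top.1 htop
  have hGm : Measurable G := measurable_slice hg _
  have hnm : Measurable n := measurable_slice (hg.sub hF) _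
  have hmm : Measurable m := measurable_slice (hF.min hg) _
  have hsplit : G ≤ m + n := fun v => by
    simp only [hG, hm, hn, Pi.add_apply, slice]
    rcases le_total (F (z.1, v)) (g (z.1, v)) with h | h
    · rw [min_eq_left h]
      exact le_trans (le_of_eq (by ring_nf)) ENNReal.ofReal_add_le
    · rw [min_eq_right h]; exact le_self_add
  have hmle : m ≤ G := fun v => ENNReal.ofReal_le_ofReal (min_le_right _ _)
  have hP : Qplus g z ≤ Qplus F z + A :=
    (gain_le_add hGm hmm hnm hsplit hmle z.2).trans (add_le_add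
      (gain_mono (fun v => ENNReal.ofReal_le_ofReal (min_le_left _ _))
        (fun v => ENNReal.ofReal_le_ofReal (min_le_left _ _)) _) le_rfl)
  have hN : Qminus F z + S ≤ Qminus g z + B := by
    calc Qminus F z + S = G z.2 * lossRate (slice F z.1) z.2 := by
          rw [show Qminus F z = ENNReal.ofReal (F z) * lossRate (slice F z.1) z.2 from rfl,
            show S = ENNReal.ofReal (g z - F z) * lossRate (slice F z.1) z.2 from rfl, ← add_mul,
            ← ENNReal.ofReal_add hF0 (sub_nonneg.2 hlt), add_sub_cancel]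
          rfl
      _ ≤ G z.2 * lossRate (fun w => G w + p w) z.2 := by
          refine mul_le_mul' le_rfl (lossRate_mono (fun v => ?_) _)
          simp only [hG, hp, slice]
          exact le_trans (le_of_eq (by ring_nf)) ENNReal.ofReal_add_le
      _ = Qminus g z + B := by rw [lossRate_add hGm, mul_add]; rfl
  have hNt : Qminus F z + S ≠ ⊤ :=
    ne_top_of_le_ne_top (ENNReal.add_ne_top.2 ⟨hgN, hBt⟩) hN
  obtain ⟨hFN, hSt⟩ := ENNReal.add_ne_top.1 hNt
  have h1 := ENNReal.toReal_mono (ENNReal.add_ne_top.2 ⟨hFP, hAt⟩) hP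
  have h2 := ENNReal.toReal_mono (ENNReal.add_ne_top.2 ⟨hgN, hBt⟩) hN
  rw [ENNReal.toReal_add hFP hAt] at h1
  rw [ENNReal.toReal_add hgN hBt, ENNReal.toReal_add hFN hSt] at h2
  have hkey : d + S.toReal ≤ A.toReal + B.toReal := by simp only [d, Qcoll]; linarith
  rcases le_total 0 d with hd | hd
  · rw [ENNReal.ofReal_eq_zero.2 (neg_nonpos.2 hd), add_zero, ← ENNReal.ofReal_toReal hSt,
      ← ENNReal.ofReal_toReal hBt, ← ENNReal.ofReal_toReal hAt,
      ← ENNReal.ofReal_add hd ENNReal.toReal_nonneg,
      ← ENNReal.ofReal_add ENNReal.toReal_nonneg ENNReal.toReal_nonneg]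
    exact ENNReal.ofReal_le_ofReal (by linarith)
  · rw [ENNReal.ofReal_eq_zero.2 hd, zero_add, ← ENNReal.ofReal_toReal hSt,
      ← ENNReal.ofReal_toReal hBt, ← ENNReal.ofReal_toReal hAt,
      ← ENNReal.ofReal_add ENNReal.toReal_nonneg ENNReal.toReal_nonneg,
      ← ENNReal.ofReal_add (add_nonneg ENNReal.toReal_nonneg ENNReal.toReal_nonneg) (by linarith)]
    exact ENNReal.ofReal_le_ofReal (by linarith)

lemma ofReal_integral_add_le {f : ℝ → ℝ} {S R : ℝ → ℝ≥0∞} {t : ℝ} (ht : 0 ≤ t)
    (hf : IntervalIntegrable f volume 0 t) (h0 : 0 ≤ ∫ s in (0 : ℝ)..t, f s)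
    (h : ∀ᵐ s ∂((volume : Measure ℝ).restrict (Ioc 0 t)),
      ENNReal.ofReal (f s) + S s ≤ R s + ENNReal.ofReal (-f s)) :
    ENNReal.ofReal (∫ s in (0 : ℝ)..t, f s) + ∫⁻ s in Ioc 0 t, S s ≤ ∫⁻ s in Ioc 0 t, R s := by
  have hfi : IntegrableOn f (Ioc 0 t) := hf.1
  have hm := hfi.aestronglyMeasurable.aemeasurable
  set P := ∫⁻ s in Ioc 0 t, ENNReal.ofReal (f s)
  set N := ∫⁻ s in Ioc 0 t, ENNReal.ofReal (-f s)
  have hPt : P ≠ ⊤ :=
    ne_top_of_le_ne_top hfi.hasFiniteIntegral.ne (lintegral_ofReal_le_lintegral_enorm _)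
  have hNt : N ≠ ⊤ := ne_top_of_le_ne_top (show Integrable (fun s => -f s)
    ((volume : Measure ℝ).restrict (Ioc 0 t)) from hfi.neg).hasFiniteIntegral.ne
      (lintegral_ofReal_le_lintegral_enorm _)
  have hle : P + ∫⁻ s in Ioc 0 t, S s ≤ (∫⁻ s in Ioc 0 t, R s) + N := by
    rw [← lintegral_add_left' hm.ennreal_ofReal, ← lintegral_add_right' _ (show AEMeasurable (fun s => ENNReal.ofReal (-f s))
      ((volume : Measure ℝ).restrict (Ioc 0 t)) from hm.neg.ennreal_ofReal)]
    exact lintegral_mono_ae h
  rw [intervalIntegral.integral_of_le ht,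
    integral_eq_lintegral_pos_part_sub_lintegral_neg_part hfi] at h0 ⊢
  refine ENNReal.le_of_add_le_add_right hNt ?_
  calc ENNReal.ofReal (P.toReal - N.toReal) + (∫⁻ s in Ioc 0 t, S s) + N
      = ENNReal.ofReal (P.toReal - N.toReal) + ENNReal.ofReal N.toReal +
          ∫⁻ s in Ioc 0 t, S s := by rw [ENNReal.ofReal_toReal hNt]; ring
    _ = P + ∫⁻ s in Ioc 0 t, S s := by
      rw [← ENNReal.ofReal_add h0 ENNReal.toReal_nonneg, sub_add_cancel, ENNReal.ofReal_toReal hPt]
    _ ≤ _ := hle

variable {T C : ℝ} {g : ℝ → Omega → ℝ} {F₀ : Omega → ℝ} {F : ℝ → Omega → ℝ}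

lemma moment_swap_finite (hg : IsMomentMild T C g) :
    ∀ᵐ z : Omega, ∀ᵐ t ∂((volume : Measure ℝ).restrict (Ioc 0 T)),
      Qminus (g t) (shift t z) ≠ ⊤ := by
  refine swap_ae (T := T) (p := fun t z => Qminus (g t) (shift t z) ≠ ⊤)
    (((measurable_Qminus_param hg.measurable).comp measurable_line)
      (measurableSet_singleton (⊤ : ℝ≥0∞)).compl) ?_
  filter_upwards [ae_restrict_mem (μ := (volume : Measure ℝ)) measurableSet_Ioc] with t ht
  filter_upwards [(measurePreserving_shift t).quasiMeasurePreserving.ae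
    (ae_coll_finite hg ⟨ht.1.le, ht.2⟩)] with z hz
  exact hz.2

/-- The pointwise inequality along almost every characteristic. -/
lemma moment_pos_part_le (hg : IsMomentMild T C g) (hT : 0 ≤ T) (h : IsRenormSolution (g 0) F) :
    ∀ᵐ t ∂((volume : Measure ℝ).restrict (Ioc 0 T)), ∀ᵐ z : Omega,
      ENNReal.ofReal (g t (shift t z) - F t (shift t z)) +
          (∫⁻ s in Ioc 0 t, keptLoss (F s) (g s) (shift s z)) ≤
        ∫⁻ s in Ioc 0 t, majorant (F s) (g s) (shift s z) := by
  have hg0 : Measurable (g 0) := hg.measurable.comp measurable_prodMk_left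
  have h0T : (0 : ℝ) ∈ Icc 0 T := left_mem_Icc.2 hT
  obtain ⟨hI, hE⟩ := beta_mild h hg0 (fun z => hg.nonneg 0 h0T z) hT
  have hE' : ∀ᵐ t ∂((volume : Measure ℝ).restrict (Ioc 0 T)), ∀ᵐ z : Omega,
      beta1 (F t) (shift t z) = beta1 (g 0) z + Mild.prim F t z := by
    filter_upwards [hE, ae_restrict_mem measurableSet_Ioc] with t ht htT
    filter_upwards [ht] with z hz
    rw [hz, Mild.prim, intervalIntegral.integral_of_le htT.1.le]
  have hswapE := swap_ae (T := T) (p := fun t z =>
      beta1 (F t) (shift t z) = beta1 (g 0) z + Mild.prim F t z)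
    (measurableSet_eq_fun (Mild.measurable_beta1_shift h.measurable)
      (((Mild.measurable_beta1 hg0).comp measurable_snd).add
        (Mild.measurable_prim h.measurable))) hE'
  have hfin : ∀ᵐ t ∂((volume : Measure ℝ).restrict (Ioc 0 T)), ∀ᵐ z : Omega,
      Qplus (F t) (shift t z) ≠ ⊤ := by
    filter_upwards [ae_finite_coll h hT] with t ht
    filter_upwards [(measurePreserving_shift t).quasiMeasurePreserving.ae ht] with z hz
    exact hz.1
  have hswapF := swap_ae (T := T) (p := fun t z => Qplus (F t) (shift t z) ≠ ⊤)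
    (((measurable_Qplus_param h.measurable).comp measurable_line)
      (measurableSet_singleton (⊤ : ℝ≥0∞)).compl) hfin
  have key : ∀ᵐ z : Omega, ∀ t ∈ Ioc 0 T,
      beta1 (F t) (shift t z) = beta1 (g 0) z + Mild.prim F t z →
        ENNReal.ofReal (g t (shift t z) - F t (shift t z)) +
            (∫⁻ s in Ioc 0 t, keptLoss (F s) (g s) (shift s z)) ≤
          ∫⁻ s in Ioc 0 t, majorant (F s) (g s) (shift s z) := by
    filter_upwards [hI, hswapE, hswapF, hg.mild, ae_lineMass_finite hg, moment_swap_finite hg]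
      with z hz hzE hzF hzm hzl hzN t ht htE
    set v := z.2 with hv
    set M := M0 v with hMd
    have hM : 0 < M := M0_pos v
    set G := fun r => g 0 z + ∫ s in (0 : ℝ)..r, Qcoll (g s) (shift s z) with hGd
    set H := fun r => beta1 (g 0) z + ∫ s in (0 : ℝ)..r, betaRate F s z with hHd
    have hQi := intervalIntegrable_moment_line hg hT hzl
    have hGc : ContinuousOn G (Icc 0 T) := by
      have := intervalIntegral.continuousOn_primitive_interval' (μ := volume) hQi left_mem_uIcc
      rw [uIcc_of_le hT] at this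
      exact continuousOn_const.add this
    obtain ⟨B₀, hB₀⟩ := (isCompact_Icc.image_of_continuousOn hGc).bddAbove
    set B := max B₀ (g 0 z) + 1 with hBd
    have hB : 0 ≤ B := by linarith [le_max_right B₀ (g 0 z), hg.nonneg 0 h0T z]
    have hGB : ∀ r ∈ Icc 0 T, G r < B := fun r hr => by
      linarith [hB₀ (mem_image_of_mem G hr), le_max_left B₀ (g 0 z)]
    have hGeq : ∀ r ∈ Icc 0 T, G r = g r (shift r z) := fun r hr => (hzm r hr).symm
    have hHeq : ∀ r, 0 ≤ r → beta1 (F r) (shift r z) = beta1 (g 0) z + Mild.prim F r z →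
        H r = F r (shift r z) * M / (M + F r (shift r z)) := by
      intro r hr he
      simp only [hHd, intervalIntegral.integral_of_le hr]
      rw [Mild.prim] at he
      rw [← he]; rfl
    obtain ⟨hN, hD⟩ := pos_part_chain (G := G) (H := H) hM hB hT
      hQi hz (fun r => rfl) (fun r => rfl) hGB
    set N := fun r => max (G r - unrenorm M (level M B) (H r)) 0 with hNd
    obtain ⟨hNi, hNt⟩ := hN t ⟨ht.1.le, ht.2⟩
    have hN0 : N 0 = 0 := by
      have e : H 0 = g 0 z * M / (M + g 0 z) := by simp [hHd, beta1, hMd, hv]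
      have hlt : g 0 z < B := by linarith [le_max_right B₀ (g 0 z)]
      simp only [hNd, e]
      rw [show G 0 = g 0 z by simp [hGd], pos_part_unrenorm hM hB (hg.nonneg 0 h0T z) hlt]
      simp
    have hNpos : ∀ r ∈ Icc 0 T, beta1 (F r) (shift r z) = beta1 (g 0) z + Mild.prim F r z →
        N r = max (g r (shift r z) - F r (shift r z)) 0 := by
      intro r hr he
      simp only [hNd]
      rw [hGeq r hr, hHeq r hr.1 he]
      refine pos_part_unrenorm hM hB (h.nonneg _ _) ?_
      rw [← hGeq r hr]; exact hGB r hr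
    have hNtval : N t = ∫ s in (0 : ℝ)..t, deriv N s := by rw [hNt, hN0, zero_add]
    refine le_trans (add_le_add (ENNReal.ofReal_le_ofReal (q := N t) ?_) le_rfl) ?_
    · rw [hNpos t ⟨ht.1.le, ht.2⟩ htE]; exact le_max_left _ _
    rw [hNtval]
    refine ofReal_integral_add_le ht.1.le hNi (by rw [← hNtval]; exact le_max_right _ _) ?_
    have hsub : Ioc 0 t ⊆ Ioc 0 T := Ioc_subset_Ioc_right ht.2
    have hne : ∀ᵐ s ∂((volume : Measure ℝ).restrict (Ioc 0 t)), s ≠ T :=
      ae_restrict_of_ae (by simp [ae_iff, measure_singleton])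
    filter_upwards [ae_restrict_of_ae hD, ae_restrict_mem measurableSet_Ioc, hne,
      ae_restrict_of_ae_restrict_of_subset hsub hzE,
      ae_restrict_of_ae_restrict_of_subset hsub hzF,
      ae_restrict_of_ae_restrict_of_subset hsub hzN] with s hs hmem hsT hsE hsF hsN
    have hsI : s ∈ Icc 0 T := ⟨hmem.1.le, hmem.2.trans ht.2⟩
    obtain ⟨hs0, hs1⟩ := hs ⟨hmem.1, lt_of_le_of_ne hsI.2 hsT⟩
    rcases eq_or_lt_of_le (show (0 : ℝ) ≤ N s from le_max_right _ _) with h0 | h0
    · have hle : g s (shift s z) - F s (shift s z) ≤ 0 := by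
        have := hNpos s hsI hsE
        rw [← h0] at this
        exact le_trans (le_max_left _ 0) this.ge
      rw [hs0 h0.symm, keptLoss, ENNReal.ofReal_eq_zero.2 hle]
      simp
    · obtain ⟨-, hds⟩ := hs1 h0
      set f := F s (shift s z) with hf
      have hfn : 0 ≤ f := h.nonneg _ _
      have hlt : f < g s (shift s z) := by
        rw [hNpos s hsI hsE] at h0
        exact sub_pos.1 (lt_of_not_ge fun hle => h0.ne' (max_eq_right hle))
      have hd : deriv N s = Qcoll (g s) (shift s z) - Qcoll (F s) (shift s z) := by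
        rw [hds, hHeq s hsI.1 hsE, betaRate, ← hf, ← hMd]
        have h2 : M - f * M / (M + f) = M * M / (M + f) := by
          field_simp; ring
        rw [h2]
        field_simp
      rw [hd]
      exact Qdiff_add_keptLoss_le (h.measurable.comp measurable_prodMk_left)
        (hg.measurable.comp measurable_prodMk_left) hfn hlt.le hsN hsF
  filter_upwards [hE', ae_restrict_mem measurableSet_Ioc] with t ht htT
  filter_upwards [ht, key] with z hz hk
  exact hk t htT hz

/-- `∫ (1+|v|²) u₊`. -/
noncomputable def wMass (u : Omega → ℝ) : ℝ≥0∞ := ∫⁻ z : Omega, wt z.2 * ENNReal.ofReal (u z)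

lemma wMass_pos_le (hg : IsMomentMild T C g) (h : IsRenormSolution (g 0) F) {t : ℝ}
    (ht : t ∈ Icc 0 T) :
    wMass (fun z => F t z - g t z) ≤ wMass (fun z => g t z - F t z) := by
  have hgm : Measurable (g t) := hg.measurable.comp measurable_prodMk_left
  have hFm : Measurable (F t) := h.measurable.comp measurable_prodMk_left
  obtain ⟨hFi, hFe⟩ := h.integrable t ht.1
  have hgi := hg.integrable ht
  have hge : Integrable (fun z : Omega => g t z * ‖z.2‖ ^ 2) :=
    (integrable_mul_weight hg ht (ψ := fun v => ‖v‖ ^ 2) (by fun_prop)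
      (fun v => by rw [abs_of_nonneg (sq_nonneg _)]; linarith)).congr
      (Filter.Eventually.of_forall fun z => mul_comm _ _)
  have e : ∀ u : Omega → ℝ, (∀ z, 0 ≤ u z) → Integrable u →
      Integrable (fun z : Omega => u z * ‖z.2‖ ^ 2) →
      wMass u = ENNReal.ofReal ((∫ z, u z) + ∫ z : Omega, u z * ‖z.2‖ ^ 2) := by
    intro u hu h1 h2
    rw [← integral_add h1 h2, ofReal_integral_eq_lintegral_ofReal
      (show Integrable (fun z : Omega => u z + u z * ‖z.2‖ ^ 2) volume from h1.add h2)
      (Filter.Eventually.of_forall fun z =>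
        add_nonneg (hu z) (mul_nonneg (hu z) (sq_nonneg _)))]
    refine lintegral_congr fun z => ?_
    rw [wt, ← ENNReal.ofReal_mul (by positivity)]
    congr 1; ring
  have hle : wMass (F t) ≤ wMass (g t) := by
    rw [e _ (h.nonneg t) hFi hFe, e _ (hg.nonneg t ht) hgi hge]
    refine ENNReal.ofReal_le_ofReal (add_le_add ?_ ?_)
    · rw [mass_eq h ht.1, hg.mass ht]
    · exact (h.energy t ht.1).trans_eq (hg.energy ht).symm
  have hbal : wMass (F t) + wMass (fun z => g t z - F t z) =
      wMass (g t) + wMass (fun z => F t z - g t z) := by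
    have hm : ∀ u : Omega → ℝ, Measurable u →
        Measurable (fun z : Omega => wt z.2 * ENNReal.ofReal (u z)) := fun u hu => by fun_prop
    simp only [wMass]
    rw [← lintegral_add_left (hm _ hFm), ← lintegral_add_left (hm _ hgm)]
    refine lintegral_congr fun z => ?_
    rw [← mul_add, ← mul_add]
    congr 1
    rcases le_total (F t z) (g t z) with hz | hz
    · rw [ENNReal.ofReal_eq_zero.2 (sub_nonpos.2 hz), add_zero,
        ← ENNReal.ofReal_add (h.nonneg t z) (sub_nonneg.2 hz), add_sub_cancel]
    · rw [ENNReal.ofReal_eq_zero.2 (sub_nonpos.2 hz), add_zero,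
        ← ENNReal.ofReal_add (hg.nonneg t ht z) (sub_nonneg.2 hz), add_sub_cancel]
  refine ENNReal.le_of_add_le_add_left (a := wMass (g t)) ?_ ?_
  · exact lintegral_weighted_ne_top hg ht
  · rw [← hbal]; exact add_le_add hle le_rfl

lemma lintegral_w1_le_two {f : V3 → ℝ≥0∞} :
    ∫⁻ v, w1 v * f v ≤ 2 * ∫⁻ v, wt v * f v := by
  rw [← lintegral_const_mul' 2 _ ENNReal.ofNat_ne_top]
  refine lintegral_mono fun v => ?_
  rw [← mul_assoc]
  exact mul_le_mul' (w1_le_two_wt v) le_rfl

/-- The rate constant. -/
noncomputable def momentRate (C : ℝ) : ℝ≥0∞ := 2 * (ENNReal.ofReal C * surface univ)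

/-- The weighted right-hand side at one instant. -/
lemma rate_weighted_le (hg : IsMomentMild T C g) (h : IsRenormSolution (g 0) F) {t : ℝ}
    (ht : t ∈ Icc 0 T) :
    (∫⁻ z : Omega, wt z.2 * (majorant (F t) (g t) z + selfLoss (F t) (g t) z)) ≤
      (∫⁻ z : Omega, wt z.2 * (ENNReal.ofReal (g t z - F t z) * lossRate (slice (g t) z.1) z.2)) +
        3 * momentRate C * wMass (fun z => g t z - F t z) := by
  have hgm : Measurable (g t) := hg.measurable.comp measurable_prodMk_left
  have hFm : Measurable (F t) := h.measurable.comp measurable_prodMk_left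
  set nf := fun z => g t z - F t z with hnf
  set pf := fun z => F t z - g t z with hpf
  have hnm : Measurable nf := hgm.sub hFm
  have hpm : Measurable pf := hFm.sub hgm
  have hW : ∀ u : Omega → ℝ, Measurable u → ∫⁻ x : T3, ∫⁻ v, wt v * slice u x v = wMass u := by
    intro u hu
    have hm : Measurable fun z : Omega => wt z.2 * ENNReal.ofReal (u z) := by fun_prop
    rw [wMass, Measure.volume_eq_prod, lintegral_prod _ hm.aemeasurable]
    rfl
  have hWm : ∀ u : Omega → ℝ, Measurable u → Measurable fun x : T3 => ∫⁻ v, wt v * slice u x v :=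
    fun u hu => Measurable.lintegral_prod_right' (f := fun q : T3 × V3 =>
      wt q.2 * ENNReal.ofReal (u (q.1, q.2))) (by fun_prop)
  have hA : Measurable fun z : Omega =>
      wt z.2 * (ENNReal.ofReal (nf z) * lossRate (slice (g t) z.1) z.2) :=
    (measurable_wt.comp measurable_snd).mul
      (hnm.ennreal_ofReal.mul (measurable_lossRate_slices hgm))
  have hI : Measurable fun z : Omega =>
      wt z.2 * (majorant (F t) (g t) z + selfLoss (F t) (g t) z) :=
    (measurable_wt.comp measurable_snd).mul
      ((measurable_majorant hFm hgm).add (measurable_selfLoss hFm hgm))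
  have key : ∀ x : T3, ∫⁻ v, wt v * (majorant (F t) (g t) (x, v) + selfLoss (F t) (g t) (x, v)) ≤
      (∫⁻ v, wt v * (slice nf x v * lossRate (slice (g t) x) v)) +
        momentRate C * ((∫⁻ v, wt v * slice pf x v) + ((∫⁻ v, wt v * slice nf x v) +
          ∫⁻ v, wt v * slice nf x v)) := by
    intro x
    set G := slice (g t) x with hG
    set n := slice nf x with hn
    set p := slice pf x with hp
    have hGm : Measurable G := measurable_slice hgm x
    have hnm' : Measurable n := measurable_slice hnm x
    have hpm' : Measurable p := measurable_slice hpm x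
    change ∫⁻ v, wt v * (G v * lossRate p v + (gain n G v + gain G n v) + n v * lossRate n v) ≤ _
    simp only [mul_add]
    rw [lintegral_add_right _ (by fun_prop), lintegral_add_left (by fun_prop),
      lintegral_add_left (by fun_prop), lintegral_wt_gain_add hnm' hGm]
    have hG3 := hg.moment' ht x
    have b1 : ∀ f h : V3 → ℝ≥0∞, Measurable f → Measurable h →
        (∫⁻ v, w3 v * f v) ≤ ENNReal.ofReal C →
        ∫⁻ v, wt v * (f v * lossRate h v) ≤ momentRate C * ∫⁻ v, wt v * h v := by
      intro f h hf hh hb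
      refine (lintegral_wt_loss_le hf hh).trans ?_
      calc (∫⁻ v, w3 v * f v) * ((∫⁻ w, w1 w * h w) * surface univ)
          ≤ ENNReal.ofReal C * ((2 * ∫⁻ w, wt w * h w) * surface univ) := by
            gcongr
            exact lintegral_w1_le_two
        _ = _ := by rw [momentRate]; ring
    have hn3 : ∫⁻ v, w3 v * n v ≤ ENNReal.ofReal C := by
      refine (lintegral_mono fun v => mul_le_mul' le_rfl
        (ENNReal.ofReal_le_ofReal ?_)).trans hG3
      simp only [hnf]
      linarith [h.nonneg t (x, v)]
    calc _ ≤ momentRate C * (∫⁻ v, wt v * p v) +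
          ((∫⁻ v, wt v * (n v * lossRate G v)) + momentRate C * (∫⁻ v, wt v * n v)) +
          momentRate C * (∫⁻ v, wt v * n v) := by
          gcongr
          · exact b1 G p hGm hpm' hG3
          · exact b1 G n hGm hnm' hG3
          · exact b1 n n hnm' hnm' hn3
      _ = _ := by ring
  calc (∫⁻ z : Omega, wt z.2 * (majorant (F t) (g t) z + selfLoss (F t) (g t) z))
      = ∫⁻ x : T3, ∫⁻ v, wt v * (majorant (F t) (g t) (x, v) + selfLoss (F t) (g t) (x, v)) := by
        rw [Measure.volume_eq_prod, lintegral_prod _ hI.aemeasurable]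
    _ ≤ ∫⁻ x : T3, ((∫⁻ v, wt v * (slice nf x v * lossRate (slice (g t) x) v)) +
          momentRate C * ((∫⁻ v, wt v * slice pf x v) + ((∫⁻ v, wt v * slice nf x v) +
            ∫⁻ v, wt v * slice nf x v))) := lintegral_mono key
    _ = (∫⁻ z : Omega, wt z.2 * (ENNReal.ofReal (nf z) * lossRate (slice (g t) z.1) z.2)) +
          momentRate C * (wMass pf + (wMass nf + wMass nf)) := by
        have hL : Measurable fun x : T3 =>
            ∫⁻ v, wt v * (slice nf x v * lossRate (slice (g t) x) v) :=
          Measurable.lintegral_prod_right' (f := fun q : Omega =>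
            wt q.2 * (ENNReal.ofReal (nf q) * lossRate (slice (g t) q.1) q.2)) hA
        rw [lintegral_add_left hL,
          lintegral_const_mul _ (show Measurable fun x : T3 => (∫⁻ v, wt v * slice pf x v) +
            ((∫⁻ v, wt v * slice nf x v) + ∫⁻ v, wt v * slice nf x v) from
              (hWm pf hpm).add ((hWm nf hnm).add (hWm nf hnm))),
          lintegral_add_left (hWm pf hpm), lintegral_add_left (hWm nf hnm), hW pf hpm, hW nf hnm,
          Measure.volume_eq_prod, lintegral_prod _ hA.aemeasurable]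
        rfl
    _ ≤ _ := by
        refine add_le_add le_rfl ?_
        calc momentRate C * (wMass pf + (wMass nf + wMass nf))
            ≤ momentRate C * (wMass nf + (wMass nf + wMass nf)) := by
              gcongr; exact wMass_pos_le hg h ht
          _ = _ := by ring

/-- `y(t) = ∫ (1+|v|²)(g-F)₊` satisfies a linear integral inequality. -/
lemma wMass_le (hg : IsMomentMild T C g) (hT : 0 ≤ T) (h : IsRenormSolution (g 0) F) :
    ∀ᵐ t ∂((volume : Measure ℝ).restrict (Ioc 0 T)),
      wMass (fun z => g t z - F t z) ≤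
        ∫⁻ s in Ioc 0 t, 3 * momentRate C * wMass (fun z => g s z - F s z) := by
  filter_upwards [moment_pos_part_le hg hT h, ae_restrict_mem measurableSet_Ioc] with t ht htT
  have hgm : ∀ s, Measurable (g s) := fun s => hg.measurable.comp measurable_prodMk_left
  have hFm : ∀ s, Measurable (F s) := fun s => h.measurable.comp measurable_prodMk_left
  set Lg := fun s => ∫⁻ z : Omega,
    wt z.2 * (ENNReal.ofReal (g s z - F s z) * lossRate (slice (g s) z.1) z.2) with hLg
  set A := ∫⁻ s in Ioc 0 t, Lg s with hA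
  have hgF : Measurable (Function.uncurry fun s z => g s z - F s z) :=
    hg.measurable.sub h.measurable
  have hkm : Measurable fun w : ℝ × Omega => wt w.2.2 *
      (ENNReal.ofReal (g w.1 w.2 - F w.1 w.2) * lossRate (slice (F w.1) w.2.1) w.2.2) :=
    (measurable_wt.comp (measurable_snd.comp measurable_snd)).mul
      (hgF.ennreal_ofReal.mul (measurable_lossRate_param h.measurable))
  have hsm : Measurable fun w : ℝ × Omega => wt w.2.2 * (ENNReal.ofReal (g w.1 w.2 - F w.1 w.2) *
      lossRate (slice (fun z => g w.1 z - F w.1 z) w.2.1) w.2.2) :=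
    (measurable_wt.comp (measurable_snd.comp measurable_snd)).mul
      (hgF.ennreal_ofReal.mul (measurable_lossRate_param hgF))
  have hrm : Measurable fun w : ℝ × Omega => wt w.2.2 * majorant (F w.1) (g w.1) w.2 :=
    (measurable_wt.comp (measurable_snd.comp measurable_snd)).mul
      (measurable_majorant_param h.measurable hg.measurable)
  have swapI : ∀ f : ℝ × Omega → ℝ≥0∞, Measurable f →
      ∫⁻ z : Omega, ∫⁻ s in Ioc 0 t, f (s, shift s z) = ∫⁻ s in Ioc 0 t, ∫⁻ z, f (s, z) := by
    intro f hf
    have hm : Measurable (Function.uncurry fun (z : Omega) (s : ℝ) => f (s, shift s z)) :=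
      (hf.comp measurable_line).comp measurable_swap
    rw [lintegral_lintegral_swap hm.aemeasurable]
    exact lintegral_congr fun s =>
      (measurePreserving_shift s).lintegral_comp (f := fun z => f (s, z))
        (hf.comp measurable_prodMk_left)
  have h1 : wMass (fun z => g t z - F t z) +
      (∫⁻ s in Ioc 0 t, ∫⁻ z : Omega, wt z.2 * keptLoss (F s) (g s) z) ≤
      ∫⁻ s in Ioc 0 t, ∫⁻ z : Omega, wt z.2 * majorant (F s) (g s) z := by
    rw [← swapI (fun w => wt w.2.2 * keptLoss (F w.1) (g w.1) w.2) hkm,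
      ← swapI (fun w => wt w.2.2 * majorant (F w.1) (g w.1) w.2) hrm, wMass,
      ← (measurePreserving_shift t).lintegral_comp
        (show Measurable (fun z : Omega => wt z.2 * ENNReal.ofReal (g t z - F t z)) from
          (measurable_wt.comp measurable_snd).mul ((hgm t).sub (hFm t)).ennreal_ofReal)]
    simp only [shift_snd]
    rw [← lintegral_add_left (show Measurable (fun z : Omega =>
      wt z.2 * ENNReal.ofReal (g t (shift t z) - F t (shift t z))) from
        (measurable_wt.comp measurable_snd).mul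
          (((hgm t).comp (measurable_shift t)).sub ((hFm t).comp (measurable_shift t))).ennreal_ofReal)]
    refine lintegral_mono_ae (ht.mono fun z hz => ?_)
    simp only [lintegral_const_mul' _ _ (show wt z.2 ≠ ⊤ from ENNReal.ofReal_ne_top)]
    rw [← mul_add]
    exact mul_le_mul' le_rfl hz
  have h2 : A ≤ (∫⁻ s in Ioc 0 t, ∫⁻ z : Omega, wt z.2 * keptLoss (F s) (g s) z) +
      ∫⁻ s in Ioc 0 t, ∫⁻ z : Omega, wt z.2 * selfLoss (F s) (g s) z := by
    have hkz : ∀ s, Measurable fun z : Omega => wt z.2 * keptLoss (F s) (g s) z := fun s =>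
      (measurable_wt.comp measurable_snd).mul (measurable_keptLoss (hFm s) (hgm s))
    rw [← lintegral_add_left (Measurable.lintegral_prod_right' (f := fun w : ℝ × Omega =>
      wt w.2.2 * keptLoss (F w.1) (g w.1) w.2) hkm)]
    refine lintegral_mono fun s => ?_
    rw [hLg, ← lintegral_add_left (hkz s)]
    refine lintegral_mono fun z => ?_
    simp only [keptLoss, selfLoss]
    rw [← mul_add, ← mul_add]
    refine mul_le_mul' le_rfl (mul_le_mul' le_rfl ?_)
    rw [← lossRate_add (measurable_slice (hFm s) _)]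
    refine lossRate_mono (fun v => ?_) _
    simp only [slice]
    exact le_trans (le_of_eq (by ring_nf)) ENNReal.ofReal_add_le
  have h3 : (∫⁻ s in Ioc 0 t, ∫⁻ z : Omega, wt z.2 * majorant (F s) (g s) z) +
      (∫⁻ s in Ioc 0 t, ∫⁻ z : Omega, wt z.2 * selfLoss (F s) (g s) z) ≤
      A + ∫⁻ s in Ioc 0 t, 3 * momentRate C * wMass (fun z => g s z - F s z) := by
    have hm1 : Measurable fun s => ∫⁻ z : Omega, wt z.2 * majorant (F s) (g s) z :=
      Measurable.lintegral_prod_right' hrm
    have hm3 : Measurable Lg :=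
      Measurable.lintegral_prod_right' (f := fun w : ℝ × Omega => wt w.2.2 *
        (ENNReal.ofReal (g w.1 w.2 - F w.1 w.2) * lossRate (slice (g w.1) w.2.1) w.2.2))
        ((measurable_wt.comp (measurable_snd.comp measurable_snd)).mul
          (hgF.ennreal_ofReal.mul (measurable_lossRate_param hg.measurable)))
    rw [hA, ← lintegral_add_left hm1, ← lintegral_add_left hm3]
    refine lintegral_mono_ae ((ae_restrict_iff' measurableSet_Ioc).2
      (Filter.Eventually.of_forall fun s hs => ?_))
    rw [← lintegral_add_left (show Measurable (fun z : Omega =>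
      wt z.2 * majorant (F s) (g s) z) from
        (measurable_wt.comp measurable_snd).mul (measurable_majorant (hFm s) (hgm s)))]
    simp only [← mul_add]
    exact rate_weighted_le hg h ⟨hs.1.le, hs.2.trans htT.2⟩
  have hAfin : A ≠ ⊤ := by
    refine ne_top_of_le_ne_top ?_ (lintegral_mono_ae ((ae_restrict_iff' measurableSet_Ioc).2
      (Filter.Eventually.of_forall (p := fun s => s ∈ Ioc 0 t →
        Lg s ≤ collConst C * (volume : Measure T3) univ) fun s hs => ?_)))
    · rw [lintegral_const]
      exact ENNReal.mul_ne_top (ENNReal.mul_ne_top (collConst_ne_top C) (measure_ne_top _ _))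
        (measure_ne_top _ _)
    · refine le_trans (lintegral_mono fun z => mul_le_mul' le_rfl ?_)
        (lintegral_collMass_le hg ⟨hs.1.le, hs.2.trans htT.2⟩)
      exact le_trans (mul_le_mul' (ENNReal.ofReal_le_ofReal (by linarith [h.nonneg s z])) le_rfl)
        le_add_self
  refine ENNReal.le_of_add_le_add_left hAfin ?_
  calc A + wMass (fun z => g t z - F t z)
      ≤ ((∫⁻ s in Ioc 0 t, ∫⁻ z : Omega, wt z.2 * keptLoss (F s) (g s) z) +
        ∫⁻ s in Ioc 0 t, ∫⁻ z : Omega, wt z.2 * selfLoss (F s) (g s) z) +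
          wMass (fun z => g t z - F t z) := add_le_add h2 le_rfl
    _ = (wMass (fun z => g t z - F t z) +
          ∫⁻ s in Ioc 0 t, ∫⁻ z : Omega, wt z.2 * keptLoss (F s) (g s) z) +
        ∫⁻ s in Ioc 0 t, ∫⁻ z : Omega, wt z.2 * selfLoss (F s) (g s) z := by ring
    _ ≤ (∫⁻ s in Ioc 0 t, ∫⁻ z : Omega, wt z.2 * majorant (F s) (g s) z) +
        ∫⁻ s in Ioc 0 t, ∫⁻ z : Omega, wt z.2 * selfLoss (F s) (g s) z := add_le_add h1 le_rfl
    _ ≤ _ := h3

lemma moment_ae_eq_of_ae_time (hg : IsMomentMild T C g) (hT : 0 ≤ T)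
    (h : IsRenormSolution (g 0) F) :
    ∀ᵐ t ∂((volume : Measure ℝ).restrict (Ioc 0 T)), F t =ᵐ[volume] g t := by
  have hK : 3 * momentRate C ≠ ⊤ := ENNReal.mul_ne_top ENNReal.ofNat_ne_top
    (ENNReal.mul_ne_top ENNReal.ofNat_ne_top
      (ENNReal.mul_ne_top ENNReal.ofReal_ne_top (measure_ne_top _ _)))
  have hgr := gronwall_bound (y := fun t => wMass (fun z => g t z - F t z))
    (b := (3 * momentRate C).toReal) (c := 0)
    (B := ENNReal.ofReal C * (volume : Measure T3) univ) hT ENNReal.toReal_nonneg le_rfl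
    (ENNReal.mul_ne_top ENNReal.ofReal_ne_top (measure_ne_top _ _))
    (fun t ht => (lintegral_mono fun z => mul_le_mul' le_rfl (ENNReal.ofReal_le_ofReal
      (by linarith [h.nonneg t z]))).trans (lintegral_weighted_le hg ⟨ht.1.le, ht.2⟩))
    (by
      filter_upwards [wMass_le hg hT h] with t ht
      rw [ENNReal.ofReal_toReal hK]
      simpa using ht)
  filter_upwards [hgr, ae_restrict_mem measurableSet_Ioc] with t ht htT
  have hy : wMass (fun z => g t z - F t z) = 0 := by simpa using ht
  have hp : wMass (fun z => F t z - g t z) = 0 :=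
    le_antisymm ((wMass_pos_le hg h ⟨htT.1.le, htT.2⟩).trans_eq hy) zero_le
  have hgm : Measurable (g t) := hg.measurable.comp measurable_prodMk_left
  have hFm : Measurable (F t) := h.measurable.comp measurable_prodMk_left
  rw [wMass, lintegral_eq_zero_iff
    (show Measurable (fun z : Omega => wt z.2 * ENNReal.ofReal (g t z - F t z)) from
      (measurable_wt.comp measurable_snd).mul (hgm.sub hFm).ennreal_ofReal)] at hy
  rw [wMass, lintegral_eq_zero_iff
    (show Measurable (fun z : Omega => wt z.2 * ENNReal.ofReal (F t z - g t z)) from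
      (measurable_wt.comp measurable_snd).mul (hFm.sub hgm).ennreal_ofReal)] at hp
  filter_upwards [hy, hp] with z hz1 hz2
  have hne : wt z.2 ≠ 0 := fun h0 => by simpa [h0] using one_le_wt z.2
  simp only [Pi.zero_apply, mul_eq_zero, hne, false_or, ENNReal.ofReal_eq_zero, sub_nonpos]
    at hz1 hz2
  exact le_antisymm hz2 hz1

lemma moment_continuousOn_test (hg : IsMomentMild T C g) (f : Omega →ᵇ ℝ) :
    ContinuousOn (fun t => ∫ z, f z * g t z) (Icc 0 T) := by
  intro t₀ ht₀
  have hT : 0 ≤ T := ht₀.1.trans ht₀.2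
  have hline : ∀ t ∈ Icc 0 T,
      ∫ z, f z * g t z = ∫ z, f (shift t z) * g t (shift t z) := by
    intro t _
    have hgm : Measurable (g t) := hg.measurable.comp measurable_prodMk_left
    have h := integral_map (measurable_shift t).aemeasurable (μ := volume)
      (f := fun z : Omega => f z * g t z) (f.continuous.measurable.mul hgm).aestronglyMeasurable
    rw [(measurePreserving_shift t).map_eq] at h
    exact h
  refine ContinuousWithinAt.congr ?_ (fun t ht => hline t ht) (hline t₀ ht₀)
  have hdom : Integrable (fun z : Omega => ‖f‖ * (g 0 z + (lineMass T g z).toReal)) :=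
    ((hg.integrable (left_mem_Icc.2 hT)).add (integrable_toReal_of_lintegral_ne_top
      (measurable_lineMass hg.measurable).aemeasurable (lintegral_lineMass_ne_top hg))).const_mul _
  refine continuousWithinAt_of_dominated
    (bound := fun z : Omega => ‖f‖ * (g 0 z + (lineMass T g z).toReal)) ?_ ?_ hdom ?_
  · exact Filter.Eventually.of_forall fun t => ((f.continuous.measurable.comp
      (measurable_shift t)).mul ((hg.measurable.comp measurable_prodMk_left).comp
        (measurable_shift t))).aestronglyMeasurable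
  · filter_upwards [self_mem_nhdsWithin] with t ht
    filter_upwards [hg.mild, ae_lineMass_finite hg] with z hzm hzl
    rw [norm_mul, Real.norm_eq_abs (g t _), abs_of_nonneg (hg.nonneg t ht _)]
    refine mul_le_mul (f.norm_coe_le_norm _) ?_ (hg.nonneg t ht _) (norm_nonneg _)
    rw [hzm t ht]
    refine add_le_add le_rfl ((le_abs_self _).trans ?_)
    rw [intervalIntegral.integral_of_le ht.1, ← Real.norm_eq_abs]
    refine norm_integral_le_lintegral_norm _ |>.trans (ENNReal.toReal_mono hzl ?_)
    refine le_trans (lintegral_mono fun s => ?_) (lintegral_mono_set (Ioc_subset_Ioc_right ht.2))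
    rw [Real.norm_eq_abs]
    exact (ofReal_abs_Qcoll_le _ _).trans (le_mul_of_one_le_left' (one_le_wt _))
  · filter_upwards [hg.mild, ae_lineMass_finite hg] with z hzm hzl
    have hs : Continuous (fun t => shift t z) := by unfold shift; fun_prop
    refine ((f.continuous.comp hs).continuousWithinAt).mul ?_
    have hG : ContinuousOn (fun t => g 0 z + ∫ s in (0 : ℝ)..t, Qcoll (g s) (shift s z))
        (Icc 0 T) := by
      refine continuousOn_const.add ?_
      have := intervalIntegral.continuousOn_primitive_interval' (μ := volume)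
        (intervalIntegrable_moment_line hg hT hzl) left_mem_uIcc
      rwa [uIcc_of_le hT] at this
    exact (hG.congr fun t ht => hzm t ht) t₀ ht₀

/-- Weak-strong uniqueness under a third-moment bound. -/
theorem eq_momentMild (hg : IsMomentMild T C g) (h : IsRenormSolution F₀ F)
    (hdat : F₀ =ᵐ[volume] g 0) : ∀ t ∈ Icc 0 T, F t =ᵐ[volume] g t := by
  intro t ht
  have h' := h.congr_datum hdat
  rcases (ht.1.trans ht.2).eq_or_lt with hT0 | hT
  · obtain rfl : t = 0 := le_antisymm (ht.2.trans_eq hT0.symm) ht.1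
    exact h'.datum
  have hgm : Measurable (g t) := hg.measurable.comp measurable_prodMk_left
  have hFm : Measurable (F t) := h.measurable.comp measurable_prodMk_left
  have hgi := hg.integrable ht
  have hFi := (h.integrable t ht.1).1
  have htest : ∀ f : Omega →ᵇ ℝ, ∫ z, f z * F t z = ∫ z, f z * g t z := by
    intro f
    have hF := (h.weakCont f f.continuous.measurable
      ⟨‖f‖, fun z => by simpa [Real.norm_eq_abs] using f.norm_coe_le_norm z⟩).mono
        (Icc_subset_Ici_self : Icc (0 : ℝ) T ⊆ Ici 0)
    refine Measure.eqOn_Icc_of_ae_eq (μ := volume) hT.ne ?_ hF (moment_continuousOn_test hg f) ht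
    rw [← restrict_Ioc_eq_restrict_Icc]
    filter_upwards [moment_ae_eq_of_ae_time hg hT.le h'] with s hs
    exact integral_congr_ae (by filter_upwards [hs] with z hz; rw [hz])
  have hμ : (volume : Measure Omega).withDensity (fun z => ENNReal.ofReal (F t z)) =
      (volume : Measure Omega).withDensity (fun z => ENNReal.ofReal (g t z)) := by
    have := isFiniteMeasure_withDensity_ofReal hFi.hasFiniteIntegral
    have := isFiniteMeasure_withDensity_ofReal hgi.hasFiniteIntegral
    refine ext_of_forall_integral_eq_of_IsFiniteMeasure fun f => ?_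
    rw [integral_withDensity_eq_integral_toReal_smul hFm.ennreal_ofReal
        (Filter.Eventually.of_forall fun _ => ENNReal.ofReal_lt_top),
      integral_withDensity_eq_integral_toReal_smul hgm.ennreal_ofReal
        (Filter.Eventually.of_forall fun _ => ENNReal.ofReal_lt_top)]
    simpa [ENNReal.toReal_ofReal, h.nonneg, hg.nonneg t ht, mul_comm] using htest f
  have hae := (withDensity_eq_iff hFm.ennreal_ofReal.aemeasurable hgm.ennreal_ofReal.aemeasurable
    (ne_top_of_le_ne_top hFi.hasFiniteIntegral.ne (lintegral_ofReal_le_lintegral_enorm _))).1 hμ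
  filter_upwards [hae] with z hz
  exact (ENNReal.ofReal_eq_ofReal_iff (h.nonneg t z) (hg.nonneg t ht z)).1 hz

end Vale.Agent.P140.Renorm
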