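import Vale.Agent.P140.Renorm.Collision

/-!
# Measurability, Gaussian envelopes and the conservation laws of Gaussian mild solutions
-/

open MeasureTheory Real Set
open scoped RealInnerProductSpace ENNReal

namespace Vale.Agent.P140.Renorm

open Vale.Agent.P140

lemma measurable_slice {F : Omega → ℝ} (hF : Measurable F) (x : T3) : Measurable (slice F x) := by
  unfold slice; fun_prop

lemma measurable_gain_param {ι : Type*} [MeasurableSpace ι] {F G : ι → Omega → ℝ}
    (hF : Measurable (Function.uncurry F)) (hG : Measurable (Function.uncurry G)) :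
    Measurable (fun w : ι × Omega => gain (slice (F w.1) w.2.1) (slice (G w.1) w.2.1) w.2.2) :=
  Measurable.lintegral_prod_right' (f := fun q : (ι × Omega) × (V3 × S2) =>
    ENNReal.ofReal |impact q.1.2.2 q.2| *
      ENNReal.ofReal (Function.uncurry F (q.1.1, (q.1.2.1, postV q.1.2.2 q.2))) *
      ENNReal.ofReal (Function.uncurry G (q.1.1, (q.1.2.1, postW q.1.2.2 q.2)))) (by fun_prop)

lemma measurable_lossRate_param {ι : Type*} [MeasurableSpace ι] {F : ι → Omega → ℝ}
    (hF : Measurable (Function.uncurry F)) :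
    Measurable (fun w : ι × Omega => lossRate (slice (F w.1) w.2.1) w.2.2) :=
  Measurable.lintegral_prod_right' (f := fun q : (ι × Omega) × (V3 × S2) =>
    ENNReal.ofReal |impact q.1.2.2 q.2| *
      ENNReal.ofReal (Function.uncurry F (q.1.1, (q.1.2.1, q.2.1)))) (by fun_prop)

variable {F : ℝ → Omega → ℝ}

lemma measurable_Qplus_param (hF : Measurable (Function.uncurry F)) :
    Measurable (fun w : ℝ × Omega => Qplus (F w.1) w.2) := measurable_gain_param hF hF

lemma measurable_Qminus_param (hF : Measurable (Function.uncurry F)) :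
    Measurable (fun w : ℝ × Omega => Qminus (F w.1) w.2) :=
  (ENNReal.measurable_ofReal.comp hF).mul (measurable_lossRate_param hF)

lemma measurable_Qcoll_param (hF : Measurable (Function.uncurry F)) :
    Measurable (fun w : ℝ × Omega => Qcoll (F w.1) w.2) :=
  ((measurable_Qplus_param hF).ennreal_toReal).sub ((measurable_Qminus_param hF).ennreal_toReal)

lemma measurable_Qplus {f : Omega → ℝ} (hf : Measurable f) : Measurable (Qplus f) := by
  unfold Qplus gain slice
  exact Measurable.lintegral_prod_right' (f := fun q : Omega × (V3 × S2) =>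
    ENNReal.ofReal |impact q.1.2 q.2| * ENNReal.ofReal (f (q.1.1, postV q.1.2 q.2)) *
      ENNReal.ofReal (f (q.1.1, postW q.1.2 q.2))) (by fun_prop)

lemma measurable_Qminus {f : Omega → ℝ} (hf : Measurable f) : Measurable (Qminus f) := by
  unfold Qminus lossRate slice
  exact hf.ennreal_ofReal.mul (Measurable.lintegral_prod_right' (f := fun q : Omega × (V3 × S2) =>
    ENNReal.ofReal |impact q.1.2 q.2| * ENNReal.ofReal (f (q.1.1, q.2.1))) (by fun_prop))

lemma measurable_line : Measurable (fun w : ℝ × Omega => (w.1, shift w.1 w.2)) :=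
  measurable_fst.prodMk measurable_shift'

/-- Time integrals along characteristics are jointly measurable. -/
lemma stronglyMeasurable_primitive {r : ℝ → Omega → ℝ} (hr : Measurable (Function.uncurry r)) :
    StronglyMeasurable (fun w : ℝ × Omega => ∫ s, (Ioc 0 w.1).indicator (fun s => r s w.2) s) := by
  refine StronglyMeasurable.integral_prod_right' (f := fun q : (ℝ × Omega) × ℝ =>
    (Ioc 0 q.1.1).indicator (fun s => r s q.1.2) q.2) ?_
  refine Measurable.stronglyMeasurable ?_
  have h : MeasurableSet {q : (ℝ × Omega) × ℝ | 0 < q.2 ∧ q.2 ≤ q.1.1} :=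
    (measurableSet_lt measurable_const measurable_snd).inter
      (measurableSet_le measurable_snd (by fun_prop))
  exact Measurable.ite h (hr.comp (f := fun q : (ℝ × Omega) × ℝ => (q.2, q.1.2)) (by fun_prop))
    measurable_const

lemma intervalIntegral_eq_primitive {r : ℝ → Omega → ℝ} {t : ℝ} (ht : 0 ≤ t) (z : Omega) :
    ∫ s in (0 : ℝ)..t, r s z = ∫ s, (Ioc 0 t).indicator (fun s => r s z) s := by
  rw [intervalIntegral.integral_of_le ht, integral_indicator measurableSet_Ioc]

lemma integrable_pow_gauss {a : ℝ} (ha : 0 < a) (k : ℕ) :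
    Integrable (fun v : V3 => (1 + ‖v‖) ^ k * exp (-a * ‖v‖ ^ 2)) := by
  have h := integrable_exp_sq (a / 2) (by positivity) 0
  simp only [sub_zero] at h
  refine (h.const_mul (exp (k ^ 2 / (2 * a)))).mono'
    (Continuous.aestronglyMeasurable (by fun_prop)) (Filter.Eventually.of_forall fun v => ?_)
  rw [Real.norm_eq_abs, abs_of_nonneg (by positivity), ← exp_add]
  have hk : (1 + ‖v‖) ^ k ≤ exp (k * ‖v‖) := by
    rw [exp_nat_mul]
    exact pow_le_pow_left₀ (by positivity) (by linarith [add_one_le_exp ‖v‖]) k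
  refine (mul_le_mul_of_nonneg_right hk (exp_pos _).le).trans ?_
  rw [← exp_add]
  refine exp_le_exp.2 ?_
  have h1 : (k : ℝ) * ‖v‖ ≤ k ^ 2 / (2 * a) + a / 2 * ‖v‖ ^ 2 := by
    rw [div_add' _ _ _ (by positivity), le_div_iff₀ (by positivity)]
    nlinarith [sq_nonneg ((k : ℝ) - a * ‖v‖)]
  linarith

lemma integrable_pow_gauss_omega {a : ℝ} (ha : 0 < a) (k : ℕ) (C : ℝ) :
    Integrable (fun z : Omega => C * ((1 + ‖z.2‖) ^ k * exp (-a * ‖z.2‖ ^ 2))) :=
  integrable_snd ((integrable_pow_gauss ha k).const_mul C)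

variable {T a : ℝ} {m : V3 → ℝ} {g : ℝ → Omega → ℝ}

/-- The profile as an extended real function. -/
noncomputable def profileE (m : V3 → ℝ) (v : V3) : ℝ≥0∞ := ENNReal.ofReal (m v)

lemma measurable_profileE (hm : Measurable m) : Measurable (profileE m) := hm.ennreal_ofReal

lemma HasExpMoment.pow (hm : HasExpMoment a m) (ha : 0 < a) (k : ℕ) :
    Integrable (fun v => m v * (1 + ‖v‖) ^ k) := by
  refine (hm.integrable.const_mul ((1 + k / a) ^ k)).mono'
    (hm.measurable.mul (by fun_prop)).aestronglyMeasurable (Filter.Eventually.of_forall fun v => ?_)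
  rw [Real.norm_eq_abs, abs_of_nonneg (mul_nonneg (hm.nonneg v) (by positivity)), mul_left_comm]
  refine mul_le_mul_of_nonneg_left ?_ (hm.nonneg v)
  rcases Nat.eq_zero_or_pos k with rfl | hk
  · simpa using one_le_exp (mul_nonneg ha.le (norm_nonneg v))
  have hk' : (0 : ℝ) < k := Nat.cast_pos.2 hk
  have h1 : 1 + ‖v‖ ≤ (1 + k / a) * exp (a * ‖v‖ / k) := by
    have h2 := add_one_le_exp (a * ‖v‖ / k)
    have h3 : (1 : ℝ) ≤ exp (a * ‖v‖ / k) := one_le_exp (by positivity)
    have h4 : k / a * (a * ‖v‖ / k) = ‖v‖ := by field_simp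
    calc 1 + ‖v‖ = 1 * 1 + k / a * (a * ‖v‖ / k) := by rw [h4, one_mul]
      _ ≤ 1 * exp (a * ‖v‖ / k) + k / a * exp (a * ‖v‖ / k) := by
          gcongr; linarith
      _ = _ := by ring
  refine (pow_le_pow_left₀ (by positivity) h1 k).trans_eq ?_
  rw [mul_pow, ← exp_nat_mul]
  congr 2; field_simp

lemma HasExpMoment.pow_omega (hm : HasExpMoment a m) (ha : 0 < a) (k : ℕ) :
    Integrable (fun z : Omega => m z.2 * (1 + ‖z.2‖) ^ k) := integrable_snd (hm.pow ha k)

/-- `|S²| ∫ (1 + |v|) m`, the collision rate of the profile. -/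
noncomputable def profileRate (m : V3 → ℝ) : ℝ :=
  (surface Set.univ).toReal * ∫ v : V3, m v * (1 + ‖v‖) ^ 1

lemma profileRate_nonneg (hm : HasExpMoment a m) : 0 ≤ profileRate m :=
  mul_nonneg ENNReal.toReal_nonneg
    (integral_nonneg fun v => mul_nonneg (hm.nonneg v) (by positivity))

lemma lossRate_profile_le (hm : HasExpMoment a m) (ha : 0 < a) (v : V3) :
    lossRate (profileE m) v ≤ ENNReal.ofReal (profileRate m * (1 + ‖v‖)) := by
  have hmeas := hm.measurable
  calc lossRate (profileE m) v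
      ≤ ∫⁻ p : V3 × S2, ENNReal.ofReal ((1 + ‖v‖) * (m p.1 * (1 + ‖p.1‖) ^ 1))
          ∂((volume : Measure V3).prod surface) := by
        refine lintegral_mono fun p => ?_
        rw [profileE, ← ENNReal.ofReal_mul (abs_nonneg _)]
        refine ENNReal.ofReal_le_ofReal ?_
        calc |impact v p| * m p.1 ≤ (1 + ‖v‖) * (1 + ‖p.1‖) * m p.1 := by
              gcongr
              · exact hm.nonneg _
              · exact abs_impact_le v p
          _ = _ := by ring
    _ = _ := by
      rw [lintegral_prod _ (by fun_prop)]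
      simp only [lintegral_const]
      rw [lintegral_mul_const' _ _ (measure_ne_top _ _), ← ofReal_integral_eq_lintegral_ofReal
        ((hm.pow ha 1).const_mul _)
        (Filter.Eventually.of_forall fun w => mul_nonneg (by positivity)
          (mul_nonneg (hm.nonneg w) (by positivity))),
        ← ENNReal.ofReal_toReal (measure_ne_top surface Set.univ),
        ← ENNReal.ofReal_mul' ENNReal.toReal_nonneg, integral_const_mul, profileRate]
      congr 1; ring

lemma slice_le_profile (hg : IsProfileMild T m g) {t : ℝ} (ht : t ∈ Icc 0 T) (x : T3) :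
    slice (g t) x ≤ profileE m :=
  fun v => ENNReal.ofReal_le_ofReal (hg.bounds t ht (x, v)).2

/-- A common bound of `Q⁺(g,g)` and `Q⁻(g,g)`. -/
noncomputable def envelope (m : V3 → ℝ) (v : V3) : ℝ≥0∞ :=
  gain (profileE m) (profileE m) v + profileE m v * lossRate (profileE m) v

lemma measurable_envelope (hm : Measurable m) : Measurable (envelope m) :=
  (measurable_gain (measurable_profileE hm) (measurable_profileE hm)).add
    ((measurable_profileE hm).mul (measurable_lossRate (measurable_profileE hm)))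

lemma Qplus_profile_le (hg : IsProfileMild T m g) {t : ℝ} (ht : t ∈ Icc 0 T) (z : Omega) :
    Qplus (g t) z ≤ envelope m z.2 :=
  (gain_mono (slice_le_profile hg ht _) (slice_le_profile hg ht _) _).trans le_self_add

lemma Qminus_profile_le (hg : IsProfileMild T m g) {t : ℝ} (ht : t ∈ Icc 0 T) (z : Omega) :
    Qminus (g t) z ≤ envelope m z.2 :=
  (mul_le_mul' (slice_le_profile hg ht z.1 z.2)
    (lossRate_mono (slice_le_profile hg ht z.1) z.2)).trans le_add_self

lemma lintegral_weight_envelope (hm : HasExpMoment a m) (ha : 0 < a) :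
    ∫⁻ v, ENNReal.ofReal ((1 + ‖v‖) ^ 2) * envelope m v ≠ ⊤ := by
  have hmeas := hm.measurable
  have hP := measurable_profileE hmeas
  set ψ := fun v : V3 => ENNReal.ofReal ((1 + ‖v‖) ^ 2)
  have hψ : Measurable ψ := by simp only [ψ]; fun_prop
  set u := fun v : V3 => ENNReal.ofReal (m v * (1 + ‖v‖) ^ 3)
  have hu : Measurable u := by simp only [u]; fun_prop
  have hfin : ∫⁻ v, u v ≠ ⊤ :=
    ne_top_of_le_ne_top (hm.pow ha 3).hasFiniteIntegral.ne (lintegral_ofReal_le_lintegral_enorm _)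
  have hbound : ∀ (y : V3) (v : V3) (p : V3 × S2), ‖y‖ ^ 2 ≤ ‖v‖ ^ 2 + ‖p.1‖ ^ 2 →
      ψ y * (ENNReal.ofReal |impact v p| * profileE m v * profileE m p.1) ≤ u v * u p.1 := by
    intro y v p hy
    simp only [ψ, u, profileE]
    rw [← ENNReal.ofReal_mul (abs_nonneg _),
      ← ENNReal.ofReal_mul (mul_nonneg (abs_nonneg _) (hm.nonneg v)),
      ← ENNReal.ofReal_mul (by positivity),
      ← ENNReal.ofReal_mul (mul_nonneg (hm.nonneg v) (by positivity))]
    refine ENNReal.ofReal_le_ofReal ?_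
    have h1 : ‖y‖ ≤ ‖v‖ + ‖p.1‖ := by
      nlinarith [norm_nonneg y, norm_nonneg v, norm_nonneg p.1,
        mul_nonneg (norm_nonneg v) (norm_nonneg p.1)]
    have h2 : (1 + ‖y‖) ^ 2 ≤ ((1 + ‖v‖) * (1 + ‖p.1‖)) ^ 2 :=
      pow_le_pow_left₀ (by positivity) (by nlinarith [norm_nonneg v, norm_nonneg p.1]) 2
    calc (1 + ‖y‖) ^ 2 * (|impact v p| * m v * m p.1)
        ≤ ((1 + ‖v‖) * (1 + ‖p.1‖)) ^ 2 * ((1 + ‖v‖) * (1 + ‖p.1‖) * m v * m p.1) := by
          refine mul_le_mul h2 ?_ (mul_nonneg (mul_nonneg (abs_nonneg _) (hm.nonneg _))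
            (hm.nonneg _)) (by positivity)
          exact mul_le_mul_of_nonneg_right
            (mul_le_mul_of_nonneg_right (abs_impact_le v p) (hm.nonneg _)) (hm.nonneg _)
      _ = _ := by ring
  have hprod : ∫⁻ v, ∫⁻ p : V3 × S2, u v * u p.1 ∂((volume : Measure V3).prod surface) ≠ ⊤ := by
    have e : ∀ v, ∫⁻ p : V3 × S2, u v * u p.1 ∂((volume : Measure V3).prod surface) =
        u v * ((∫⁻ w, u w) * surface univ) := fun v => by
      rw [lintegral_const_mul _ (by fun_prop), lintegral_prod _ (by fun_prop)]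
      simp only [lintegral_const]
      rw [lintegral_mul_const' _ _ (measure_ne_top _ _)]
    simp_rw [e]
    rw [lintegral_mul_const _ hu]
    exact ENNReal.mul_ne_top hfin (ENNReal.mul_ne_top hfin (measure_ne_top _ _))
  have h1 : ∫⁻ v, ψ v * gain (profileE m) (profileE m) v ≠ ⊤ := by
    rw [lintegral_mul_gain hP hP hψ]
    refine ne_top_of_le_ne_top hprod (lintegral_mono fun v => lintegral_mono fun p =>
      hbound _ v p ?_)
    nlinarith [energy_post v p, sq_nonneg ‖postW v p‖]
  have h2 : ∫⁻ v, ψ v * (profileE m v * lossRate (profileE m) v) ≠ ⊤ := by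
    refine ne_top_of_le_ne_top hprod (lintegral_mono fun v => ?_)
    rw [lossRate, ← lintegral_const_mul _ (by fun_prop), ← lintegral_const_mul _ (by fun_prop)]
    refine lintegral_mono fun p => le_of_eq_of_le ?_ (hbound v v p (by nlinarith [sq_nonneg ‖p.1‖]))
    ring
  have hm1 : Measurable fun v => ψ v * gain (profileE m) (profileE m) v := by fun_prop
  simp only [envelope, mul_add]
  rw [lintegral_add_left hm1]
  exact ENNReal.add_ne_top.2 ⟨h1, h2⟩

lemma integrable_weight_envelope (hm : HasExpMoment a m) (ha : 0 < a) :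
    Integrable (fun v => (1 + ‖v‖) ^ 2 * (envelope m v).toReal) := by
  have hM : Measurable fun v => ENNReal.ofReal ((1 + ‖v‖) ^ 2) * envelope m v :=
    (by fun_prop : Measurable fun v : V3 => ENNReal.ofReal ((1 + ‖v‖) ^ 2)).mul
      (measurable_envelope hm.measurable)
  refine (integrable_toReal_of_lintegral_ne_top hM.aemeasurable
    (lintegral_weight_envelope hm ha)).congr (Filter.Eventually.of_forall fun v => ?_)
  simp only [ENNReal.toReal_mul, ENNReal.toReal_ofReal (by positivity : 0 ≤ (1 + ‖v‖) ^ 2)]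

lemma ae_envelope_lt_top (hm : HasExpMoment a m) (ha : 0 < a) :
    ∀ᵐ v : V3, envelope m v ≠ ⊤ := by
  have hM : Measurable fun v => ENNReal.ofReal ((1 + ‖v‖) ^ 2) * envelope m v :=
    (by fun_prop : Measurable fun v : V3 => ENNReal.ofReal ((1 + ‖v‖) ^ 2)).mul
      (measurable_envelope hm.measurable)
  filter_upwards [ae_lt_top hM (lintegral_weight_envelope hm ha)] with v hv htop
  rw [htop, ENNReal.mul_top (by simp; positivity)] at hv
  exact lt_irrefl _ hv

lemma ae_envelope_lt_top_omega (hm : HasExpMoment a m) (ha : 0 < a) :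
    ∀ᵐ z : Omega, envelope m z.2 ≠ ⊤ :=
  Measure.quasiMeasurePreserving_snd.ae (ae_envelope_lt_top hm ha)

lemma abs_Qcoll_profile_le (hg : IsProfileMild T m g) {t : ℝ} (ht : t ∈ Icc 0 T) (z : Omega)
    (hz : envelope m z.2 ≠ ⊤) : |Qcoll (g t) z| ≤ (envelope m z.2).toReal := by
  have h1 := ENNReal.toReal_mono hz (Qplus_profile_le hg ht z)
  have h2 := ENNReal.toReal_mono hz (Qminus_profile_le hg ht z)
  rw [Qcoll, abs_le]
  constructor <;> linarith [ENNReal.toReal_nonneg (a := Qplus (g t) z),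
    ENNReal.toReal_nonneg (a := Qminus (g t) z)]

lemma intervalIntegrable_Qcoll_line (hg : IsProfileMild T m g) {t : ℝ} (ht : t ∈ Icc 0 T)
    (z : Omega) (hz : envelope m z.2 ≠ ⊤) :
    IntervalIntegrable (fun s => Qcoll (g s) (shift s z)) volume 0 t := by
  rw [intervalIntegrable_iff_integrableOn_Ioc_of_le ht.1]
  refine Measure.integrableOn_of_bounded (M := (envelope m z.2).toReal) measure_Ioc_lt_top.ne
    ((((measurable_Qcoll_param hg.measurable).comp measurable_line).comp
      (measurable_id.prodMk measurable_const)).aestronglyMeasurable) ?_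
  refine (ae_restrict_iff' measurableSet_Ioc).2 (Filter.Eventually.of_forall fun s hs => ?_)
  simpa using abs_Qcoll_profile_le hg ⟨hs.1.le, hs.2.trans ht.2⟩ (shift s z) (by simpa using hz)

lemma integrable_moment (hm : HasExpMoment a m) (ha : 0 < a) {u : Omega → ℝ} (hu : Measurable u)
    (hb : ∀ z : Omega, 0 ≤ u z ∧ u z ≤ m z.2) {ψ : V3 → ℝ}
    (hψm : Measurable ψ) (hψ : ∀ v, |ψ v| ≤ (1 + ‖v‖) ^ 2) :
    Integrable (fun z : Omega => ψ z.2 * u z) := by
  refine (hm.pow_omega ha 2).mono'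
    ((hψm.comp measurable_snd).mul hu).aestronglyMeasurable
    (Filter.Eventually.of_forall fun z => ?_)
  rw [Real.norm_eq_abs, abs_mul, abs_of_nonneg (hb z).1, mul_comm]
  exact mul_le_mul (hb z).2 (hψ _) (abs_nonneg _) (hm.nonneg _)

lemma integral_toReal_sub_eq_zero {X : Type*} [MeasurableSpace X] {μ : Measure X} {ψ E : X → ℝ}
    {P N : X → ℝ≥0∞} (hψm : Measurable ψ) (hψ0 : ∀ x, 0 ≤ ψ x) (hE : Integrable E μ)
    (hP : Measurable P) (hN : Measurable N) (hPt : ∀ᵐ x ∂μ, P x ≠ ⊤) (hNt : ∀ᵐ x ∂μ, N x ≠ ⊤)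
    (hPE : ∀ᵐ x ∂μ, ψ x * (P x).toReal ≤ E x) (hNE : ∀ᵐ x ∂μ, ψ x * (N x).toReal ≤ E x)
    (heq : ∫⁻ x, ENNReal.ofReal (ψ x) * P x ∂μ = ∫⁻ x, ENNReal.ofReal (ψ x) * N x ∂μ) :
    ∫ x, ψ x * ((P x).toReal - (N x).toReal) ∂μ = 0 := by
  have key : ∀ Q : X → ℝ≥0∞, Measurable Q → (∀ᵐ x ∂μ, Q x ≠ ⊤) →
      (∀ᵐ x ∂μ, ψ x * (Q x).toReal ≤ E x) →
      Integrable (fun x => ψ x * (Q x).toReal) μ ∧
        ∫ x, ψ x * (Q x).toReal ∂μ = (∫⁻ x, ENNReal.ofReal (ψ x) * Q x ∂μ).toReal := by
    intro Q hQ hQt hQE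
    have e : ∀ x, ψ x * (Q x).toReal = (ENNReal.ofReal (ψ x) * Q x).toReal := fun x => by
      rw [ENNReal.toReal_mul, ENNReal.toReal_ofReal (hψ0 x)]
    constructor
    · refine hE.mono' (hψm.mul hQ.ennreal_toReal).aestronglyMeasurable (hQE.mono fun x hx => ?_)
      rw [Real.norm_eq_abs, abs_of_nonneg (mul_nonneg (hψ0 x) ENNReal.toReal_nonneg)]
      exact hx
    · simp only [e]
      exact integral_toReal (hψm.ennreal_ofReal.mul hQ).aemeasurable
        (hQt.mono fun x hx => ENNReal.mul_lt_top ENNReal.ofReal_lt_top hx.lt_top)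
  simp only [mul_sub]
  rw [integral_sub (key P hP hPt hPE).1 (key N hN hNt hNE).1, (key P hP hPt hPE).2,
    (key N hN hNt hNE).2, heq, sub_self]

lemma integral_mul_Qcoll_eq_zero (hg : IsProfileMild T m g) (hm : HasExpMoment a m) (ha : 0 < a)
    {t : ℝ} (ht : t ∈ Icc 0 T) {ψ : V3 → ℝ} (hψm : Measurable ψ) (hψ0 : ∀ v, 0 ≤ ψ v)
    (hψ : ∀ v, ψ v ≤ (1 + ‖v‖) ^ 2)
    (hinv : ∀ f : V3 → ℝ≥0∞, Measurable f →
      ∫⁻ v, ENNReal.ofReal (ψ v) * gain f f v =
        ∫⁻ v, ENNReal.ofReal (ψ v) * (f v * lossRate f v)) :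
    ∫ z : Omega, ψ z.2 * Qcoll (g t) z = 0 := by
  have hgm : Measurable (g t) := hg.measurable.comp measurable_prodMk_left
  have hP : Measurable (Qplus (g t)) := measurable_Qplus hgm
  have hN : Measurable (Qminus (g t)) := measurable_Qminus hgm
  have hE : Integrable (fun z : Omega => (1 + ‖z.2‖) ^ 2 * (envelope m z.2).toReal) :=
    integrable_snd (integrable_weight_envelope hm ha)
  have hfin := ae_envelope_lt_top_omega hm ha
  have hle : ∀ Q : Omega → ℝ≥0∞, (∀ z, Q z ≤ envelope m z.2) →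
      (∀ᵐ z : Omega, Q z ≠ ⊤) ∧
        ∀ᵐ z : Omega, ψ z.2 * (Q z).toReal ≤ (1 + ‖z.2‖) ^ 2 * (envelope m z.2).toReal :=
    fun Q hQ => ⟨hfin.mono fun z hz => ne_top_of_le_ne_top hz (hQ z), hfin.mono fun z hz =>
      mul_le_mul (hψ _) (ENNReal.toReal_mono hz (hQ z)) ENNReal.toReal_nonneg (by positivity)⟩
  have key : ∀ P N : Omega → ℝ≥0∞, Measurable P → Measurable N →
      (∀ z, P z ≤ envelope m z.2) → (∀ z, N z ≤ envelope m z.2) →
      (∫⁻ z : Omega, ENNReal.ofReal (ψ z.2) * P z = ∫⁻ z : Omega, ENNReal.ofReal (ψ z.2) * N z) →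
      ∫ z : Omega, ψ z.2 * ((P z).toReal - (N z).toReal) = 0 := fun P N hP hN h1 h2 heq =>
    integral_toReal_sub_eq_zero (ψ := fun z : Omega => ψ z.2) (hψm.comp measurable_snd)
      (fun z => hψ0 _) hE hP hN (hle P h1).1 (hle N h2).1 (hle P h1).2 (hle N h2).2 heq
  simp only [Qcoll]
  refine key _ _ hP hN (Qplus_profile_le hg ht) (Qminus_profile_le hg ht) ?_
  have hm' : ∀ Q : Omega → ℝ≥0∞, Measurable Q →
      Measurable (fun z : Omega => ENNReal.ofReal (ψ z.2) * Q z) := fun Q hQ => by fun_prop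
  rw [Measure.volume_eq_prod, lintegral_prod _ (hm' _ hP).aemeasurable,
    lintegral_prod _ (hm' _ hN).aemeasurable]
  exact lintegral_congr fun x => hinv (slice (g t) x) (measurable_slice hgm x)

/-- A velocity moment is constant when the rate has mean zero at all times. -/
lemma integral_line_const {u₀ ut : Omega → ℝ} {q : ℝ → Omega → ℝ} {ψ : V3 → ℝ} {E : V3 → ℝ}
    {t : ℝ} (ht : 0 ≤ t) (hψm : Measurable ψ) (hut : Measurable ut)
    (hq : Measurable (Function.uncurry q)) (hE : Integrable E)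
    (hqE : ∀ᵐ z : Omega, ∀ s ∈ Ioc 0 t, |ψ z.2 * q s (shift s z)| ≤ E z.2)
    (hu₀ : Integrable (fun z : Omega => ψ z.2 * u₀ z))
    (hline : ∀ᵐ z : Omega, ut (shift t z) = u₀ z + ∫ s in (0 : ℝ)..t, q s (shift s z))
    (hzero : ∀ s ∈ Ioc 0 t, ∫ z : Omega, ψ z.2 * q s z = 0) :
    ∫ z : Omega, ψ z.2 * ut z = ∫ z : Omega, ψ z.2 * u₀ z := by
  set r : ℝ → Omega → ℝ := fun s z => ψ z.2 * q s (shift s z) with hr
  have hrm : Measurable (Function.uncurry r) :=
    ((hψm.comp measurable_snd).comp measurable_snd).mul (hq.comp measurable_line)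
  have hri : Integrable (Function.uncurry r)
      ((volume.restrict (Ioc 0 t)).prod (volume : Measure Omega)) := by
    refine ((integrable_snd hE).comp_snd (volume.restrict (Ioc 0 t))).mono'
      hrm.aestronglyMeasurable ?_
    have hae : ∀ᵐ w : ℝ × Omega ∂((volume.restrict (Ioc 0 t)).prod volume), w.1 ∈ Ioc 0 t :=
      Measure.quasiMeasurePreserving_fst.ae (ae_restrict_mem measurableSet_Ioc)
    filter_upwards [hae, Measure.quasiMeasurePreserving_snd.ae hqE] with w hw hw2
    simpa [Function.uncurry, hr] using hw2 w.1 hw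
  have hshift : ∀ (s : ℝ) (u : Omega → ℝ), Measurable u →
      ∫ z : Omega, ψ z.2 * u (shift s z) = ∫ z : Omega, ψ z.2 * u z := by
    intro s u hu
    have h := integral_map (measurable_shift s).aemeasurable
      (f := fun z : Omega => ψ z.2 * u z)
      ((hψm.comp measurable_snd).mul hu).aestronglyMeasurable (μ := volume)
    rw [(measurePreserving_shift s).map_eq] at h
    exact h.symm
  have hl : ∀ᵐ z : Omega, ψ z.2 * ut (shift t z) = ψ z.2 * u₀ z + ∫ s in Ioc 0 t, r s z :=
    hline.mono fun z hz => by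
      rw [hz, mul_add, intervalIntegral.integral_of_le ht, ← integral_const_mul]
  rw [← hshift t ut hut, integral_congr_ae hl,
    integral_add hu₀ (show Integrable (fun z : Omega => ∫ s in Ioc 0 t, r s z) (volume : Measure Omega) from
      hri.integral_prod_right), ← integral_integral_swap hri]
  have hz : ∀ s ∈ Ioc 0 t, ∫ z : Omega, r s z = 0 := fun s hs => by
    rw [hshift s (q s) (hq.comp measurable_prodMk_left)]
    exact hzero s hs
  rw [setIntegral_congr_fun measurableSet_Ioc hz]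
  simp

/-- A velocity moment that is a collision invariant is constant in time. -/
lemma moment_const (hg : IsProfileMild T m g) (hm : HasExpMoment a m) (ha : 0 < a) {t : ℝ}
    (ht : t ∈ Icc 0 T)
    {ψ : V3 → ℝ} (hψm : Measurable ψ) (hψ0 : ∀ v, 0 ≤ ψ v) (hψ : ∀ v, ψ v ≤ (1 + ‖v‖) ^ 2)
    (hinv : ∀ f : V3 → ℝ≥0∞, Measurable f →
      ∫⁻ v, ENNReal.ofReal (ψ v) * gain f f v =
        ∫⁻ v, ENNReal.ofReal (ψ v) * (f v * lossRate f v)) :
    ∫ z : Omega, ψ z.2 * g t z = ∫ z : Omega, ψ z.2 * g 0 z := by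
  have habs : ∀ v, |ψ v| ≤ (1 + ‖v‖) ^ 2 := fun v => by rw [abs_of_nonneg (hψ0 v)]; exact hψ v
  have hgm : ∀ s, Measurable (g s) := fun s => hg.measurable.comp measurable_prodMk_left
  refine integral_line_const (q := fun s => Qcoll (g s))
    (E := fun v => (1 + ‖v‖) ^ 2 * (envelope m v).toReal) ht.1 hψm (hgm t)
    (measurable_Qcoll_param hg.measurable) (integrable_weight_envelope hm ha) ?_
    (integrable_moment hm ha (hgm 0) (hg.bounds 0 (left_mem_Icc.2 (ht.1.trans ht.2))) hψm habs)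
    (hg.mild.mono fun z hz => hz t ht) fun s hs =>
      integral_mul_Qcoll_eq_zero hg hm ha ⟨hs.1.le, hs.2.trans ht.2⟩ hψm hψ0 hψ hinv
  filter_upwards [ae_envelope_lt_top_omega hm ha] with z hz s hs
  rw [abs_mul]
  have := abs_Qcoll_profile_le hg ⟨hs.1.le, hs.2.trans ht.2⟩ (shift s z) (by simpa using hz)
  exact mul_le_mul (habs _) (by simpa using this) (abs_nonneg _) (by positivity)

lemma mass_const (hg : IsProfileMild T m g) (hm : HasExpMoment a m) (ha : 0 < a) {t : ℝ} (ht : t ∈ Icc 0 T) :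
    ∫ z : Omega, g t z = ∫ z : Omega, g 0 z := by
  have h := moment_const hg hm ha ht (ψ := fun _ => 1) (by fun_prop) (fun _ => zero_le_one)
    (fun v => by nlinarith [norm_nonneg v]) (fun f hf => by
      simp only [ENNReal.ofReal_one, one_mul]; exact lintegral_gain hf hf)
  simpa using h

lemma energy_const (hg : IsProfileMild T m g) (hm : HasExpMoment a m) (ha : 0 < a) {t : ℝ} (ht : t ∈ Icc 0 T) :
    ∫ z : Omega, g t z * ‖z.2‖ ^ 2 = ∫ z : Omega, g 0 z * ‖z.2‖ ^ 2 := by
  have h := moment_const hg hm ha ht (ψ := fun v => ‖v‖ ^ 2) (by fun_prop) (fun v => sq_nonneg _)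
    (fun v => by nlinarith [norm_nonneg v]) (fun f hf => lintegral_sq_mul_gain hf)
  simpa [mul_comm] using h

end Vale.Agent.P140.Renorm
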