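import Vale.Agent.P140.Renorm.MomentMild
import Vale.Agent.P140.Renorm.ProdDefs

/-!
# Mild solutions with finite energy and moment production: integrability, mass
-/

open MeasureTheory Real Set
open scoped RealInnerProductSpace ENNReal

namespace Vale.Agent.P140.Renorm

open Vale.Agent.P140

variable {T C : ℝ} {g : ℝ → Omega → ℝ}

lemma IsProdMild.moment_wt (hg : IsProdMild T C g) {t : ℝ} (ht : t ∈ Icc 0 T) (x : T3) :
    ∫⁻ v, wt v * slice (g t) x v ≤ ENNReal.ofReal C := hg.moment t ht x

lemma IsProdMild.moment_one (hg : IsProdMild T C g) {t : ℝ} (ht : t ∈ Icc 0 T) (x : T3) :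
    ∫⁻ v, w1 v * slice (g t) x v ≤ 2 * ENNReal.ofReal C := by
  calc ∫⁻ v, w1 v * slice (g t) x v ≤ ∫⁻ v, 2 * (wt v * slice (g t) x v) :=
        lintegral_mono fun v => by rw [← mul_assoc]; exact mul_le_mul' (w1_le_two_wt v) le_rfl
    _ ≤ _ := by
      rw [lintegral_const_mul' _ _ ENNReal.ofNat_ne_top]
      exact mul_le_mul' le_rfl (hg.moment_wt ht x)

/-- The bound of gain plus loss without weight. -/
noncomputable def collConst0 (C : ℝ) : ℝ≥0∞ :=
  2 * (2 * ENNReal.ofReal C * (2 * ENNReal.ofReal C * surface univ))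

lemma collConst0_ne_top (C : ℝ) : collConst0 C ≠ ⊤ := by
  have h : (2 : ℝ≥0∞) * ENNReal.ofReal C ≠ ⊤ :=
    ENNReal.mul_ne_top ENNReal.ofNat_ne_top ENNReal.ofReal_ne_top
  exact ENNReal.mul_ne_top ENNReal.ofNat_ne_top
    (ENNReal.mul_ne_top h (ENNReal.mul_ne_top h (measure_ne_top _ _)))

lemma lintegral_loss_le {f h : V3 → ℝ≥0∞} (hf : Measurable f) (hh : Measurable h) :
    ∫⁻ v, f v * lossRate h v ≤ (∫⁻ v, w1 v * f v) * ((∫⁻ w, w1 w * h w) * surface univ) := by
  rw [← lintegral_mul_const _ (by fun_prop)]
  refine lintegral_mono fun v => (mul_le_mul' le_rfl (lossRate_le_moment hh v)).trans_eq ?_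
  ring

lemma lintegral_coll_le (hg : IsProdMild T C g) {t : ℝ} (ht : t ∈ Icc 0 T) :
    ∫⁻ z, (Qplus (g t) z + Qminus (g t) z) ≤ collConst0 C * (volume : Measure T3) univ := by
  have hgm : Measurable (g t) := hg.measurable.comp measurable_prodMk_left
  rw [Measure.volume_eq_prod, lintegral_prod _ (show Measurable (fun z => Qplus (g t) z + Qminus (g t) z)
    from (measurable_Qplus hgm).add (measurable_Qminus hgm)).aemeasurable, ← lintegral_const]
  refine lintegral_mono fun x => ?_
  have hf := measurable_slice hgm x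
  change ∫⁻ v, (gain (slice (g t) x) (slice (g t) x) v +
    slice (g t) x v * lossRate (slice (g t) x) v) ≤ _
  rw [lintegral_add_left (by fun_prop), lintegral_gain hf hf, ← two_mul, collConst0]
  gcongr
  refine (lintegral_loss_le hf hf).trans ?_
  gcongr <;> exact hg.moment_one ht x

lemma IsProdMild.ae_finite (hg : IsProdMild T C g) {t : ℝ} (ht : t ∈ Icc 0 T) :
    ∀ᵐ z, Qplus (g t) z ≠ ⊤ ∧ Qminus (g t) z ≠ ⊤ := by
  have hgm : Measurable (g t) := hg.measurable.comp measurable_prodMk_left
  filter_upwards [ae_lt_top (show Measurable (fun z => Qplus (g t) z + Qminus (g t) z)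
    from (measurable_Qplus hgm).add (measurable_Qminus hgm))
    (ne_top_of_le_ne_top (ENNReal.mul_ne_top (collConst0_ne_top C) (measure_ne_top _ _))
      (lintegral_coll_le hg ht))] with z hz
  exact ENNReal.add_ne_top.1 hz.ne

attribute [local irreducible] Qplus Qminus

/-- `Q⁺+Q⁻` integrated along characteristics up to time `t`. -/
noncomputable def collLine (t : ℝ) (g : ℝ → Omega → ℝ) (z : Omega) : ℝ≥0∞ :=
  ∫⁻ s in Ioc 0 t, (Qplus (g s) (shift s z) + Qminus (g s) (shift s z))

lemma measurable_coll_line (hg : Measurable (Function.uncurry g)) :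
    Measurable (fun w : ℝ × Omega =>
      Qplus (g w.1) (shift w.1 w.2) + Qminus (g w.1) (shift w.1 w.2)) :=
  ((measurable_Qplus_param hg).comp measurable_line).add
    ((measurable_Qminus_param hg).comp measurable_line)

lemma measurable_collLine {t : ℝ} (hg : Measurable (Function.uncurry g)) :
    Measurable (collLine t g) :=
  Measurable.lintegral_prod_right' (ν := (volume : Measure ℝ).restrict (Ioc 0 t))
    (f := fun q : Omega × ℝ => Qplus (g q.2) (shift q.2 q.1) + Qminus (g q.2) (shift q.2 q.1))
    ((measurable_coll_line hg).comp measurable_swap)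

lemma lintegral_collLine_le (hg : IsProdMild T C g) {t : ℝ} (ht : t ∈ Icc 0 T) :
    ∫⁻ z, collLine t g z ≤
      collConst0 C * (volume : Measure T3) univ * ENNReal.ofReal t := by
  have hm : Measurable (Function.uncurry fun (z : Omega) (s : ℝ) =>
      Qplus (g s) (shift s z) + Qminus (g s) (shift s z)) :=
    (measurable_coll_line hg.measurable).comp measurable_swap
  simp only [collLine]
  rw [lintegral_lintegral_swap hm.aemeasurable]
  refine (lintegral_mono_ae ((ae_restrict_iff' measurableSet_Ioc).2
    (Filter.Eventually.of_forall (p := fun s => s ∈ Ioc 0 t →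
      (∫⁻ z, (Qplus (g s) (shift s z) + Qminus (g s) (shift s z))) ≤
        collConst0 C * (volume : Measure T3) univ) fun s hs => ?_))).trans ?_
  · have hgs : Measurable (g s) := hg.measurable.comp measurable_prodMk_left
    rw [(measurePreserving_shift s).lintegral_comp (f := fun z => Qplus (g s) z + Qminus (g s) z)
      ((measurable_Qplus hgs).add (measurable_Qminus hgs))]
    exact lintegral_coll_le hg ⟨hs.1.le, hs.2.trans ht.2⟩
  · rw [lintegral_const, Measure.restrict_apply_univ, Real.volume_Ioc, sub_zero]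

lemma lintegral_collLine_ne_top (hg : IsProdMild T C g) {t : ℝ} (ht : t ∈ Icc 0 T) :
    ∫⁻ z, collLine t g z ≠ ⊤ :=
  ne_top_of_le_ne_top (ENNReal.mul_ne_top (ENNReal.mul_ne_top (collConst0_ne_top C)
    (measure_ne_top _ _)) ENNReal.ofReal_ne_top) (lintegral_collLine_le hg ht)

lemma ae_collLine_finite (hg : IsProdMild T C g) (hT : 0 ≤ T) : ∀ᵐ z, collLine T g z ≠ ⊤ :=
  (ae_lt_top (measurable_collLine hg.measurable)
    (lintegral_collLine_ne_top hg (right_mem_Icc.2 hT))).mono fun _ hz => hz.ne

lemma intervalIntegrable_prod_line (hg : IsProdMild T C g) (hT : 0 ≤ T) {z : Omega}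
    (hz : collLine T g z ≠ ⊤) :
    IntervalIntegrable (fun s => Qcoll (g s) (shift s z)) volume 0 T := by
  rw [intervalIntegrable_iff_integrableOn_Ioc_of_le hT]
  refine ⟨((((measurable_Qcoll_param hg.measurable).comp measurable_line).comp
      (measurable_id.prodMk measurable_const))).aestronglyMeasurable, ?_⟩
  refine lt_of_le_of_lt (lintegral_mono fun s => ?_) hz.lt_top
  rw [← ofReal_norm, Real.norm_eq_abs]
  exact ofReal_abs_Qcoll_le _ _

lemma IsProdMild.lintegral_weighted (hg : IsProdMild T C g) {t : ℝ} (ht : t ∈ Icc 0 T) :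
    ∫⁻ z : Omega, wt z.2 * ENNReal.ofReal (g t z) ≤
      ENNReal.ofReal C * (volume : Measure T3) univ := by
  have hgm : Measurable (g t) := hg.measurable.comp measurable_prodMk_left
  have hm : Measurable fun z : Omega => wt z.2 * ENNReal.ofReal (g t z) := by fun_prop
  rw [Measure.volume_eq_prod, lintegral_prod _ hm.aemeasurable, ← lintegral_const]
  exact lintegral_mono fun x => hg.moment_wt ht x

lemma IsProdMild.weighted_ne_top (hg : IsProdMild T C g) {t : ℝ} (ht : t ∈ Icc 0 T) :
    ∫⁻ z : Omega, wt z.2 * ENNReal.ofReal (g t z) ≠ ⊤ :=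
  ne_top_of_le_ne_top (ENNReal.mul_ne_top ENNReal.ofReal_ne_top (measure_ne_top _ _))
    (hg.lintegral_weighted ht)

lemma IsProdMild.integrable_weight (hg : IsProdMild T C g) {t : ℝ} (ht : t ∈ Icc 0 T) {ψ : V3 → ℝ}
    (hψm : Measurable ψ) (hψ : ∀ v, |ψ v| ≤ 1 + ‖v‖ ^ 2) :
    Integrable (fun z : Omega => ψ z.2 * g t z) := by
  have hgm : Measurable (g t) := hg.measurable.comp measurable_prodMk_left
  refine ⟨((hψm.comp measurable_snd).mul hgm).aestronglyMeasurable, lt_of_le_of_lt
    (lintegral_mono fun z => ?_) (hg.weighted_ne_top ht).lt_top⟩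
  rw [← ofReal_norm, norm_mul, Real.norm_eq_abs, Real.norm_eq_abs,
    abs_of_nonneg (hg.nonneg t ht z), ENNReal.ofReal_mul (abs_nonneg _)]
  exact mul_le_mul' (ENNReal.ofReal_le_ofReal (hψ _)) le_rfl

lemma IsProdMild.integrable (hg : IsProdMild T C g) {t : ℝ} (ht : t ∈ Icc 0 T) :
    Integrable (g t) := by
  simpa using hg.integrable_weight ht (ψ := fun _ => 1) (by fun_prop)
    (fun v => by rw [abs_one]; nlinarith [sq_nonneg ‖v‖])

lemma IsProdMild.mass (hg : IsProdMild T C g) {t : ℝ} (ht : t ∈ Icc 0 T) :
    ∫ z : Omega, g t z = ∫ z : Omega, g 0 z := by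
  have hgm : ∀ s, Measurable (g s) := fun s => hg.measurable.comp measurable_prodMk_left
  set r : ℝ → Omega → ℝ := fun s z => Qcoll (g s) (shift s z) with hr
  have hrm : Measurable (Function.uncurry r) :=
    (measurable_Qcoll_param hg.measurable).comp measurable_line
  have hri : Integrable (Function.uncurry r)
      ((volume.restrict (Ioc 0 t)).prod (volume : Measure Omega)) := by
    refine ⟨hrm.aestronglyMeasurable, lt_of_le_of_lt ?_
      (lintegral_collLine_ne_top hg ht).lt_top⟩
    rw [lintegral_prod_symm _ (by fun_prop)]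
    refine lintegral_mono fun z => lintegral_mono fun s => ?_
    simp only [Function.uncurry, hr]
    rw [← ofReal_norm, Real.norm_eq_abs]
    exact ofReal_abs_Qcoll_le _ _
  have hshift : ∀ (s : ℝ) (u : Omega → ℝ), Measurable u →
      ∫ z : Omega, u (shift s z) = ∫ z : Omega, u z := by
    intro s u hu
    have h := integral_map (measurable_shift s).aemeasurable (f := u)
      hu.aestronglyMeasurable (μ := volume)
    rw [(measurePreserving_shift s).map_eq] at h
    exact h.symm
  have hl : ∀ᵐ z : Omega, g t (shift t z) = g 0 z + ∫ s in Ioc 0 t, r s z :=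
    hg.mild.mono fun z hz => by rw [hz t ht, intervalIntegral.integral_of_le ht.1]
  rw [← hshift t (g t) (hgm t), integral_congr_ae hl,
    integral_add (hg.integrable (left_mem_Icc.2 (ht.1.trans ht.2)))
      (show Integrable (fun z : Omega => ∫ s in Ioc 0 t, r s z) (volume : Measure Omega) from
        hri.integral_prod_right), ← integral_integral_swap hri]
  have hz : ∀ s ∈ Ioc 0 t, ∫ z : Omega, r s z = 0 := fun s hs => by
    have hsI : s ∈ Icc 0 T := ⟨hs.1.le, hs.2.trans ht.2⟩
    rw [hshift s (Qcoll (g s))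
      ((measurable_Qplus (hgm s)).ennreal_toReal.sub (measurable_Qminus (hgm s)).ennreal_toReal)]
    have hfin := hg.ae_finite hsI
    have hsum := ne_top_of_le_ne_top
      (ENNReal.mul_ne_top (collConst0_ne_top C) (measure_ne_top _ _)) (lintegral_coll_le hg hsI)
    rw [lintegral_add_left (measurable_Qplus (hgm s))] at hsum
    obtain ⟨hP, hN⟩ := ENNReal.add_ne_top.1 hsum
    have heq : ∫⁻ z, Qplus (g s) z = ∫⁻ z, Qminus (g s) z := by
      rw [Measure.volume_eq_prod, lintegral_prod _ (measurable_Qplus (hgm s)).aemeasurable,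
        lintegral_prod _ (measurable_Qminus (hgm s)).aemeasurable]
      refine lintegral_congr fun x => ?_
      have hf := measurable_slice (hgm s) x
      simp only [Qplus, Qminus]
      exact lintegral_gain hf hf
    simp only [Qcoll]
    rw [integral_sub (integrable_toReal_of_lintegral_ne_top (measurable_Qplus (hgm s)).aemeasurable
        hP) (integrable_toReal_of_lintegral_ne_top (measurable_Qminus (hgm s)).aemeasurable hN),
      integral_toReal (measurable_Qplus (hgm s)).aemeasurable (hfin.mono fun z hz => hz.1.lt_top),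
      integral_toReal (measurable_Qminus (hgm s)).aemeasurable (hfin.mono fun z hz => hz.2.lt_top),
      heq, sub_self]
  rw [setIntegral_congr_fun measurableSet_Ioc hz]
  simp

/-- A bounded third moment gives finite energy and moment production. -/
lemma IsMomentMild.isProdMild (hg : IsMomentMild T C g) :
    IsProdMild T (max C 0 * max T 1) g where
  measurable := hg.measurable
  nonneg := hg.nonneg
  moment t ht x := by
    refine (lintegral_mono fun v => mul_le_mul' ?_ le_rfl).trans
      ((hg.moment' ht x).trans (ENNReal.ofReal_le_ofReal ?_))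
    · exact le_trans (le_mul_of_one_le_right' (show (1 : ℝ≥0∞) ≤ w1 v from
        ENNReal.one_le_ofReal.2 (by linarith [norm_nonneg v]))) (wt_mul_w1_le v)
    · nlinarith [le_max_left C 0, le_max_right C 0, le_max_right T 1]
  production t ht x := by
    refine (hg.moment' (Ioc_subset_Icc_self ht) x).trans (ENNReal.ofReal_le_ofReal ?_)
    rw [le_div_iff₀ ht.1]
    exact mul_le_mul (le_max_left _ _) (ht.2.trans (le_max_left _ _)) ht.1.le (le_max_right _ _)
  energy _ ht := hg.energy ht
  mild := hg.mild

end Vale.Agent.P140.Renorm
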