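import Vale.Agent.P140.Renorm.ProdStep

/-!
# The inequality along characteristics and the conservation laws
-/

open MeasureTheory Real Set
open scoped RealInnerProductSpace ENNReal

namespace Vale.Agent.P140.Renorm

open Vale.Agent.P140

variable {T C : ℝ} {g : ℝ → Omega → ℝ} {F₀ : Omega → ℝ} {F : ℝ → Omega → ℝ}

lemma prod_swap_finite (hg : IsProdMild T C g) :
    ∀ᵐ z : Omega, ∀ᵐ t ∂((volume : Measure ℝ).restrict (Ioc 0 T)),
      Qminus (g t) (shift t z) ≠ ⊤ := by
  refine swap_ae (T := T) (p := fun t z => Qminus (g t) (shift t z) ≠ ⊤)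
    (((measurable_Qminus_param hg.measurable).comp measurable_line)
      (measurableSet_singleton (⊤ : ℝ≥0∞)).compl) ?_
  filter_upwards [ae_restrict_mem (μ := (volume : Measure ℝ)) measurableSet_Ioc] with t ht
  filter_upwards [(measurePreserving_shift t).quasiMeasurePreserving.ae
    (hg.ae_finite ⟨ht.1.le, ht.2⟩)] with z hz
  exact hz.2

/-- The pointwise inequality along almost every characteristic, from the initial time and from
almost every positive time. -/
lemma prod_pos_part_le (hg : IsProdMild T C g) (hT : 0 ≤ T) (h : IsRenormSolution (g 0) F) :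
    ∀ᵐ t ∂((volume : Measure ℝ).restrict (Ioc 0 T)),
      (∀ᵐ z : Omega, ENNReal.ofReal (g t (shift t z) - F t (shift t z)) +
          (∫⁻ s in Ioc 0 t, keptLoss (F s) (g s) (shift s z)) ≤
        ENNReal.ofReal (g 0 (shift 0 z) - F 0 (shift 0 z)) +
          ∫⁻ s in Ioc 0 t, majorant (F s) (g s) (shift s z)) ∧
      ∀ᵐ r ∂((volume : Measure ℝ).restrict (Ioc 0 T)), r ≤ t → ∀ᵐ z : Omega,
        ENNReal.ofReal (g t (shift t z) - F t (shift t z)) +
            (∫⁻ s in Ioc r t, keptLoss (F s) (g s) (shift s z)) ≤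
          ENNReal.ofReal (g r (shift r z) - F r (shift r z)) +
            ∫⁻ s in Ioc r t, majorant (F s) (g s) (shift s z) := by
  have hg0 : Measurable (g 0) := hg.measurable.comp measurable_prodMk_left
  have h0T : (0 : ℝ) ∈ Icc 0 T := left_mem_Icc.2 hT
  obtain ⟨hI, hE⟩ := beta_mild h hg0 (fun z => hg.nonneg 0 h0T z) hT
  have hE' : ∀ᵐ t ∂((volume : Measure ℝ).restrict (Ioc 0 T)), ∀ᵐ z : Omega,
      beta1 (F t) (shift t z) = beta1 (g 0) z + Mild.prim F t z := by
    filter_upwards [hE, ae_restrict_mem measurableSet_Ioc] with t ht htT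
    filter_upwards [ht] with z hz
    rw [hz, Mild.prim, intervalIntegral.integral_of_le htT.1.le]
  have hE0 : ∀ᵐ z : Omega, beta1 (F 0) (shift 0 z) = beta1 (g 0) z + Mild.prim F 0 z := by
    filter_upwards [h.datum] with z hz
    rw [shift_zero, Mild.prim, Ioc_self, setIntegral_empty, add_zero]
    simp only [beta1, hz]
  have hswapE := swap_ae (T := T) (p := fun t z =>
      beta1 (F t) (shift t z) = beta1 (g 0) z + Mild.prim F t z)
    (measurableSet_eq_fun (Mild.measurable_beta1_shift h.measurable)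
      (((Mild.measurable_beta1 hg0).comp measurable_snd).add
        (Mild.measurable_prim h.measurable))) hE'
  have hfin : ∀ᵐ t ∂((volume : Measure ℝ).restrict (Ioc 0 T)), ∀ᵐ z : Omega,
      Qplus (F t) (shift t z) ≠ ⊤ := by
    filter_upwards [ae_finite_coll h hT] with t ht
    filter_upwards [(measurePreserving_shift t).quasiMeasurePreserving.ae ht] with z hz
    exact hz.1
  have hswapF := swap_ae (T := T) (p := fun t z => Qplus (F t) (shift t z) ≠ ⊤)
    (((measurable_Qplus_param h.measurable).comp measurable_line)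
      (measurableSet_singleton (⊤ : ℝ≥0∞)).compl) hfin
  have key : ∀ᵐ z : Omega, ∀ r ∈ Icc 0 T, ∀ t ∈ Icc 0 T, r ≤ t →
      beta1 (F r) (shift r z) = beta1 (g 0) z + Mild.prim F r z →
      beta1 (F t) (shift t z) = beta1 (g 0) z + Mild.prim F t z →
        ENNReal.ofReal (g t (shift t z) - F t (shift t z)) +
            (∫⁻ s in Ioc r t, keptLoss (F s) (g s) (shift s z)) ≤
          ENNReal.ofReal (g r (shift r z) - F r (shift r z)) +
            ∫⁻ s in Ioc r t, majorant (F s) (g s) (shift s z) := by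
    filter_upwards [hI, hswapE, hswapF, hg.mild, ae_collLine_finite hg hT, prod_swap_finite hg]
      with z hz hzE hzF hzm hzl hzN r hr t ht hrt hrE htE
    set v := z.2 with hv
    set M := M0 v with hMd
    have hM : 0 < M := M0_pos v
    set G := fun q => g 0 z + ∫ s in (0 : ℝ)..q, Qcoll (g s) (shift s z) with hGd
    set H := fun q => beta1 (g 0) z + ∫ s in (0 : ℝ)..q, betaRate F s z with hHd
    have hQi := intervalIntegrable_prod_line hg hT hzl
    have hGc : ContinuousOn G (Icc 0 T) := by
      have := intervalIntegral.continuousOn_primitive_interval' (μ := volume) hQi left_mem_uIcc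
      rw [uIcc_of_le hT] at this
      exact continuousOn_const.add this
    obtain ⟨B₀, hB₀⟩ := (isCompact_Icc.image_of_continuousOn hGc).bddAbove
    set B := max B₀ (g 0 z) + 1 with hBd
    have hB : 0 ≤ B := by linarith [le_max_right B₀ (g 0 z), hg.nonneg 0 h0T z]
    have hGB : ∀ q ∈ Icc 0 T, G q < B := fun q hq => by
      linarith [hB₀ (mem_image_of_mem G hq), le_max_left B₀ (g 0 z)]
    have hGeq : ∀ q ∈ Icc 0 T, G q = g q (shift q z) := fun q hq => (hzm q hq).symm
    have hHeq : ∀ q, 0 ≤ q → beta1 (F q) (shift q z) = beta1 (g 0) z + Mild.prim F q z →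
        H q = F q (shift q z) * M / (M + F q (shift q z)) := by
      intro q hq he
      simp only [hHd, intervalIntegral.integral_of_le hq]
      rw [Mild.prim] at he
      rw [← he]; rfl
    obtain ⟨hN, hD⟩ := pos_part_chain (G := G) (H := H) hM hB hT
      hQi hz (fun q => rfl) (fun q => rfl) hGB
    set N := fun q => max (G q - unrenorm M (level M B) (H q)) 0 with hNd
    obtain ⟨hNti, hNt⟩ := hN t ht
    obtain ⟨hNri, hNr⟩ := hN r hr
    have hNpos : ∀ q ∈ Icc 0 T, beta1 (F q) (shift q z) = beta1 (g 0) z + Mild.prim F q z →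
        N q = max (g q (shift q z) - F q (shift q z)) 0 := by
      intro q hq he
      simp only [hNd]
      rw [hGeq q hq, hHeq q hq.1 he]
      refine pos_part_unrenorm hM hB (h.nonneg _ _) ?_
      rw [← hGeq q hq]; exact hGB q hq
    have hsum : (∫ s in (0 : ℝ)..r, deriv N s) + ∫ s in r..t, deriv N s =
        ∫ s in (0 : ℝ)..t, deriv N s :=
      intervalIntegral.integral_add_adjacent_intervals hNri (hNri.symm.trans hNti)
    have hNtval : N t = N r + ∫ s in r..t, deriv N s := by rw [hNt, hNr]; linarith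
    have hofmax : ∀ x : ℝ, ENNReal.ofReal (max x 0) = ENNReal.ofReal x := fun x => by
      rcases le_total x 0 with hx | hx
      · rw [max_eq_right hx, ENNReal.ofReal_zero, ENNReal.ofReal_eq_zero.2 hx]
      · rw [max_eq_left hx]
    refine le_trans (le_of_eq ?_) (le_trans (ofReal_add_integral_le (c := N r)
      (f := fun s => deriv N s) (S := fun s => keptLoss (F s) (g s) (shift s z))
      (R := fun s => majorant (F s) (g s) (shift s z)) hrt (hNri.symm.trans hNti)
      (le_max_right _ _) (by rw [← hNtval]; exact le_max_right _ _) ?_) (le_of_eq ?_))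
    · rw [← hNtval, hNpos t ht htE, hofmax]
    swap
    · rw [hNpos r hr hrE, hofmax]
    have hsub : Ioc r t ⊆ Ioc 0 T := Ioc_subset_Ioc hr.1 ht.2
    have hne : ∀ᵐ s ∂((volume : Measure ℝ).restrict (Ioc r t)), s ≠ T :=
      ae_restrict_of_ae (by simp [ae_iff, measure_singleton])
    filter_upwards [ae_restrict_of_ae hD, ae_restrict_mem measurableSet_Ioc, hne,
      ae_restrict_of_ae_restrict_of_subset hsub hzE,
      ae_restrict_of_ae_restrict_of_subset hsub hzF,
      ae_restrict_of_ae_restrict_of_subset hsub hzN] with s hs hmem hsT hsE hsF hsN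
    have hsI : s ∈ Icc 0 T := ⟨(hr.1.trans_lt hmem.1).le, hmem.2.trans ht.2⟩
    obtain ⟨hs0, hs1⟩ := hs ⟨hr.1.trans_lt hmem.1, lt_of_le_of_ne hsI.2 hsT⟩
    rcases eq_or_lt_of_le (show (0 : ℝ) ≤ N s from le_max_right _ _) with h0 | h0
    · have hle : g s (shift s z) - F s (shift s z) ≤ 0 := by
        have := hNpos s hsI hsE
        rw [← h0] at this
        exact le_trans (le_max_left _ 0) this.ge
      rw [hs0 h0.symm, keptLoss, ENNReal.ofReal_eq_zero.2 hle]
      simp
    · obtain ⟨-, hds⟩ := hs1 h0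
      set f := F s (shift s z) with hf
      have hfn : 0 ≤ f := h.nonneg _ _
      have hlt : f < g s (shift s z) := by
        rw [hNpos s hsI hsE] at h0
        exact sub_pos.1 (lt_of_not_ge fun hle => h0.ne' (max_eq_right hle))
      have hd : deriv N s = Qcoll (g s) (shift s z) - Qcoll (F s) (shift s z) := by
        rw [hds, hHeq s hsI.1 hsE, betaRate, ← hf, ← hMd]
        have h2 : M - f * M / (M + f) = M * M / (M + f) := by
          field_simp; ring
        rw [h2]
        field_simp
      rw [hd]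
      exact Qdiff_add_keptLoss_le (h.measurable.comp measurable_prodMk_left)
        (hg.measurable.comp measurable_prodMk_left) hfn hlt.le hsN hsF
  filter_upwards [hE', ae_restrict_mem measurableSet_Ioc] with t ht htT
  refine ⟨?_, ?_⟩
  · filter_upwards [hE0, ht, key] with z h0 hz hk
    exact hk 0 h0T t ⟨htT.1.le, htT.2⟩ htT.1.le h0 hz
  · filter_upwards [hE', ae_restrict_mem measurableSet_Ioc] with r hr hrT hrt
    filter_upwards [hr, ht, key] with z h1 h2 hk
    exact hk r ⟨hrT.1.le, hrT.2⟩ t ⟨htT.1.le, htT.2⟩ hrt h1 h2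

lemma wMass_eq_ofReal {u : Omega → ℝ} (hu : ∀ z, 0 ≤ u z) (h1 : Integrable u)
    (h2 : Integrable fun z : Omega => u z * ‖z.2‖ ^ 2) :
    wMass u = ENNReal.ofReal ((∫ z, u z) + ∫ z : Omega, u z * ‖z.2‖ ^ 2) := by
  rw [← integral_add h1 h2, ofReal_integral_eq_lintegral_ofReal
    (show Integrable (fun z : Omega => u z + u z * ‖z.2‖ ^ 2) volume from h1.add h2)
    (Filter.Eventually.of_forall fun z =>
      add_nonneg (hu z) (mul_nonneg (hu z) (sq_nonneg _)))]
  refine lintegral_congr fun z => ?_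
  rw [wt, ← ENNReal.ofReal_mul (by positivity)]
  congr 1; ring

lemma IsProdMild.integrable_sq (hg : IsProdMild T C g) {t : ℝ} (ht : t ∈ Icc 0 T) :
    Integrable (fun z : Omega => g t z * ‖z.2‖ ^ 2) :=
  (hg.integrable_weight ht (ψ := fun v => ‖v‖ ^ 2) (by fun_prop)
    (fun v => by rw [abs_of_nonneg (sq_nonneg _)]; linarith)).congr
    (Filter.Eventually.of_forall fun _ => mul_comm _ _)

lemma IsProdMild.wMass_const (hg : IsProdMild T C g) {t : ℝ} (ht : t ∈ Icc 0 T) :
    wMass (g t) = wMass (g 0) := by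
  have h0 : (0 : ℝ) ∈ Icc 0 T := left_mem_Icc.2 (ht.1.trans ht.2)
  rw [wMass_eq_ofReal (hg.nonneg t ht) (hg.integrable ht) (hg.integrable_sq ht),
    wMass_eq_ofReal (hg.nonneg 0 h0) (hg.integrable h0) (hg.integrable_sq h0), hg.mass ht,
    hg.energy t ht]

lemma weighted_balance {w : V3 → ℝ≥0∞} (hw : Measurable w) {F g : Omega → ℝ} (hF : Measurable F)
    (hg : Measurable g) (hF0 : ∀ z, 0 ≤ F z) (hg0 : ∀ z, 0 ≤ g z)
    (hfin : (∫⁻ z : Omega, w z.2 * ENNReal.ofReal (g z)) ≠ ⊤)
    (hle : (∫⁻ z : Omega, w z.2 * ENNReal.ofReal (F z)) ≤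
      ∫⁻ z : Omega, w z.2 * ENNReal.ofReal (g z)) :
    (∫⁻ z : Omega, w z.2 * ENNReal.ofReal (F z - g z)) ≤
      ∫⁻ z : Omega, w z.2 * ENNReal.ofReal (g z - F z) := by
  have hm : ∀ u : Omega → ℝ, Measurable u →
      Measurable (fun z : Omega => w z.2 * ENNReal.ofReal (u z)) := fun u hu => by fun_prop
  have hbal : (∫⁻ z : Omega, w z.2 * ENNReal.ofReal (F z)) +
      (∫⁻ z : Omega, w z.2 * ENNReal.ofReal (g z - F z)) =
      (∫⁻ z : Omega, w z.2 * ENNReal.ofReal (g z)) +
        ∫⁻ z : Omega, w z.2 * ENNReal.ofReal (F z - g z) := by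
    rw [← lintegral_add_left (hm _ hF), ← lintegral_add_left (hm _ hg)]
    refine lintegral_congr fun z => ?_
    rw [← mul_add, ← mul_add]
    congr 1
    rcases le_total (F z) (g z) with hz | hz
    · rw [ENNReal.ofReal_eq_zero.2 (sub_nonpos.2 hz), add_zero,
        ← ENNReal.ofReal_add (hF0 z) (sub_nonneg.2 hz), add_sub_cancel]
    · rw [ENNReal.ofReal_eq_zero.2 (sub_nonpos.2 hz), add_zero,
        ← ENNReal.ofReal_add (hg0 z) (sub_nonneg.2 hz), add_sub_cancel]
  refine ENNReal.le_of_add_le_add_left hfin ?_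
  rw [← hbal]
  exact add_le_add hle le_rfl

lemma prod_wMass_pos_le (hg : IsProdMild T C g) (h : IsRenormSolution (g 0) F) {t : ℝ}
    (ht : t ∈ Icc 0 T) :
    wMass (fun z => F t z - g t z) ≤ wMass (fun z => g t z - F t z) := by
  obtain ⟨hFi, hFe⟩ := h.integrable t ht.1
  refine weighted_balance measurable_wt (h.measurable.comp measurable_prodMk_left)
    (hg.measurable.comp measurable_prodMk_left) (h.nonneg t) (hg.nonneg t ht)
    (hg.weighted_ne_top ht) ?_
  change wMass (F t) ≤ wMass (g t)
  rw [wMass_eq_ofReal (h.nonneg t) hFi hFe,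
    wMass_eq_ofReal (hg.nonneg t ht) (hg.integrable ht) (hg.integrable_sq ht)]
  refine ENNReal.ofReal_le_ofReal (add_le_add ?_ ?_)
  · rw [mass_eq h ht.1, hg.mass ht]
  · exact (h.energy t ht.1).trans_eq (hg.energy t ht).symm

lemma prod_posMass_pos_le (hg : IsProdMild T C g) (h : IsRenormSolution (g 0) F) {t : ℝ}
    (ht : t ∈ Icc 0 T) :
    posMass (fun z => F t z - g t z) ≤ posMass (fun z => g t z - F t z) := by
  have hgi := hg.integrable ht
  have hFi := (h.integrable t ht.1).1
  have e : ∀ u : Omega → ℝ, posMass u = ∫⁻ z : Omega, (1 : ℝ≥0∞) * ENNReal.ofReal (u z) :=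
    fun u => by simp [posMass]
  rw [e, e]
  refine weighted_balance (w := fun _ => (1 : ℝ≥0∞)) measurable_const
    (h.measurable.comp measurable_prodMk_left) (hg.measurable.comp measurable_prodMk_left)
    (h.nonneg t) (hg.nonneg t ht) ?_ (le_of_eq ?_)
  · simp only [one_mul]
    rw [← ofReal_integral_eq_lintegral_ofReal hgi (Filter.Eventually.of_forall (hg.nonneg t ht))]
    exact ENNReal.ofReal_ne_top
  · simp only [one_mul]
    rw [← ofReal_integral_eq_lintegral_ofReal hgi (Filter.Eventually.of_forall (hg.nonneg t ht)),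
      ← ofReal_integral_eq_lintegral_ofReal hFi (Filter.Eventually.of_forall (h.nonneg t)),
      mass_eq h ht.1, hg.mass ht]

end Vale.Agent.P140.Renorm
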