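import Vale.Agent.P140.Renorm.MomentUnique
import Vale.Agent.P140.Renorm.ProdBasic

/-!
# The weighted inequalities for an energy-conserving mild solution with moment production
-/

open MeasureTheory Real Set
open scoped RealInnerProductSpace ENNReal

namespace Vale.Agent.P140.Renorm

open Vale.Agent.P140

/-- `∫ u₊`. -/
noncomputable def posMass (u : Omega → ℝ) : ℝ≥0∞ := ∫⁻ z : Omega, ENNReal.ofReal (u z)

lemma lossRate_le_split {f : V3 → ℝ≥0∞} (hf : Measurable f) (v : V3) :
    lossRate f v ≤ (w1 v * (∫⁻ w, f w) + ∫⁻ w, w1 w * f w) * surface univ := by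
  calc lossRate f v ≤ ∫⁻ p : V3 × S2, (w1 v * f p.1 + w1 p.1 * f p.1)
        ∂((volume : Measure V3).prod surface) := by
        refine lintegral_mono fun p => ?_
        rw [← add_mul]
        refine mul_le_mul' ?_ le_rfl
        rw [w1, w1, ← ENNReal.ofReal_add (by positivity) (by positivity)]
        refine ENNReal.ofReal_le_ofReal ?_
        have hω : ‖(p.2 : V3)‖ = 1 := by simpa using p.2.2
        have := abs_real_inner_le_norm (v - p.1) (p.2 : V3)
        rw [hω, mul_one] at this
        rw [impact]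
        linarith [norm_sub_le v p.1]
    _ = _ := by
      rw [lintegral_add_left (by fun_prop), lintegral_const_mul _ (by fun_prop),
        lintegral_prod _ (by fun_prop), lintegral_prod _ (by fun_prop)]
      simp only [lintegral_const]
      rw [lintegral_mul_const' _ _ (measure_ne_top _ _),
        lintegral_mul_const' _ _ (measure_ne_top _ _)]
      ring

lemma lintegral_wt_loss_split_le {f h : V3 → ℝ≥0∞} (hf : Measurable f) (hh : Measurable h) :
    ∫⁻ v, wt v * (f v * lossRate h v) ≤
      (((∫⁻ v, w3 v * f v) * ∫⁻ w, h w) + (∫⁻ v, wt v * f v) * ∫⁻ w, w1 w * h w) *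
        surface univ := by
  rw [← lintegral_mul_const _ (by fun_prop), ← lintegral_mul_const _ (by fun_prop),
    ← lintegral_add_left (by fun_prop), ← lintegral_mul_const _ (by fun_prop)]
  refine lintegral_mono fun v => ?_
  calc wt v * (f v * lossRate h v)
      ≤ wt v * (f v * ((w1 v * (∫⁻ w, h w) + ∫⁻ w, w1 w * h w) * surface univ)) :=
        mul_le_mul' le_rfl (mul_le_mul' le_rfl (lossRate_le_split hh v))
    _ = (wt v * w1 v * f v * (∫⁻ w, h w) + wt v * f v * ∫⁻ w, w1 w * h w) * surface univ := by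
        ring
    _ ≤ _ := mul_le_mul' (add_le_add (mul_le_mul' (mul_le_mul' (wt_mul_w1_le v) le_rfl) le_rfl)
        le_rfl) le_rfl

lemma lintegral_slices (u : Omega → ℝ) (hu : Measurable u) {w : V3 → ℝ≥0∞} (hw : Measurable w) :
    ∫⁻ x : T3, ∫⁻ v, w v * slice u x v = ∫⁻ z : Omega, w z.2 * ENNReal.ofReal (u z) := by
  have hm : Measurable fun z : Omega => w z.2 * ENNReal.ofReal (u z) := by fun_prop
  rw [Measure.volume_eq_prod, lintegral_prod _ hm.aemeasurable]
  rfl

/-- The right-hand side at one instant, for a weight conserved by collisions. -/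
lemma prod_rate_le {w : V3 → ℝ≥0∞} (hw : Measurable w)
    (hgain : ∀ f h : V3 → ℝ≥0∞, Measurable f → Measurable h →
      (∫⁻ v, w v * gain f h v) + ∫⁻ v, w v * gain h f v =
        (∫⁻ v, w v * (f v * lossRate h v)) + ∫⁻ v, w v * (h v * lossRate f v))
    {F g : Omega → ℝ} (hF : Measurable F) (hg : Measurable g) (hF0 : ∀ z, 0 ≤ F z) {a b : ℝ≥0∞}
    (hb : ∀ x, ∀ h : V3 → ℝ≥0∞, Measurable h →
      ∫⁻ v, w v * (slice g x v * lossRate h v) ≤ a * (∫⁻ v, h v) + b * ∫⁻ v, wt v * h v) :
    (∫⁻ z : Omega, w z.2 * (majorant F g z + selfLoss F g z)) ≤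
      (∫⁻ z : Omega, w z.2 * (ENNReal.ofReal (g z - F z) * lossRate (slice g z.1) z.2)) +
        (a * (posMass (fun z => F z - g z) + 2 * posMass (fun z => g z - F z)) +
          b * (wMass (fun z => F z - g z) + 2 * wMass (fun z => g z - F z))) := by
  set nf := fun z => g z - F z with hnf
  set pf := fun z => F z - g z with hpf
  have hnm : Measurable nf := hg.sub hF
  have hpm : Measurable pf := hF.sub hg
  have hA : Measurable fun z : Omega =>
      w z.2 * (ENNReal.ofReal (nf z) * lossRate (slice g z.1) z.2) :=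
    (hw.comp measurable_snd).mul (hnm.ennreal_ofReal.mul (measurable_lossRate_slices hg))
  have hI : Measurable fun z : Omega => w z.2 * (majorant F g z + selfLoss F g z) :=
    (hw.comp measurable_snd).mul ((measurable_majorant hF hg).add (measurable_selfLoss hF hg))
  have hL : Measurable fun x : T3 => ∫⁻ v, w v * (slice nf x v * lossRate (slice g x) v) :=
    Measurable.lintegral_prod_right' (f := fun q : Omega =>
      w q.2 * (ENNReal.ofReal (nf q) * lossRate (slice g q.1) q.2)) hA
  have hm0 : ∀ u : Omega → ℝ, Measurable u → Measurable fun x : T3 => ∫⁻ v, slice u x v :=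
    fun u hu => Measurable.lintegral_prod_right' (f := fun q : T3 × V3 =>
      ENNReal.ofReal (u (q.1, q.2))) (by fun_prop)
  have hm2 : ∀ u : Omega → ℝ, Measurable u → Measurable fun x : T3 => ∫⁻ v, wt v * slice u x v :=
    fun u hu => Measurable.lintegral_prod_right' (f := fun q : T3 × V3 =>
      wt q.2 * ENNReal.ofReal (u (q.1, q.2))) (by fun_prop)
  have key : ∀ x : T3, ∫⁻ v, w v * (majorant F g (x, v) + selfLoss F g (x, v)) ≤
      (∫⁻ v, w v * (slice nf x v * lossRate (slice g x) v)) +
        (a * ((∫⁻ v, slice pf x v) + 2 * ∫⁻ v, slice nf x v) +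
          b * ((∫⁻ v, wt v * slice pf x v) + 2 * ∫⁻ v, wt v * slice nf x v)) := by
    intro x
    set G := slice g x with hG
    set n := slice nf x with hn
    set p := slice pf x with hp
    have hGm : Measurable G := measurable_slice hg x
    have hnm' : Measurable n := measurable_slice hnm x
    have hpm' : Measurable p := measurable_slice hpm x
    change ∫⁻ v, w v * (G v * lossRate p v + (gain n G v + gain G n v) + n v * lossRate n v) ≤ _
    simp only [mul_add]
    rw [lintegral_add_right _ (by fun_prop), lintegral_add_left (by fun_prop),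
      lintegral_add_left (by fun_prop), hgain n G hnm' hGm]
    have hnG : n ≤ G := fun v => ENNReal.ofReal_le_ofReal (by linarith [hF0 (x, v)])
    calc _ ≤ (a * (∫⁻ v, p v) + b * ∫⁻ v, wt v * p v) +
          ((∫⁻ v, w v * (n v * lossRate G v)) + (a * (∫⁻ v, n v) + b * ∫⁻ v, wt v * n v)) +
          (a * (∫⁻ v, n v) + b * ∫⁻ v, wt v * n v) := by
          gcongr
          · exact hb x p hpm'
          · exact hb x n hnm'
          · exact (lintegral_mono fun v => mul_le_mul' le_rfl
              (mul_le_mul' (hnG v) le_rfl)).trans (hb x n hnm')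
      _ = _ := by ring
  have hR0 : Measurable fun x : T3 => a * ((∫⁻ v, slice pf x v) + 2 * ∫⁻ v, slice nf x v) :=
    ((hm0 pf hpm).add ((hm0 nf hnm).const_mul 2)).const_mul a
  have e0 : ∀ u : Omega → ℝ, Measurable u → ∫⁻ x : T3, ∫⁻ v, slice u x v = posMass u :=
    fun u hu => by
      simpa [posMass] using lintegral_slices u hu (w := fun _ => (1 : ℝ≥0∞)) measurable_const
  have e2 : ∀ u : Omega → ℝ, Measurable u → ∫⁻ x : T3, ∫⁻ v, wt v * slice u x v = wMass u :=
    fun u hu => lintegral_slices u hu measurable_wt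
  calc (∫⁻ z : Omega, w z.2 * (majorant F g z + selfLoss F g z))
      = ∫⁻ x : T3, ∫⁻ v, w v * (majorant F g (x, v) + selfLoss F g (x, v)) := by
        rw [Measure.volume_eq_prod, lintegral_prod _ hI.aemeasurable]
    _ ≤ ∫⁻ x : T3, ((∫⁻ v, w v * (slice nf x v * lossRate (slice g x) v)) +
          (a * ((∫⁻ v, slice pf x v) + 2 * ∫⁻ v, slice nf x v) +
            b * ((∫⁻ v, wt v * slice pf x v) + 2 * ∫⁻ v, wt v * slice nf x v))) :=
        lintegral_mono key
    _ = _ := by
        rw [lintegral_add_left hL, lintegral_add_left hR0,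
          lintegral_const_mul _ (show Measurable fun x : T3 => (∫⁻ v, slice pf x v) +
            2 * ∫⁻ v, slice nf x v from (hm0 pf hpm).add ((hm0 nf hnm).const_mul 2)),
          lintegral_const_mul _ (show Measurable fun x : T3 => (∫⁻ v, wt v * slice pf x v) +
            2 * ∫⁻ v, wt v * slice nf x v from (hm2 pf hpm).add ((hm2 nf hnm).const_mul 2)),
          lintegral_add_left (hm0 pf hpm), lintegral_add_left (hm2 pf hpm),
          lintegral_const_mul _ (hm0 nf hnm), lintegral_const_mul _ (hm2 nf hnm),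
          e0 pf hpm, e0 nf hnm, e2 pf hpm, e2 nf hnm,
          Measure.volume_eq_prod, lintegral_prod _ hA.aemeasurable]
        rfl

lemma ofReal_add_integral_le {f : ℝ → ℝ} {S R : ℝ → ℝ≥0∞} {r t c : ℝ} (hrt : r ≤ t)
    (hf : IntervalIntegrable f volume r t) (hc : 0 ≤ c) (h0 : 0 ≤ c + ∫ s in r..t, f s)
    (h : ∀ᵐ s ∂((volume : Measure ℝ).restrict (Ioc r t)),
      ENNReal.ofReal (f s) + S s ≤ R s + ENNReal.ofReal (-f s)) :
    ENNReal.ofReal (c + ∫ s in r..t, f s) + ∫⁻ s in Ioc r t, S s ≤
      ENNReal.ofReal c + ∫⁻ s in Ioc r t, R s := by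
  have hfi : IntegrableOn f (Ioc r t) := hf.1
  have hm := hfi.aestronglyMeasurable.aemeasurable
  set P := ∫⁻ s in Ioc r t, ENNReal.ofReal (f s)
  set N := ∫⁻ s in Ioc r t, ENNReal.ofReal (-f s)
  have hPt : P ≠ ⊤ :=
    ne_top_of_le_ne_top hfi.hasFiniteIntegral.ne (lintegral_ofReal_le_lintegral_enorm _)
  have hNt : N ≠ ⊤ := ne_top_of_le_ne_top (show Integrable (fun s => -f s)
    ((volume : Measure ℝ).restrict (Ioc r t)) from hfi.neg).hasFiniteIntegral.ne
      (lintegral_ofReal_le_lintegral_enorm _)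
  have hle : P + ∫⁻ s in Ioc r t, S s ≤ (∫⁻ s in Ioc r t, R s) + N := by
    rw [← lintegral_add_left' hm.ennreal_ofReal,
      ← lintegral_add_right' _ (show AEMeasurable (fun s => ENNReal.ofReal (-f s))
        ((volume : Measure ℝ).restrict (Ioc r t)) from hm.neg.ennreal_ofReal)]
    exact lintegral_mono_ae h
  rw [intervalIntegral.integral_of_le hrt,
    integral_eq_lintegral_pos_part_sub_lintegral_neg_part hfi] at h0 ⊢
  refine ENNReal.le_of_add_le_add_right hNt ?_
  calc ENNReal.ofReal (c + (P.toReal - N.toReal)) + (∫⁻ s in Ioc r t, S s) + N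
      = ENNReal.ofReal (c + (P.toReal - N.toReal)) + ENNReal.ofReal N.toReal +
          ∫⁻ s in Ioc r t, S s := by rw [ENNReal.ofReal_toReal hNt]; ring
    _ = ENNReal.ofReal c + (P + ∫⁻ s in Ioc r t, S s) := by
      rw [← ENNReal.ofReal_add h0 ENNReal.toReal_nonneg,
        show c + (P.toReal - N.toReal) + N.toReal = c + P.toReal by ring,
        ENNReal.ofReal_add hc ENNReal.toReal_nonneg, ENNReal.ofReal_toReal hPt, add_assoc]
    _ ≤ _ := by rw [add_assoc]; exact add_le_add le_rfl hle

variable {T C : ℝ} {g : ℝ → Omega → ℝ} {F₀ : Omega → ℝ} {F : ℝ → Omega → ℝ}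

/-- The integrated inequality for one weight, between the times `r` and `t`. -/
lemma weighted_step {w : V3 → ℝ≥0∞} (hw : Measurable w) (hw' : ∀ v, w v ≠ ⊤)
    (hg : Measurable (Function.uncurry g)) (hF : Measurable (Function.uncurry F)) {r t : ℝ}
    (hpt : ∀ᵐ z : Omega, ENNReal.ofReal (g t (shift t z) - F t (shift t z)) +
        (∫⁻ s in Ioc r t, keptLoss (F s) (g s) (shift s z)) ≤
      ENNReal.ofReal (g r (shift r z) - F r (shift r z)) +
        ∫⁻ s in Ioc r t, majorant (F s) (g s) (shift s z))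
    (hA : (∫⁻ s in Ioc r t, ∫⁻ z : Omega, w z.2 *
      (ENNReal.ofReal (g s z - F s z) * lossRate (slice (g s) z.1) z.2)) ≠ ⊤)
    {R : ℝ → ℝ≥0∞} (hR : ∀ s ∈ Ioc r t,
      (∫⁻ z : Omega, w z.2 * (majorant (F s) (g s) z + selfLoss (F s) (g s) z)) ≤
        (∫⁻ z : Omega, w z.2 *
          (ENNReal.ofReal (g s z - F s z) * lossRate (slice (g s) z.1) z.2)) + R s) :
    (∫⁻ z : Omega, w z.2 * ENNReal.ofReal (g t z - F t z)) ≤
      (∫⁻ z : Omega, w z.2 * ENNReal.ofReal (g r z - F r z)) + ∫⁻ s in Ioc r t, R s := by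
  have hgm : ∀ s, Measurable (g s) := fun s => hg.comp measurable_prodMk_left
  have hFm : ∀ s, Measurable (F s) := fun s => hF.comp measurable_prodMk_left
  have hgF : Measurable (Function.uncurry fun s z => g s z - F s z) := hg.sub hF
  have hw2 : Measurable fun q : ℝ × Omega => w q.2.2 :=
    hw.comp (measurable_snd.comp measurable_snd)
  have hkm : Measurable fun q : ℝ × Omega => w q.2.2 * keptLoss (F q.1) (g q.1) q.2 :=
    hw2.mul (hgF.ennreal_ofReal.mul (measurable_lossRate_param hF))
  have hrm : Measurable fun q : ℝ × Omega => w q.2.2 * majorant (F q.1) (g q.1) q.2 :=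
    hw2.mul (measurable_majorant_param hF hg)
  have hLm : Measurable fun q : ℝ × Omega => w q.2.2 *
      (ENNReal.ofReal (g q.1 q.2 - F q.1 q.2) * lossRate (slice (g q.1) q.2.1) q.2.2) :=
    hw2.mul (hgF.ennreal_ofReal.mul (measurable_lossRate_param hg))
  set Lg := fun s => ∫⁻ z : Omega,
    w z.2 * (ENNReal.ofReal (g s z - F s z) * lossRate (slice (g s) z.1) z.2) with hLg
  set A := ∫⁻ s in Ioc r t, Lg s with hAd
  have swapI : ∀ f : ℝ × Omega → ℝ≥0∞, Measurable f →
      ∫⁻ z : Omega, ∫⁻ s in Ioc r t, f (s, shift s z) = ∫⁻ s in Ioc r t, ∫⁻ z, f (s, z) := by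
    intro f hf
    have hm : Measurable (Function.uncurry fun (z : Omega) (s : ℝ) => f (s, shift s z)) :=
      (hf.comp measurable_line).comp measurable_swap
    rw [lintegral_lintegral_swap hm.aemeasurable]
    exact lintegral_congr fun s =>
      (measurePreserving_shift s).lintegral_comp (f := fun z => f (s, z))
        (hf.comp measurable_prodMk_left)
  have hn : ∀ s, Measurable (fun z : Omega => w z.2 * ENNReal.ofReal (g s z - F s z)) := fun s =>
    (hw.comp measurable_snd).mul ((hgm s).sub (hFm s)).ennreal_ofReal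
  have h1 : (∫⁻ z : Omega, w z.2 * ENNReal.ofReal (g t z - F t z)) +
      (∫⁻ s in Ioc r t, ∫⁻ z : Omega, w z.2 * keptLoss (F s) (g s) z) ≤
      (∫⁻ z : Omega, w z.2 * ENNReal.ofReal (g r z - F r z)) +
        ∫⁻ s in Ioc r t, ∫⁻ z : Omega, w z.2 * majorant (F s) (g s) z := by
    rw [← swapI (fun q => w q.2.2 * keptLoss (F q.1) (g q.1) q.2) hkm,
      ← swapI (fun q => w q.2.2 * majorant (F q.1) (g q.1) q.2) hrm,
      ← (measurePreserving_shift t).lintegral_comp (hn t),
      ← (measurePreserving_shift r).lintegral_comp (hn r)]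
    simp only [shift_snd]
    rw [← lintegral_add_left (show Measurable (fun z : Omega =>
        w z.2 * ENNReal.ofReal (g t (shift t z) - F t (shift t z))) from
          (hn t).comp (measurable_shift t)),
      ← lintegral_add_left (show Measurable (fun z : Omega =>
        w z.2 * ENNReal.ofReal (g r (shift r z) - F r (shift r z))) from
          (hn r).comp (measurable_shift r))]
    refine lintegral_mono_ae (hpt.mono fun z hz => ?_)
    simp only [lintegral_const_mul' _ _ (hw' z.2)]
    rw [← mul_add, ← mul_add]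
    exact mul_le_mul' le_rfl hz
  have h2 : A ≤ (∫⁻ s in Ioc r t, ∫⁻ z : Omega, w z.2 * keptLoss (F s) (g s) z) +
      ∫⁻ s in Ioc r t, ∫⁻ z : Omega, w z.2 * selfLoss (F s) (g s) z := by
    rw [← lintegral_add_left (Measurable.lintegral_prod_right' (f := fun q : ℝ × Omega =>
      w q.2.2 * keptLoss (F q.1) (g q.1) q.2) hkm)]
    refine lintegral_mono fun s => ?_
    rw [hLg, ← lintegral_add_left (show Measurable (fun z : Omega =>
      w z.2 * keptLoss (F s) (g s) z) from
        (hw.comp measurable_snd).mul (measurable_keptLoss (hFm s) (hgm s)))]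
    refine lintegral_mono fun z => ?_
    simp only [keptLoss, selfLoss]
    rw [← mul_add, ← mul_add]
    refine mul_le_mul' le_rfl (mul_le_mul' le_rfl ?_)
    rw [← lossRate_add (measurable_slice (hFm s) _)]
    refine lossRate_mono (fun v => ?_) _
    simp only [slice]
    exact le_trans (le_of_eq (by ring_nf)) ENNReal.ofReal_add_le
  have h3 : (∫⁻ s in Ioc r t, ∫⁻ z : Omega, w z.2 * majorant (F s) (g s) z) +
      (∫⁻ s in Ioc r t, ∫⁻ z : Omega, w z.2 * selfLoss (F s) (g s) z) ≤
      A + ∫⁻ s in Ioc r t, R s := by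
    have hm1 : Measurable fun s => ∫⁻ z : Omega, w z.2 * majorant (F s) (g s) z :=
      Measurable.lintegral_prod_right' hrm
    have hm3 : Measurable Lg := Measurable.lintegral_prod_right' hLm
    rw [hAd, ← lintegral_add_left hm1, ← lintegral_add_left hm3]
    refine lintegral_mono_ae ((ae_restrict_iff' measurableSet_Ioc).2
      (Filter.Eventually.of_forall fun s hs => ?_))
    rw [← lintegral_add_left (show Measurable (fun z : Omega =>
      w z.2 * majorant (F s) (g s) z) from
        (hw.comp measurable_snd).mul (measurable_majorant (hFm s) (hgm s)))]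
    simp only [← mul_add]
    exact hR s hs
  refine ENNReal.le_of_add_le_add_left hA ?_
  calc A + (∫⁻ z : Omega, w z.2 * ENNReal.ofReal (g t z - F t z))
      ≤ ((∫⁻ s in Ioc r t, ∫⁻ z : Omega, w z.2 * keptLoss (F s) (g s) z) +
        ∫⁻ s in Ioc r t, ∫⁻ z : Omega, w z.2 * selfLoss (F s) (g s) z) +
          ∫⁻ z : Omega, w z.2 * ENNReal.ofReal (g t z - F t z) := add_le_add h2 le_rfl
    _ = ((∫⁻ z : Omega, w z.2 * ENNReal.ofReal (g t z - F t z)) +
          ∫⁻ s in Ioc r t, ∫⁻ z : Omega, w z.2 * keptLoss (F s) (g s) z) +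
        ∫⁻ s in Ioc r t, ∫⁻ z : Omega, w z.2 * selfLoss (F s) (g s) z := by ring
    _ ≤ ((∫⁻ z : Omega, w z.2 * ENNReal.ofReal (g r z - F r z)) +
          ∫⁻ s in Ioc r t, ∫⁻ z : Omega, w z.2 * majorant (F s) (g s) z) +
        ∫⁻ s in Ioc r t, ∫⁻ z : Omega, w z.2 * selfLoss (F s) (g s) z := add_le_add h1 le_rfl
    _ ≤ (∫⁻ z : Omega, w z.2 * ENNReal.ofReal (g r z - F r z)) +
          (A + ∫⁻ s in Ioc r t, R s) := by
        rw [add_assoc]; exact add_le_add le_rfl h3
    _ = _ := by ring

end Vale.Agent.P140.Renorm
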